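import Vale.Agent.P304.FSBasic

/-!
P304, tight bound O(log^2 k): the interfaces between the parts.  See notes/P304_sq.md.
-/

namespace Vale.Agent.P304.Sq

open Finset

variable {Ω : Type} [Fintype Ω]

section Level

variable {X : Type} {k : ℕ}

/-- dyadic scales -/
noncomputable def uu (i : ℕ) : ℝ := 1 / (10 * 2 ^ i)

/-- logarithm of the truncated ball mass -/
noncomputable def lm (d : X → X → ℝ) (w : Ω → ℝ) (x : Ω → Fin k → X) (r : X) (u : ℝ) : ℝ :=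
  Real.log (max (ballMass d w x r u) (1 / 2))

/-- The second budget of one scale: summable over geometric scales with sum `O(log k)`. -/
noncomputable def budget2 (d : X → X → ℝ) (w : Ω → ℝ) (x : Ω → Fin k → X) (r : X) : ℝ :=
  ∑ i ∈ range (k + 1), uu i * (lm d w x r 11 - lm d w x r (uu i / 2))

/-- What one scale may spend in step `t → t+1`. -/
noncomputable def gain2 {F : FS Ω} (S : Svc F X k) (d : X → X → ℝ) (t : ℕ) (ω : Ω) : ℝ :=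
  Lk k * (min (S.step d t ω) 1) ^ 2 +
    Lk k * (min (∑ ω', F.cw (t + 1) ω ω' * S.step d t ω') 1) ^ 2 +
    (budget d (F.cw (t + 1) ω) (S.x t) (S.r (t + 1) ω) +
      budget2 d (F.cw (t + 1) ω) (S.x t) (S.r (t + 1) ω)) *
      ∑ ω', F.cw (t + 1) ω ω' * S.step d t ω'

end Level

open Classical in
/-- One scale of the dynamic embedding with total distortion `O(log k)`. -/
def LevelStmt2 : Prop :=
  ∃ C : ℝ, 0 < C ∧ ∀ (k : ℕ), 2 ≤ k → ∀ (Ω : Type) [Fintype Ω] (F : FS Ω) (X : Type) [Fintype X]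
    (d : X → X → ℝ), IsD d → ∀ (S : Svc F X k) (T : ℕ) (l₀ : Fin k) (ε : ℝ), 0 < ε →
    ∃ lab : ℕ → Ω → X → (Fin (T + 1) ⊕ (Fin (T + 1) × Fin (T + 1)) ⊕ X), F.Adapted lab ∧
      (∀ ω ω', lab 0 ω = lab 0 ω') ∧
      (∀ t ω a b, lab t ω a = lab t ω b → d a b ≤ 6) ∧
      (∀ ω l, d (S.s l) (S.s l₀) ≤ 2 → lab 0 ω (S.s l) = lab 0 ω (S.s l₀)) ∧
      F.E (fun ω => ∑ t ∈ range T, ∑ l : Fin k,
          if lab t ω (S.x t ω l) = lab (t + 1) ω (S.x (t + 1) ω l) then (0 : ℝ) else 1) ≤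
        C * F.E (fun ω => ∑ t ∈ range T, gain2 S d t ω) +
          C * Lk k * ∑ l : Fin k, (min (d (S.s l) (S.s l₀)) 1) ^ 2 + ε

/-- The tree game with ratio `O(log k)`. -/
def TreeStmt2 : Prop :=
  ∃ C : ℝ, 0 < C ∧ ∀ (k : ℕ), 2 ≤ k → ∀ (Ω : Type) [Fintype Ω] (F : FS Ω)
    (X : Type) [MetricSpace X] (Lab : Type) [Fintype Lab] [DecidableEq Lab]
    (W : ℝ) (J T n₀ : ℕ) (D : ℝ) (s : Fin k → X) (p₀ : Fin k → List Lab)
    (p : ℕ → Ω → Fin k → List Lab) (x : ℕ → Ω → Fin k → X),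
    0 < W → (∀ a b : X, dist a b ≤ 24 * wt W J → a = b) →
    (∀ t ω l, (p t ω l).length ≤ J) →
    (∀ ω, p 0 ω = p₀) → (∀ ω, x 0 ω = s) → (∀ l l', dist (s l) (s l') ≤ D) →
    (∀ v : List Lab, v.length < n₀ → ∀ l l', v <:+ p₀ l → v <:+ p₀ l') →
    (∀ t ω ω' l l' v, F.rel t ω ω' → v <:+ p t ω l → v <:+ p t ω' l' →
      dist (x t ω l) (x t ω' l') ≤ 6 * wt W v.length) →
    (∀ t, (∀ ω l, p (t + 1) ω l <:+ p t ω l ∧
              dist (x t ω l) (x (t + 1) ω l) ≤ wt W (p (t + 1) ω l).length) ∨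
          ((∀ ω ω', F.rel t ω ω' → F.rel (t + 1) ω ω') ∧
            ∀ ω l, p t ω l <:+ p (t + 1) ω l ∧ x (t + 1) ω l = x t ω l)) →
    ∃ V : ℕ → Ω → Fin k → X, F.Adapted V ∧
      (∀ t ω (v : List Lab) (a : X), v.length = J →
        (∀ ω', F.rel t ω ω' → ∃ l, p t ω' l = v ∧ x t ω' l = a) → ∃ i, V t ω i = a) ∧
      F.E (fun ω => ∑ i, dist (s i) (V 0 ω i) +
          ∑ t ∈ range T, ∑ i, dist (V t ω i) (V (t + 1) ω i)) ≤
        C * Lk k * F.E (fun ω => ∑ t ∈ range T, ∑ l, td W J (p t ω l) (p (t + 1) ω l)) +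
        C * Lk k * F.E (fun ω => ∑ t ∈ range T, ∑ l, dist (x t ω l) (x (t + 1) ω l)) +
        C * k * Lk k * (wt W n₀ + D)

/-- The Bayesian theorem with ratio `O(log^2 k)`. -/
def BayesStmt2 : Prop :=
  ∃ C : ℝ, 0 < C ∧ ∀ (k : ℕ), 2 ≤ k → ∀ (Ω : Type) [Fintype Ω] (F : FS Ω)
    (X : Type) [MetricSpace X] [Fintype X] (S : Svc F X k) (T : ℕ) (D : ℝ),
    (∀ l l', dist (S.s l) (S.s l') ≤ D) →
    ∃ V : ℕ → Ω → Fin k → X, F.Adapted V ∧ (∀ ω, V 0 ω = S.s) ∧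
      (∀ t ω, ∃ i, V (t + 1) ω i = S.r (t + 1) ω) ∧
      F.E (fun ω => ∑ t ∈ range T, ∑ i, dist (V t ω i) (V (t + 1) ω i)) ≤
        C * Lk k ^ 2 * F.E (fun ω => ∑ t ∈ range T, S.step dist t ω) +
          C * k * Lk k ^ 2 * (D + 1)

end Vale.Agent.P304.Sq
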