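import Vale.Agent.P304.Final
import Vale.Agent.P304.Sq.Defs

/-! P304 tight bound, FINAL: lazy algorithm, minimax, reduction to finite spaces, compactness. -/

namespace Vale.Agent.P304.KS

open Finset

universe u

theorem bayes_lazy2 (H : Sq.BayesStmt2) : ∃ C : ℝ, 0 < C ∧ ∀ (k : ℕ), 2 ≤ k →
    ∀ (X : Type) [MetricSpace X] [Fintype X] (s : Fin k → X) (D : ℝ),
    (∀ l l', dist (s l) (s l') ≤ D) → ∀ (T : ℕ) (ι : Type) [Fintype ι] (σ : ι → List X),
    (∀ j, (σ j).length = T) → ∀ π : ι → ℝ, (∀ j, 0 ≤ π j) → ∑ j, π j = 1 →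
    ∃ A : RP X k, ∑ j, π j * rCost A [] s (σ j) ≤
      ∑ j, π j * (C * Lk k ^ 2 * OPT s (σ j) + C * k * Lk k ^ 2 * (D + 1)) := by
  classical
  obtain ⟨C, hC, H⟩ := H
  refine ⟨C, hC, fun k hk X _ _ s D hD T ι _ σ hσ π h0 h1 => ?_⟩
  have hk0 : 0 < k := by omega
  set i₀ : Fin k := ⟨0, hk0⟩
  choose l hl1 hl2 using fun j => OPT_exists hk0 s (σ j)
  have hsum : ∀ f : ι → ℝ, ∑ j, π j * f j = ∑ ω : {j // 0 < π j}, π ω.1 * f ω.1 := fun f => by
    rw [← sum_subtype (univ.filter fun j => 0 < π j) (by simp) fun j => π j * f j, sum_filter]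
    refine sum_congr rfl fun j _ => ?_
    split_ifs with h
    · rfl
    · rw [le_antisymm (not_lt.1 h) (h0 j), zero_mul]
  let F : FS {j // 0 < π j} :=
    { P := fun ω => π ω.1
      pos := fun ω => ω.2
      sum_one := by simpa [h1] using (hsum fun _ => 1).symm
      rel := fun t ω ω' => (σ ω.1).take t = (σ ω'.1).take t
      equiv := fun t => ⟨fun _ => rfl, Eq.symm, Eq.trans⟩
      anti := fun t ω ω' h => by
        have := congrArg (List.take t) h
        simpa [List.take_take] using this }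
  let R : ι → ℕ → X := fun j t => (σ j).getD t (s i₀)
  let M : ι → ℕ → Fin k := fun j t => ((l j).map Prod.snd).getD t i₀
  let S : Svc F X k :=
    { s := s
      r := fun t ω => Nat.casesOn t (s i₀) (R ω.1)
      r_ad := fun t ω ω' h => by
        cases t with
        | zero => rfl
        | succ t =>
          have h' : (σ ω.1).take (t + 1) = (σ ω'.1).take (t + 1) := h
          have := congrArg (fun L => L[t]?) h'
          simp only [List.getElem?_take_of_succ] at this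
          simp only [R, List.getD_eq_getElem?_getD, this]
      mv := fun t ω => Nat.casesOn t i₀ (M ω.1)
      x := fun t ω => traj s (R ω.1) (M ω.1) t
      x_zero := fun _ => rfl
      x_succ := fun _ _ => rfl }
  obtain ⟨V, hV1, hV2, hV3, hV4⟩ := H k hk _ F X S T D hD
  have key : ∀ L : List X, ∃ i : Fin k, ∀ (ω : {j // 0 < π j}) (t : ℕ), t < T →
      L = (σ ω.1).take (t + 1) → V (t + 1) ω i = R ω.1 t := by
    intro L
    by_cases hL : ∃ (ω : {j // 0 < π j}) (t : ℕ), t < T ∧ L = (σ ω.1).take (t + 1)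
    · obtain ⟨ω, t, ht, hL⟩ := hL
      obtain ⟨i, hi⟩ := hV3 t ω
      refine ⟨i, fun ω' t' ht' hL' => ?_⟩
      have e : t = t' := by
        have := congrArg List.length (hL.symm.trans hL')
        simp only [List.length_take, hσ] at this
        omega
      subst e
      have hr : F.rel (t + 1) ω ω' := hL.symm.trans hL'
      rw [← hV1 _ _ _ hr, hi]
      exact S.r_ad _ _ _ hr
    · exact ⟨i₀, fun ω t ht e => absurd ⟨ω, t, ht, e⟩ hL⟩
  choose a ha using key
  refine ⟨det a, ?_⟩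
  have hopt : ∀ ω, ∑ t ∈ range T, S.step dist t ω = OPT s (σ ω.1) := fun ω => by
    have hlen : (l ω.1).length = T := by rw [← hσ ω.1, ← hl1, List.length_map]
    rw [← hl2, ← hlen]
    refine svcCost_eq_sum (l ω.1) (traj s (R ω.1) (M ω.1)) (R ω.1) (M ω.1) (fun _ => rfl)
      fun t h => ?_
    simp only [R, M, ← hl1]
    rw [List.getD_eq_getElem _ _ (by simpa using h), List.getD_eq_getElem _ _ (by simpa using h)]
    simp
  have hlazy : ∀ ω : {j // 0 < π j}, rCost (det a) [] s (σ ω.1) ≤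
      ∑ t ∈ range T, ∑ i, dist (V t ω i) (V (t + 1) ω i) := fun ω => by
    have := rCost_det a (σ ω.1) [] s (fun t => V t ω) fun t ht => by
      rw [List.map_nil, List.nil_append, ha _ ω t (hσ ω.1 ▸ ht) rfl]
      exact List.getD_eq_getElem _ _ ht
    rw [hσ, hV2] at this
    simpa [S] using this
  rw [hsum, hsum]
  refine (F.E_mono hlazy).trans (hV4.trans (le_of_eq ?_))
  rw [funext hopt, ← F.E_mul, ← F.E_const (C * k * Lk k ^ 2 * (D + 1)), ← F.E_add]
  simp only [F.E_const]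
  rfl

theorem fin_case2 (H : Sq.BayesStmt2) : ∃ C : ℝ, 0 < C ∧ ∀ (k : ℕ), 2 ≤ k →
    ∀ (X : Type) [MetricSpace X] [Fintype X] (s : Fin k → X) (D : ℝ),
    (∀ l l', dist (s l) (s l') ≤ D) → ∀ S : Finset (List X),
    ∃ A : RP X k, ∀ σ ∈ S, rCost A [] s σ ≤
      C * Lk k ^ 2 * OPT s σ + C * k * Lk k ^ 2 * (D + 1) := by
  obtain ⟨C, hC, H⟩ := bayes_lazy2 H
  refine ⟨C, hC, fun k hk X _ _ s D hD S => ?_⟩
  have hk0 : 0 < k := by omega
  set T := S.sup List.length
  choose τ h1 h2 using fun σ : List X => OPT_pad hk0 s σ (T - σ.length)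
  have hlen : ∀ j : S, (j.1 ++ τ j.1).length = T := fun j => by
    have : j.1.length ≤ T := le_sup (f := List.length) j.2
    rw [List.length_append, h1]
    omega
  obtain ⟨A, hA⟩ := minimax (K := RP X k) (ι := S) (fun A j => rCost A [] s (j.1 ++ τ j.1))
    (continuous_pi fun j => continuous_rCost _ _ _)
    (fun j => C * Lk k ^ 2 * OPT s (j.1 ++ τ j.1) + C * k * Lk k ^ 2 * (D + 1))
    (det fun _ => ⟨0, hk0⟩)
    (fun A₁ A₂ a c ha hc hac => by
      obtain ⟨A, hA⟩ := exists_mix A₁ A₂ ha hc hac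
      exact ⟨A, funext fun j => hA _ _⟩)
    (H k hk X s D hD T S (fun j => j.1 ++ τ j.1) hlen)
  refine ⟨A, fun σ hσ => (rCost_le_append A σ (τ σ) [] s).trans ((hA ⟨σ, hσ⟩).trans ?_)⟩
  have := h2 σ
  have : 0 ≤ C * Lk k ^ 2 := by positivity
  gcongr

theorem gen_case2 (H : Sq.BayesStmt2) : ∃ C : ℝ, 0 < C ∧ ∀ (k : ℕ), 2 ≤ k →
    ∀ (X : Type u) [MetricSpace X] (s : Fin k → X) (D : ℝ),
    (∀ l l', dist (s l) (s l') ≤ D) → ∀ S : Finset (List X),
    ∃ A : RP X k, ∀ σ ∈ S, rCost A [] s σ ≤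
      C * Lk k ^ 2 * OPT s σ + C * k * Lk k ^ 2 * (D + 1) := by
  classical
  obtain ⟨C, hC, H⟩ := fin_case2 H
  refine ⟨C, hC, fun k hk X _ s D hD S => ?_⟩
  have hk0 : 0 < k := by omega
  set Z : Finset X := univ.image s ∪ S.biUnion List.toFinset
  let ι : Fn Z.card → X := fun a => (Z.equivFin.symm a : Z)
  have hinj : Function.Injective ι := Subtype.val_injective.comp Z.equivFin.symm.injective
  have hsur : ∀ x ∈ Z, ∃ a, ι a = x := fun x hx => ⟨Z.equivFin ⟨x, hx⟩, by simp [ι]⟩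
  let _ : Fintype (Fn Z.card) := inferInstanceAs (Fintype (Fin Z.card))
  let _ : MetricSpace (Fn Z.card) := MetricSpace.induced ι hinj inferInstance
  have hι : ∀ a b : Fn Z.card, dist (ι a) (ι b) = dist a b := fun _ _ => rfl
  have hs : ∀ l, s l ∈ Z := fun l => mem_union_left _ (mem_image_of_mem _ (mem_univ _))
  have : Nonempty (Fn Z.card) := ⟨(hsur _ (hs ⟨0, hk0⟩)).choose⟩
  set ρ := Function.invFun ι
  have hρ : ∀ y, ρ (ι y) = y := Function.leftInverse_invFun hinj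
  have hρ' : ∀ x ∈ Z, ι (ρ x) = x := fun x hx => Function.invFun_eq (hsur x hx)
  have hs' : ι ∘ (ρ ∘ s) = s := funext fun l => hρ' _ (hs l)
  obtain ⟨A, hA⟩ := H k hk (Fn Z.card) (ρ ∘ s) D
    (fun l l' => by rw [← hι, Function.comp_apply, Function.comp_apply, hρ' _ (hs l),
      hρ' _ (hs l')]; exact hD l l') (S.image (List.map ρ))
  obtain ⟨A', hA'⟩ := exists_map ι hι ρ hρ A
  refine ⟨A', fun σ hσ => ?_⟩
  have e : (σ.map ρ).map ι = σ := by
    rw [List.map_map]
    conv_rhs => rw [← List.map_id σ]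
    exact List.map_congr_left fun x hx => hρ' x
      (mem_union_right _ (mem_biUnion.2 ⟨σ, hσ, List.mem_toFinset.2 hx⟩))
  have h1 := hA' (ρ ∘ s) (σ.map ρ)
  have h2 := OPT_map hk0 ι hι (ρ ∘ s) (σ.map ρ)
  rw [hs', e] at h1 h2
  rw [h1]
  refine (hA _ (mem_image_of_mem _ hσ)).trans ?_
  have : 0 ≤ C * Lk k ^ 2 := by positivity
  gcongr

theorem final2 (H : Sq.BayesStmt2) : ∃ C : ℝ, ∀ k : ℕ, 2 ≤ k → ∀ (X : Type u) [MetricSpace X]
    (s : Fin k → X), ∃ (A : Policy X k) (B : ℝ), ∀ σ : List X,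
      expCost A [] s σ ≤ C * Real.log k ^ 2 * OPT s σ + B := by
  obtain ⟨C, hC, H⟩ := gen_case2.{u} H
  refine ⟨C * 4 ^ 2, fun k hk X _ s => ?_⟩
  obtain ⟨D, hD⟩ : ∃ D, ∀ l l', dist (s l) (s l') ≤ D := by
    obtain ⟨D, hD⟩ := Finite.bddAbove_range fun q : Fin k × Fin k => dist (s q.1) (s q.2)
    exact ⟨D, fun l l' => hD ⟨(l, l'), rfl⟩⟩
  have key : ∃ A : RP X k, ∀ σ, rCost A [] s σ ≤
      C * Lk k ^ 2 * OPT s σ + C * k * Lk k ^ 2 * (D + 1) := by
    have := (isCompact_univ (X := RP X k)).inter_iInter_nonempty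
      (fun σ : List X => {A : RP X k | rCost A [] s σ ≤
        C * Lk k ^ 2 * OPT s σ + C * k * Lk k ^ 2 * (D + 1)})
      (fun σ => isClosed_le (continuous_rCost _ _ _) continuous_const) fun S => by
        obtain ⟨A, hA⟩ := H k hk X s D hD S
        exact ⟨A, Set.mem_univ _, Set.mem_iInter₂.2 hA⟩
    obtain ⟨A, -, hA⟩ := this
    exact ⟨A, Set.mem_iInter.1 hA⟩
  obtain ⟨A, hA⟩ := key
  obtain ⟨P, hP⟩ := exists_policy A
  refine ⟨P, C * k * Lk k ^ 2 * (D + 1), fun σ => ?_⟩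
  rw [hP]
  refine (hA σ).trans ?_
  have h2 : Real.log 2 ≤ Real.log k := Real.log_le_log two_pos (by exact_mod_cast hk)
  have h3 := Real.log_two_gt_d9
  have h4 : Lk k ≤ 4 * Real.log k := by unfold Lk; linarith
  have h5 : 0 ≤ Lk k := by unfold Lk; linarith
  have h6 := OPT_nonneg (by omega : 0 < k) s σ
  rw [mul_assoc C (4 ^ 2), ← mul_pow]
  gcongr

end Vale.Agent.P304.KS
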