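import Vale.Agent.P304.Glue
import Vale.Agent.P304.LAvg
import Vale.Agent.P304.Sq.GPath

/-! P304 tight bound, GLUE: the Bayesian theorem from the level and tree statements. -/

namespace Vale.Agent.P304.Sq

open Finset

theorem glue_shift {H : ℕ → ℝ} {a b : ℝ} (h0 : ∀ n, a ≤ H n) (h1 : ∀ n, H n ≤ b) (p N : ℕ) :
    ∑ n ∈ range N, (H n - H (n + p)) ≤ p * (b - a) := by
  have key : ∑ n ∈ range N, (H n - H (n + p)) = ∑ j ∈ range p, (H j - H (N + j)) := by
    induction N with
    | zero => simp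
    | succ N ih =>
      rw [sum_range_succ, ih]
      have e1 := sum_range_succ (fun j => H (N + j)) p
      have e2 := sum_range_succ' (fun j => H (N + j)) p
      simp only [sum_sub_distrib]
      have e3 : ∑ j ∈ range p, H (N + 1 + j) = ∑ j ∈ range p, H (N + (j + 1)) :=
        sum_congr rfl fun j _ => by congr 1; omega
      rw [e3]
      simp only [add_zero] at e2
      linarith
  rw [key]
  have := sum_le_card_nsmul (range p) (fun j => H j - H (N + j)) (b - a) fun j _ => by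
    linarith [h0 (N + j), h1 j]
  simpa using this

theorem glue_uu (n : ℕ) : ∑ i ∈ range n, uu i * ((8 + i : ℕ) : ℝ) ≤ 2 := by
  have key : ∀ n : ℕ, ∑ i ∈ range n, uu i * ((8 + i : ℕ) : ℝ) + (9 + n) / (5 * 2 ^ n) = 9 / 5 := by
    intro n
    induction n with
    | zero => norm_num
    | succ n ih =>
      rw [sum_range_succ, ← ih]
      unfold uu
      push_cast
      field_simp
      ring
  have : (0 : ℝ) ≤ (9 + n) / (5 * 2 ^ n) := by positivity
  linarith [key n]

theorem glue_budget2 {Ω : Type} [Fintype Ω] {X : Type} [MetricSpace X] {k : ℕ} (hk : 2 ≤ k)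
    {W : ℝ} (hW : 0 < W) (w : Ω → ℝ) (hw : ∀ ω, 0 ≤ w ω) (h1 : ∑ ω, w ω = 1)
    (x : Ω → Fin k → X) (r : X) (N : ℕ) :
    ∑ n ∈ range N, budget2 (fun a b => dist a b / wt W n) w x r ≤ 2 * Lk k := by
  classical
  have hk' : (2 : ℝ) ≤ k := by exact_mod_cast hk
  have hb : ∀ n u, ballMass (fun a b => dist a b / wt W n) w x r u = ballMass dist w x r (u * wt W n) :=
    fun n u => by simp only [ballMass, div_le_iff₀ (wt_pos hW n)]
  set H : ℕ → ℝ := fun n => lm dist w x r (11 * wt W n) with hH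
  have hlo : ∀ n, Real.log (1 / 2) ≤ H n := fun n => Real.log_le_log (by norm_num) (le_max_right _ _)
  have hhi : ∀ n, H n ≤ Real.log k := fun n =>
    Real.log_le_log (lt_max_of_lt_right (by norm_num)) (max_le (Lv.ballMass_le hw h1 _) (by linarith))
  have hL : Real.log k - Real.log (1 / 2) ≤ Lk k := by
    rw [one_div, Real.log_inv]
    have := Real.log_two_lt_d9
    unfold Lk
    linarith
  have hL0 := two_le_Lk (k := k) (by omega)
  have hu : ∀ i, 0 < uu i := fun i => by unfold uu; positivity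
  calc _ ≤ ∑ n ∈ range N, ∑ i ∈ range (k + 1), uu i * (H n - H (n + (8 + i))) := by
        refine sum_le_sum fun n _ => sum_le_sum fun i _ => mul_le_mul_of_nonneg_left ?_ (hu i).le
        have e1 : lm (fun a b => dist a b / wt W n) w x r 11 = H n := by simp only [lm, hb, hH]
        have e2 : H (n + (8 + i)) ≤ lm (fun a b => dist a b / wt W n) w x r (uu i / 2) := by
          simp only [lm, hb, hH]
          refine Real.log_le_log (lt_max_of_lt_right (by norm_num))
            (max_le_max (Lv.ballMass_mono hw ?_) le_rfl)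
          unfold wt uu
          rw [pow_add, pow_add]
          have : (0 : ℝ) < 2 ^ n := by positivity
          have : (0 : ℝ) < 2 ^ i := by positivity
          rw [div_div, div_mul_div_comm, ← mul_div_assoc, div_le_div_iff₀ (by positivity) (by positivity)]
          have : 0 < W * (2 ^ n * 2 ^ i) := by positivity
          nlinarith
        linarith
    _ ≤ ∑ i ∈ range (k + 1), uu i * ((8 + i : ℕ) : ℝ) * Lk k := by
        rw [sum_comm]
        refine sum_le_sum fun i _ => ?_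
        rw [← mul_sum, mul_assoc]
        refine mul_le_mul_of_nonneg_left ((glue_shift hlo hhi _ _).trans ?_) (hu i).le
        gcongr
    _ ≤ _ := by
        rw [← sum_mul]
        have := glue_uu (k + 1)
        gcongr

theorem glue_gain2 {Ω : Type} [Fintype Ω] {F : FS Ω} {X : Type} [MetricSpace X] {k : ℕ}
    (hk : 2 ≤ k) (S : Svc F X k) {W : ℝ} (hW : 0 < W) (N t : ℕ) (ω : Ω) :
    ∑ n ∈ range N, wt W n * gain2 S (fun a b => dist a b / wt W n) t ω ≤
      6 * Lk k * S.step dist t ω + 52 * Lk k * ∑ ω', F.cw (t + 1) ω ω' * S.step dist t ω' := by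
  set b := ∑ ω', F.cw (t + 1) ω ω' * S.step dist t ω' with hb
  have hb0 : 0 ≤ b := sum_nonneg fun _ _ => mul_nonneg (F.cw_nonneg _ _ _) dist_nonneg
  have hL := two_le_Lk (k := k) (by omega)
  have e : ∀ n, wt W n * gain2 S (fun a b => dist a b / wt W n) t ω =
      Lk k * (wt W n * min (S.step dist t ω / wt W n) 1 ^ 2) + Lk k * (wt W n * min (b / wt W n) 1 ^ 2) +
      (b * budget (fun a b => dist a b / wt W n) (F.cw (t + 1) ω) (S.x t) (S.r (t + 1) ω) +
      b * budget2 (fun a b => dist a b / wt W n) (F.cw (t + 1) ω) (S.x t) (S.r (t + 1) ω)) := by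
    intro n
    have e1 : ∑ ω', F.cw (t + 1) ω ω' * S.step (fun a b => dist a b / wt W n) t ω' = b / wt W n := by
      rw [hb, sum_div]
      exact sum_congr rfl fun _ _ => (mul_div_assoc _ _ _).symm
    have := (wt_pos hW n).ne'
    rw [gain2, e1]
    change wt W n * (Lk k * min (S.step dist t ω / wt W n) 1 ^ 2 + _ + _) = _
    field_simp
  simp only [e, sum_add_distrib, ← mul_sum]
  have h1 := mul_le_mul_of_nonneg_left (glue_sum_sq (a := S.step dist t ω) dist_nonneg hW N)
    (show 0 ≤ Lk k by linarith)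
  have h2 := mul_le_mul_of_nonneg_left (glue_sum_sq hb0 hW N) (show 0 ≤ Lk k by linarith)
  have h3 := mul_le_mul_of_nonneg_left (glue_budget hk hW (F.cw (t + 1) ω) (F.cw_nonneg _ _)
    (F.sum_cw _ _) (S.x t) (S.r (t + 1) ω) N) hb0
  have h4 := mul_le_mul_of_nonneg_left (glue_budget2 hk hW (F.cw (t + 1) ω) (F.cw_nonneg _ _)
    (F.sum_cw _ _) (S.x t) (S.r (t + 1) ω) N) hb0
  nlinarith

theorem bayes2 (HL : LevelStmt2) (HT : TreeStmt2) : BayesStmt2 := by
  classical
  obtain ⟨C₁, hC₁, HL⟩ := HL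
  obtain ⟨C₂, hC₂, HT⟩ := glue_tree2 HT
  refine ⟨C₂ * (232 * C₁ + 10), by positivity, fun k hk Ω _ F X _ _ S T D hD => ?_⟩
  set l₀ : Fin k := ⟨0, by omega⟩
  have hD0 : 0 ≤ D := dist_nonneg.trans (hD l₀ l₀)
  obtain ⟨W, J, n₀, hW, hWd, hJ, hn₀, hn₁, hn₂⟩ := glue_params X hD0
  choose lab h1 h2 h3 h4 h5 using fun n => HL k hk Ω F X (fun a b => dist a b / wt W n)
    ⟨fun a => by simp, fun a b => by rw [dist_comm], fun a b c => by
      rw [← add_div]
      exact div_le_div_of_nonneg_right (dist_triangle _ _ _) (wt_pos hW n).le⟩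
    S T l₀ (1 / W) (by positivity)
  obtain ⟨V, hV1, hV2, hV3, hV4⟩ := HT k hk Ω F X S _ W J T n₀ D lab (fun a => Sum.inr (Sum.inr a))
    (Sum.inr_injective.comp Sum.inr_injective) hW hWd hJ hn₀ hD h1 h2
    (fun n t ω a b h => (div_le_iff₀ (wt_pos hW n)).1 (h3 n t ω a b h))
    (fun n hn ω l l' => by
      have key : ∀ l, lab n 0 ω (S.s l) = lab n 0 ω (S.s l₀) := fun l =>
        h4 n ω l ((div_le_iff₀ (wt_pos hW n)).2 ((hD _ _).trans (hn₂ n hn)))
      exact (key l).trans (key l').symm)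
  refine ⟨V, hV1, hV2, hV3, ?_⟩
  set A := F.E (fun ω => ∑ t ∈ range T, S.step dist t ω) with hA
  have hA0 : 0 ≤ A := F.E_nonneg fun ω => sum_nonneg fun _ _ => dist_nonneg
  have hL := two_le_Lk (k := k) (by omega)
  have hk' : (2 : ℝ) ≤ k := by exact_mod_cast hk
  have g1 : ∑ n ∈ range J, wt W n * F.E (fun ω => ∑ t ∈ range T,
      gain2 S (fun a b => dist a b / wt W n) t ω) ≤ 58 * Lk k * A := by
    have e : F.E (fun ω => ∑ t ∈ range T, ∑ ω', F.cw (t + 1) ω ω' * S.step dist t ω') = A := by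
      rw [hA, F.E_sum, F.E_sum]
      exact sum_congr rfl fun t _ => F.tower _ _
    have : 58 * Lk k * A = 6 * Lk k * A + 52 * Lk k * A := by ring
    rw [this]
    nth_rewrite 2 [← e]
    simp only [hA, ← F.E_mul]
    rw [← F.E_sum, ← F.E_add]
    refine F.E_mono fun ω => ?_
    simp only [mul_sum (range T)]
    rw [sum_comm, ← sum_add_distrib]
    exact sum_le_sum fun t _ => glue_gain2 hk S hW J t ω
  have g2 : ∑ n ∈ range J, wt W n * ∑ l : Fin k, min (dist (S.s l) (S.s l₀) / wt W n) 1 ^ 2 ≤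
      6 * (k * D) := by
    simp only [mul_sum]
    rw [sum_comm]
    refine (sum_le_sum fun l _ => (glue_sum_sq dist_nonneg hW J).trans
      (mul_le_mul_of_nonneg_left (hD l l₀) (by norm_num))).trans (le_of_eq ?_)
    simp
    ring
  have g3 : ∑ n ∈ range J, wt W n * (1 / W) ≤ 2 := by
    rw [← sum_mul, mul_one_div, div_le_iff₀ hW]
    exact glue_sum_wt hW J
  have g4 := sum_le_sum (s := range J) fun n _ => mul_le_mul_of_nonneg_left (h5 n) (wt_pos hW n).le
  simp only [mul_add, sum_add_distrib, mul_left_comm _ C₁, mul_left_comm _ (C₁ * Lk k), ← mul_sum] at g4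
  have g5 := g4.trans (add_le_add (add_le_add (mul_le_mul_of_nonneg_left g1 hC₁.le)
    (mul_le_mul_of_nonneg_left g2 (show 0 ≤ C₁ * Lk k by positivity))) g3)
  obtain ⟨Z, g5, hV5⟩ : ∃ Z, Z ≤ C₁ * (58 * Lk k * A) + C₁ * Lk k * (6 * (k * D)) + 2 ∧
      F.E (fun ω => ∑ t ∈ range T, ∑ i, dist (V t ω i) (V (t + 1) ω i)) ≤
      C₂ * Lk k * (4 * A + 4 * Z) + C₂ * Lk k * A + C₂ * k * Lk k * (wt W n₀ + D) :=
    ⟨_, by refine le_trans (le_of_eq ?_) g5; congr!, hV4⟩
  refine hV5.trans ?_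
  set L := Lk k
  have q2 : L ≤ L ^ 2 := by nlinarith
  have a1 : L * (4 * A + 4 * (C₁ * (58 * L * A))) + L * A ≤ (232 * C₁ + 10) * L ^ 2 * A := by
    have b2 : L * A ≤ L ^ 2 * A := by gcongr
    have b4 : 0 ≤ L ^ 2 * A := by positivity
    nlinarith
  have a2 : L * (4 * (C₁ * L * (6 * (k * D)) + 2)) + k * L * (wt W n₀ + D) ≤
      (232 * C₁ + 10) * k * L ^ 2 * (D + 1) := by
    have b1 : k * L * (wt W n₀ + D) ≤ k * L ^ 2 * (2 * (D + 1)) := by
      have := wt_pos hW n₀
      gcongr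
      linarith
    have b2 : L * 2 ≤ L ^ 2 * k := by gcongr
    have b3 : 0 ≤ k * L ^ 2 * D := by positivity
    have b4 : 0 ≤ C₁ * (k * L ^ 2 * D) := by positivity
    have b5 : 0 ≤ C₁ * (k * L ^ 2) := by positivity
    have b6 : 0 ≤ k * L ^ 2 := by positivity
    nlinarith
  have a3 : L * (4 * A + 4 * Z) ≤
      L * (4 * A + 4 * (C₁ * (58 * L * A) + C₁ * L * (6 * (k * D)) + 2)) := by gcongr
  have a4 := mul_le_mul_of_nonneg_left (add_le_add a1 a2) hC₂.le
  have a5 := mul_le_mul_of_nonneg_left a3 hC₂.le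
  linarith

end Vale.Agent.P304.Sq
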