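import Vale.Agent.P304.Sq.LBasic

/-! P304 tight bound, LEVEL: the average logarithmic weight at the request.

PLAN.  M u = ballMass d w x r u, g i = lm 11 - lm (uu i / 2) in [0, log(2k)] (ballMass_mono, ballMass_le), BB i as defined below, a = sh.m r - 3/10.
ff_rule: if M(uu i/2) < 1/2 use ff_le.  Otherwise M 11 >= 1/2, tg i > 0, lm are the logarithms of the masses, and
ff <= log((1+w0)/(tg/2)) = log(2(1+w0)) + 4 log(10 2^i) + g i <= 10 + 3 i + g i (log(2.025) <= 0.71, 4 log 10 <= 9.22, 4 log 2 <= 2.78).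
sum_small: the i with M(uu i/2) < 1/2 have uu i <= 4 db (half_le_of_ballMass_lt); if i0 is the least one the sum is <= 2 uu i0 <= min(8 db, 1/5).
sum_BB: sum uu i (10 + 3 i) <= 13/5 (induction: partial sum + (13 + 3n)/(5 2^n) stays <= 13/5... or summable geometric bounds).
dep_A: a <= 0: dep = 0.  a < uu k: dep A <= uu k 2 Lk <= 1/5.  Otherwise j0 = least i with uu i <= a (j0 <= k), dep <= 2 uu j0, all i in [j0, k] satisfy
uu i <= a.  For every radius t >= 2/5: ff t <= BB j0 + sum_{j0 < i <= k} ind(t < 2/5 + 2 uu i) BB i + ind(t < 2/5 + uu k) 2 Lk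
(ff_anti with d r r = 0; take the least i >= j0 with 2/5 + uu i <= t if there is one <= k).  Average over j < G with cnt_lt, dep <= 1/10:
dep A <= 2 uu j0 BB j0 + sum_{i > j0} (uu i + 1/(10 G)) BB i + uu k Lk + Lk/(5G); BB i <= 10 + 3k + 3 Lk. -/

set_option linter.unusedSectionVars false

namespace Vale.Agent.P304.Sq

open Finset Lv

variable {ι X Ω : Type} [Fintype ι] [LinearOrder ι] [Nonempty ι] [Fintype Ω] {k : ℕ} {P : Par ι X k}
  {σ σ' : L2 ι X} {μ : ℝ} {w : Ω → ℝ} {x : Ω → Fin k → X} {r : X} {v : ι}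

namespace Par

/-- bound for the logarithmic weight at the scale `i` -/
noncomputable def BB (P : Par ι X k) (w : Ω → ℝ) (x : Ω → Fin k → X) (r : X) (i : ℕ) : ℝ :=
  10 + 3 * i + (lm P.d w x r 11 - lm P.d w x r (uu i / 2)) +
    2 * Lk k * ind (ballMass P.d w x r (uu i / 2) < 1 / 2)

theorem lavgf_uu_anti {i j : ℕ} (h : i ≤ j) : uu j ≤ uu i := by
  unfold uu
  have : (2 : ℝ) ^ i ≤ 2 ^ j := pow_le_pow_right₀ (by norm_num) h
  gcongr

theorem lavgf_Lk_le (hk : 2 ≤ k) : Lk k ≤ k + 1 := by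
  have hk' : (2 : ℝ) ≤ k := by exact_mod_cast hk
  have := Real.log_le_sub_one_of_pos (x := (k : ℝ)) (by linarith)
  unfold Lk
  linarith

theorem lavgf_log_uu (i : ℕ) : Real.log (uu i) = -(Real.log 10 + i * Real.log 2) := by
  unfold uu
  rw [one_div, Real.log_inv, Real.log_mul (by norm_num) (by positivity), Real.log_pow]

theorem lavgf_log_c : Real.log (81 / 40) + 4 * Real.log 10 ≤ 10 := by
  have h1 : Real.log (81 / 40) + 4 * Real.log 10 = Real.log 20250 := by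
    rw [show (20250 : ℝ) = 81 / 40 * 10 ^ 4 by norm_num,
      Real.log_mul (by norm_num) (by norm_num), Real.log_pow]
    norm_num
  rw [h1, Real.log_le_iff_le_exp (by norm_num)]
  have h3 := Real.exp_one_gt_d9
  have h4 : Real.exp 10 = Real.exp 1 ^ 10 := by rw [← Real.exp_nat_mul]; norm_num
  rw [h4]
  have : (2.7 : ℝ) ^ 10 ≤ Real.exp 1 ^ 10 := pow_le_pow_left₀ (by norm_num) (by linarith) 10
  norm_num at this ⊢
  linarith

theorem lavgf_geo {c : ℝ} (n : ℕ) :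
    ∑ i ∈ range n, uu i * ind (uu i ≤ c) ≤ max 0 (2 * c - 2 * uu n) := by
  induction n with
  | zero => simp
  | succ n ih =>
    rw [sum_range_succ]
    have h1 := uu_succ n
    by_cases h : uu n ≤ c
    · rw [ind_pos h]
      rw [max_eq_right (by linarith)] at ih
      exact le_max_of_le_right (by linarith)
    · rw [ind_neg h]
      rw [max_eq_left (by linarith [not_le.1 h])] at ih
      exact le_max_of_le_left (by linarith)

theorem lavgf_lin (n : ℕ) :
    ∑ i ∈ range n, uu i * (10 + 3 * i) + uu n * (26 + 6 * n) = 13 / 5 := by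
  induction n with
  | zero => simp [uu]; norm_num
  | succ n ih =>
    rw [sum_range_succ, ← ih, uu_succ n]
    push_cast
    ring

theorem lavgf_pt {φ : ℝ → ℝ} (hφ : ∀ s t, s ≤ t → φ t ≤ φ s) {B : ℕ → ℝ} (hB : ∀ i, 0 ≤ B i)
    {j0 : ℕ} (t : ℝ) (n : ℕ) (hn : j0 ≤ n) (h : ∀ i, j0 ≤ i → i ≤ n → φ (2 / 5 + uu i) ≤ B i) :
    φ t ≤ B j0 + ∑ i ∈ Ioc j0 n, B i * ind (t < 2 / 5 + 2 * uu i) ∨ t < 2 / 5 + uu n := by
  induction n, hn using Nat.le_induction with
  | base =>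
    by_cases h1 : t < 2 / 5 + uu j0
    · exact Or.inr h1
    · left
      simpa using (hφ _ _ (not_lt.1 h1)).trans (h j0 le_rfl le_rfl)
  | succ n hn ih =>
    rw [sum_Ioc_succ_top hn]
    rcases ih (fun i h1 h2 => h i h1 (by omega)) with h1 | h1
    · left
      have := mul_nonneg (hB (n + 1)) (ind_nonneg (t < 2 / 5 + 2 * uu (n + 1)))
      linarith
    · by_cases h2 : t < 2 / 5 + uu (n + 1)
      · exact Or.inr h2
      · left
        rw [ind_pos (by rw [← uu_succ]; exact h1)]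
        have h3 := (hφ _ _ (not_lt.1 h2)).trans (h (n + 1) (by omega) le_rfl)
        have h4 : 0 ≤ ∑ i ∈ Ioc j0 n, B i * ind (t < 2 / 5 + 2 * uu i) :=
          sum_nonneg fun i _ => mul_nonneg (hB i) (ind_nonneg _)
        have := hB j0
        linarith

theorem lavgf_avg {G : ℕ} (hG : 0 < G) {φ : ℝ → ℝ} (hφ : ∀ s t, s ≤ t → φ t ≤ φ s) {B : ℕ → ℝ}
    (hB : ∀ i, 0 ≤ B i) {L : ℝ} (hL0 : 0 ≤ L) (hL : ∀ t, φ t ≤ L) {j0 n : ℕ} (hn : j0 ≤ n)
    (h : ∀ i, j0 ≤ i → i ≤ n → φ (2 / 5 + uu i) ≤ B i) :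
    (∑ j ∈ range G, φ (rho G j)) / G ≤
      B j0 + ∑ i ∈ Ioc j0 n, B i * (10 * uu i + 1 / G) + L * (5 * uu n + 1 / G) := by
  have hG' : (0 : ℝ) < G := by exact_mod_cast hG
  have h1 : ∀ j, φ (rho G j) ≤ B j0 + ∑ i ∈ Ioc j0 n, B i * ind (rho G j < 2 / 5 + 2 * uu i) +
      L * ind (rho G j < 2 / 5 + uu n) := by
    intro j
    rcases lavgf_pt hφ hB (rho G j) n hn h with h1 | h1
    · have := mul_nonneg hL0 (ind_nonneg (rho G j < 2 / 5 + uu n))
      linarith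
    · rw [ind_pos h1]
      have h4 : 0 ≤ ∑ i ∈ Ioc j0 n, B i * ind (rho G j < 2 / 5 + 2 * uu i) :=
        sum_nonneg fun i _ => mul_nonneg (hB i) (ind_nonneg _)
      have := hB j0
      have := hL (rho G j)
      linarith
  have h2 : (∑ j ∈ range G, (B j0 + ∑ i ∈ Ioc j0 n, B i * ind (rho G j < 2 / 5 + 2 * uu i) +
      L * ind (rho G j < 2 / 5 + uu n))) / G =
      B j0 + ∑ i ∈ Ioc j0 n, B i * ((∑ j ∈ range G, ind (rho G j < 2 / 5 + 2 * uu i)) / G) +
        L * ((∑ j ∈ range G, ind (rho G j < 2 / 5 + uu n)) / G) := by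
    rw [sum_add_distrib, sum_add_distrib, sum_comm, sum_const, card_range, nsmul_eq_mul,
      ← mul_sum, add_div, add_div, mul_div_cancel_left₀ _ hG'.ne', sum_div, mul_div_assoc]
    congr 2
    exact sum_congr rfl fun i _ => by rw [← mul_sum, mul_div_assoc]
  refine (div_le_div_of_nonneg_right (sum_le_sum fun j _ => h1 j) hG'.le).trans ?_
  rw [h2]
  refine add_le_add (add_le_add le_rfl (sum_le_sum fun i _ => ?_)) ?_
  · refine mul_le_mul_of_nonneg_left ?_ (hB i)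
    have := cnt_lt hG (t := 2 * uu i) (by linarith [uu_pos i])
    linarith
  · exact mul_le_mul_of_nonneg_left (cnt_lt hG (uu_pos n).le) hL0

theorem lm_diff (hP : P.OK) (hw : ∀ ω, 0 ≤ w ω) (hw1 : ∑ ω, w ω = 1) (i : ℕ) :
    0 ≤ lm P.d w x r 11 - lm P.d w x r (uu i / 2) ∧
      lm P.d w x r 11 - lm P.d w x r (uu i / 2) ≤ Lk k := by
  have hk' : (2 : ℝ) ≤ k := by exact_mod_cast hP.hk
  have h1 : ballMass P.d w x r (uu i / 2) ≤ ballMass P.d w x r 11 :=
    ballMass_mono hw (by linarith [uu_le i])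
  have h2 : ballMass P.d w x r 11 ≤ k := ballMass_le hw hw1 11
  have h3 : (0 : ℝ) < max (ballMass P.d w x r (uu i / 2)) (1 / 2) :=
    lt_max_of_lt_right (by norm_num)
  unfold lm
  constructor
  · exact sub_nonneg.2 (Real.log_le_log h3 (max_le_max h1 le_rfl))
  · have h4 : Real.log (max (ballMass P.d w x r 11) (1 / 2)) ≤ Real.log k :=
      Real.log_le_log (lt_max_of_lt_right (by norm_num)) (max_le h2 (by linarith))
    have h5 : Real.log (1 / 2) ≤ Real.log (max (ballMass P.d w x r (uu i / 2)) (1 / 2)) :=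
      Real.log_le_log (by norm_num) (le_max_right _ _)
    have h6 : Real.log (1 / 2) = -Real.log 2 := by rw [one_div, Real.log_inv]
    have h7 := Real.log_two_lt_d9
    unfold Lk
    linarith

theorem budget2_nonneg (hP : P.OK) (hw : ∀ ω, 0 ≤ w ω) (hw1 : ∑ ω, w ω = 1) :
    0 ≤ budget2 P.d w x r := by
  exact sum_nonneg fun i _ => mul_nonneg (uu_pos i).le (lm_diff hP hw hw1 i).1

theorem ff_rule (hP : P.OK) (h : P.TInv μ σ) (hw : ∀ ω, 0 ≤ w ω) (hw1 : ∑ ω, w ω = 1) {i : ℕ}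
    (hi : 1 / 2 * P.tg w x r i ≤ P.Om σ r (2 / 5 + uu i) + w0 k) :
    P.ff σ r (2 / 5 + uu i) ≤ P.BB w x r i := by
  have hg := (lm_diff (x := x) (r := r) hP hw hw1 i).1
  have hL := two_le_Lk (k := k) (by have := hP.hk; omega)
  have hi0 : (0 : ℝ) ≤ i := Nat.cast_nonneg i
  unfold BB
  by_cases hM : ballMass P.d w x r (uu i / 2) < 1 / 2
  · rw [ind_pos hM]
    have := ff_le hP h r (2 / 5 + uu i)
    linarith
  · rw [ind_neg hM]
    have hM' := not_lt.1 hM
    have h1 : ballMass P.d w x r (uu i / 2) ≤ ballMass P.d w x r 11 :=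
      ballMass_mono hw (by linarith [uu_le i])
    have hu := uu_pos i
    have h2 : 0 < ballMass P.d w x r (uu i / 2) := by linarith
    have h3 : 0 < ballMass P.d w x r 11 := by linarith
    have ht : 0 < P.tg w x r i := by unfold tg; positivity
    have hw0 := w0_pos hP.hk
    have hw1' := w0_le hP.hk
    have h4 : P.ff σ r (2 / 5 + uu i) ≤ Real.log (81 / 40 / P.tg w x r i) := by
      unfold ff
      refine Real.log_le_log (div_pos (by linarith) (by linarith)) ?_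
      rw [div_le_div_iff₀ (by linarith) ht]
      nlinarith
    have h5 : Real.log (81 / 40 / P.tg w x r i) = Real.log (81 / 40) - (4 * Real.log (uu i) +
        Real.log (ballMass P.d w x r (uu i / 2)) - Real.log (ballMass P.d w x r 11)) := by
      rw [Real.log_div (by norm_num) ht.ne']
      unfold tg
      rw [Real.log_div (by positivity) h3.ne', Real.log_mul (by positivity) h2.ne', Real.log_pow]
      norm_num
    have h6 : lm P.d w x r 11 = Real.log (ballMass P.d w x r 11) := by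
      unfold lm; rw [max_eq_left (by linarith)]
    have h7 : lm P.d w x r (uu i / 2) = Real.log (ballMass P.d w x r (uu i / 2)) := by
      unfold lm; rw [max_eq_left hM']
    have h8 := lavgf_log_uu i
    have h9 := lavgf_log_c
    have h10 : (i : ℝ) * Real.log 2 ≤ i * (3 / 4) :=
      mul_le_mul_of_nonneg_left (by linarith [Real.log_two_lt_d9]) hi0
    rw [h6, h7]
    linarith

theorem sum_small (hP : P.OK) (hw : ∀ ω, 0 ≤ w ω) (hw1 : ∑ ω, w ω = 1) (mv : Ω → Fin k) (n : ℕ) :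
    ∑ i ∈ range n, uu i * ind (ballMass P.d w x r (uu i / 2) < 1 / 2) ≤
      8 * min (∑ ω, w ω * P.d (x ω (mv ω)) r) 1 := by
  have hdb : 0 ≤ ∑ ω, w ω * P.d (x ω (mv ω)) r :=
    sum_nonneg fun ω _ => mul_nonneg (hw ω) (isD_nonneg hP.hd _ _)
  have hm : 0 ≤ min (∑ ω, w ω * P.d (x ω (mv ω)) r) 1 := le_min hdb (by norm_num)
  have h1 := lavgf_geo (c := 4 * min (∑ ω, w ω * P.d (x ω (mv ω)) r) 1) n
  refine le_trans (sum_le_sum fun i _ => ?_) (h1.trans (max_le ?_ ?_))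
  · refine mul_le_mul_of_nonneg_left (ind_mono fun hi => ?_) (uu_pos i).le
    have h2 := half_le_of_ballMass_lt hP.hd hw hw1 mv (by linarith [uu_pos i]) hi
    have h3 : uu i / 4 ≤ min (∑ ω, w ω * P.d (x ω (mv ω)) r) 1 :=
      le_min (by linarith) (by linarith [uu_le i])
    linarith
  · linarith
  · linarith [uu_pos n]

theorem sum_BB (hP : P.OK) (hw : ∀ ω, 0 ≤ w ω) (hw1 : ∑ ω, w ω = 1) (mv : Ω → Fin k) :
    ∑ i ∈ range (k + 1), uu i * P.BB w x r i ≤
      13 / 5 + budget2 P.d w x r + 16 * Lk k * min (∑ ω, w ω * P.d (x ω (mv ω)) r) 1 := by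
  have hL := two_le_Lk (k := k) (by have := hP.hk; omega)
  have h1 := lavgf_lin (k + 1)
  have h2 : 0 ≤ uu (k + 1) * (26 + 6 * ((k + 1 : ℕ) : ℝ)) :=
    mul_nonneg (uu_pos _).le (by positivity)
  have h3 := mul_le_mul_of_nonneg_left (sum_small (x := x) (r := r) hP hw hw1 mv (k + 1))
    (show 0 ≤ 2 * Lk k by linarith)
  have h4 : ∑ i ∈ range (k + 1), uu i * P.BB w x r i =
      ∑ i ∈ range (k + 1), uu i * (10 + 3 * i) + budget2 P.d w x r +
        2 * Lk k * ∑ i ∈ range (k + 1), uu i * ind (ballMass P.d w x r (uu i / 2) < 1 / 2) := by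
    unfold budget2 BB
    rw [mul_sum, ← sum_add_distrib, ← sum_add_distrib]
    exact sum_congr rfl fun i _ => by ring
  rw [h4]
  linarith

theorem lavgf_BB (hP : P.OK) (hw : ∀ ω, 0 ≤ w ω) (hw1 : ∑ ω, w ω = 1) (i : ℕ) :
    0 ≤ P.BB w x r i ∧ P.BB w x r i ≤ 10 + 3 * i + 3 * Lk k := by
  have hg := lm_diff (x := x) (r := r) hP hw hw1 i
  have hL := two_le_Lk (k := k) (by have := hP.hk; omega)
  have hi0 : (0 : ℝ) ≤ i := Nat.cast_nonneg i
  have h1 := ind_nonneg (ballMass P.d w x r (uu i / 2) < 1 / 2)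
  have h2 := ind_le_one (ballMass P.d w x r (uu i / 2) < 1 / 2)
  unfold BB
  constructor <;> nlinarith [hg.1, hg.2]

theorem lavgf_fin {B : ℕ → ℝ} (hB : ∀ i, 0 ≤ B i) {j0 n : ℕ} (hn : j0 ≤ n) {c a g : ℝ}
    (hc : ∀ i ≤ n, B i ≤ c) (ha1 : a ≤ 1 / 10) (ha : a ≤ 2 * uu j0) (hg : 0 ≤ g) :
    a * (B j0 + ∑ i ∈ Ioc j0 n, B i * (10 * uu i + g)) ≤
      2 * ∑ i ∈ range (n + 1), uu i * B i + n * c * g / 10 := by
  have h0 : ∀ i, 0 ≤ uu i * B i := fun i => mul_nonneg (uu_pos i).le (hB i)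
  have h1 : uu j0 * B j0 ≤ ∑ i ∈ range (n + 1), uu i * B i :=
    single_le_sum (f := fun i => uu i * B i) (fun i _ => h0 i) (mem_range.2 (by omega))
  have h2 : uu j0 * B j0 + ∑ i ∈ Ioc j0 n, uu i * B i ≤ ∑ i ∈ range (n + 1), uu i * B i := by
    rw [← sum_insert (s := Ioc j0 n) (f := fun i => uu i * B i) (by simp)]
    refine sum_le_sum_of_subset_of_nonneg (fun i hi => ?_) fun i _ _ => h0 i
    simp only [mem_insert, mem_Ioc, mem_range] at hi ⊢
    omega
  have h3 : ∑ i ∈ Ioc j0 n, B i ≤ n * c := by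
    have hc0 : 0 ≤ c := (hB 0).trans (hc 0 (Nat.zero_le n))
    calc ∑ i ∈ Ioc j0 n, B i ≤ ∑ _i ∈ Ioc j0 n, c :=
          sum_le_sum fun i hi => hc i (mem_Ioc.1 hi).2
      _ = ((n - j0 : ℕ) : ℝ) * c := by rw [sum_const, Nat.card_Ioc, nsmul_eq_mul]
      _ ≤ n * c := mul_le_mul_of_nonneg_right (by exact_mod_cast Nat.sub_le n j0) hc0
  have h4 : ∑ i ∈ Ioc j0 n, B i * (10 * uu i + g) =
      10 * ∑ i ∈ Ioc j0 n, uu i * B i + g * ∑ i ∈ Ioc j0 n, B i := by
    rw [mul_sum, mul_sum, ← sum_add_distrib]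
    exact sum_congr rfl fun i _ => by ring
  have h5 : 0 ≤ ∑ i ∈ Ioc j0 n, uu i * B i := sum_nonneg fun i _ => h0 i
  have h6 : 0 ≤ ∑ i ∈ Ioc j0 n, B i := sum_nonneg fun i _ => hB i
  have h7 : a * B j0 ≤ 2 * uu j0 * B j0 := mul_le_mul_of_nonneg_right ha (hB j0)
  have h8 : a * (10 * ∑ i ∈ Ioc j0 n, uu i * B i + g * ∑ i ∈ Ioc j0 n, B i) ≤
      1 / 10 * (10 * ∑ i ∈ Ioc j0 n, uu i * B i + g * ∑ i ∈ Ioc j0 n, B i) :=
    mul_le_mul_of_nonneg_right ha1 (by positivity)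
  have h9 : g * ∑ i ∈ Ioc j0 n, B i ≤ g * (n * c) := mul_le_mul_of_nonneg_left h3 hg
  rw [h4]
  nlinarith

theorem dep_A (hP : P.OK) (h : P.TInv μ σ) (hw : ∀ ω, 0 ≤ w ω) (hw1 : ∑ ω, w ω = 1) (mv : Ω → Fin k)
    (hR : P.Rule (1 / 2) σ w x r) :
    dep (σ.sh.m P.d r) * P.A σ r ≤ 6 * ind (3 / 10 < σ.sh.m P.d r) + 2 * budget2 P.d w x r +
      32 * Lk k * min (∑ ω, w ω * P.d (x ω (mv ω)) r) 1 + 20 * (k : ℝ) ^ 2 / P.G := by
  have hL := two_le_Lk (k := k) (by have := hP.hk; omega)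
  have hL' := lavgf_Lk_le hP.hk
  have hk' : (2 : ℝ) ≤ k := by exact_mod_cast hP.hk
  have hG : 0 < P.G := by have := hP.hG; omega
  have hG' : (0 : ℝ) < P.G := by exact_mod_cast hG
  have hdb : 0 ≤ ∑ ω, w ω * P.d (x ω (mv ω)) r :=
    sum_nonneg fun ω _ => mul_nonneg (hw ω) (isD_nonneg hP.hd _ _)
  have hm : 0 ≤ min (∑ ω, w ω * P.d (x ω (mv ω)) r) 1 := le_min hdb (by norm_num)
  have hb := budget2_nonneg (x := x) (r := r) hP hw hw1
  have hS := sum_BB (x := x) (r := r) hP hw hw1 mv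
  have e1 : 0 ≤ 32 * Lk k * min (∑ ω, w ω * P.d (x ω (mv ω)) r) 1 := by positivity
  have e2 : 0 ≤ 20 * (k : ℝ) ^ 2 / P.G := by positivity
  have hA := A_bd hP h r
  have hd := dep_bd (σ.sh.m P.d r)
  have hu := uu_mul_Lk hP.hk
  by_cases h1 : 3 / 10 < σ.sh.m P.d r
  swap
  · have : dep (σ.sh.m P.d r) = 0 := by
      unfold dep
      exact max_eq_left (min_le_of_left_le (by linarith [not_lt.1 h1]))
    rw [this, ind_neg h1]
    linarith
  rw [ind_pos h1]
  have hda : dep (σ.sh.m P.d r) ≤ σ.sh.m P.d r - 3 / 10 := by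
    unfold dep
    exact max_le (by linarith) (min_le_left _ _)
  by_cases h2 : uu k ≤ σ.sh.m P.d r - 3 / 10
  swap
  · have h3 : dep (σ.sh.m P.d r) * P.A σ r ≤ uu k * (2 * Lk k) :=
      mul_le_mul (by linarith [not_le.1 h2]) hA.2 hA.1 (uu_pos k).le
    linarith
  have hex : ∃ i, uu i ≤ σ.sh.m P.d r - 3 / 10 := ⟨k, h2⟩
  have hj : Nat.find hex ≤ k := Nat.find_min' hex h2
  have hj1 := Nat.find_spec hex
  have hj2 : dep (σ.sh.m P.d r) ≤ 2 * uu (Nat.find hex) := by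
    rcases hj3 : Nat.find hex with _ | j
    · have : uu 0 = 1 / 10 := by simp [uu]
      linarith [hd.2]
    · have := Nat.find_min hex (m := j) (by omega)
      rw [← uu_succ]
      linarith [not_le.1 this]
  have h3 := lavgf_avg hG (φ := P.ff σ r)
    (fun s t hst => ff_anti hP h (by rw [hP.hd.refl]; linarith))
    (B := P.BB w x r) (fun i => (lavgf_BB hP hw hw1 i).1) (L := 2 * Lk k) (by linarith)
    (ff_le hP h r) hj
    (fun i hi hi' => ff_rule hP h hw hw1 (hR i hi' ((lavgf_uu_anti hi).trans hj1)))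
  have h4 := lavgf_fin (B := P.BB w x r) (fun i => (lavgf_BB hP hw hw1 i).1) hj
    (c := 13 + 6 * k) (g := 1 / P.G) (fun i hi => by
      have h5 : (i : ℝ) ≤ k := by exact_mod_cast hi
      linarith [(lavgf_BB (x := x) (r := r) hP hw hw1 i).2]) hd.2 hj2 (by positivity)
  have h5 := mul_le_mul_of_nonneg_left h3 hd.1
  have h6 : dep (σ.sh.m P.d r) * (2 * Lk k * (5 * uu k + 1 / P.G)) ≤
      1 / 10 * (2 * Lk k * (5 * uu k + 1 / P.G)) :=
    mul_le_mul_of_nonneg_right hd.2 (by have := uu_pos k; positivity)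
  have h7 : (k * (13 + 6 * k) / 10 + Lk k / 5) * (1 / P.G) ≤ 20 * (k : ℝ) ^ 2 * (1 / P.G) :=
    mul_le_mul_of_nonneg_right (by nlinarith) (by positivity)
  have h8 : 20 * (k : ℝ) ^ 2 / P.G = 20 * (k : ℝ) ^ 2 * (1 / P.G) := by ring
  unfold A
  rw [h8]
  rw [mul_add] at h5
  nlinarith

end Par

end Vale.Agent.P304.Sq
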