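import Vale.Agent.P304.Sq.LNum
import Vale.Agent.P304.LProb

/-! P304 tight bound, LEVEL: expectations, labels, tier 1 cut probabilities, bounds of the potentials.

PLAN.  EX: weights are nonnegative with sum 1 (Fintype.sum_prod_type, nuw_sum, Fin.sum_univ_eq_sum_range); model: PR lemmas in LDefs.lean, Level.lean.
lab1_eq: as Lv.lab_tier (z_sep, rad < 3).  chg_le: pointwise ind(lab <> lab') <= ind(lab1 <> lab1') + ind(2 < m and 2 < m') * ind(lab2 <> lab2'):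
if the tier 1 labels agree and are some u the labels agree; if both are none then all z > rad >= 2, so m > 2 (z_arg).  Then sum over the product.
c1_le: as tier_cases: if (m y <= rad iff m' y' <= rad) the tier 1 labels agree; the number of i violating this is <= e G + 1 (lp_card).
lab_diam2: tier 1: d <= 3 (h >= 0), tier 2: smp.pos gives d y (tc b) <= rho < 3/5.
ff bounds: 0 <= Om <= Om (4/5) <= 1.  wf_lip: each term is 10-Lipschitz (inf'_le, exists_mem_eq_inf').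
z_sh: |z - z'| <= drift by the triangle inequality.  T_le: at most one u has sh.z y u < 29/10 (sh_sep), chi_zero for the others. -/

set_option linter.unusedSectionVars false

namespace Vale.Agent.P304.Sq

open Finset Lv

variable {ι X : Type} [Fintype ι] [LinearOrder ι] [Nonempty ι] {k : ℕ} {P : Par ι X k}
  {σ σ' : L2 ι X} {μ : ℝ}

namespace Par

theorem lb_w_nonneg (R : P.RS) : (0 : ℝ) ≤ 1 / P.G * (nuw P.G R.2.1 * (1 / P.N)) :=
  mul_nonneg (by positivity) (mul_nonneg (nuw_nonneg _ _) (by positivity))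

theorem lb_EX_prod (f : Fin P.G → ℝ) (g : Fin P.G → Fin P.N → ℝ) :
    P.EX (fun R => f R.1 * g R.2.1 R.2.2) =
      (∑ i, f i) / P.G * ∑ j : Fin P.G, nuw P.G j * ((∑ ξ, g j ξ) / P.N) := by
  unfold EX
  rw [Fintype.sum_prod_type, sum_div, sum_mul]
  refine sum_congr rfl fun i _ => ?_
  rw [Fintype.sum_prod_type, mul_sum]
  refine sum_congr rfl fun j _ => ?_
  rw [sum_div, mul_sum, mul_sum]
  refine sum_congr rfl fun ξ _ => ?_
  ring

theorem lb_G_pos (hP : P.OK) : 0 < P.G := lt_of_lt_of_le (by norm_num) hP.hG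

theorem lb_nuw_sum (hP : P.OK) : ∑ j : Fin P.G, nuw P.G j = 1 := by
  rw [Fin.sum_univ_eq_sum_range (fun j => nuw P.G j) P.G, nuw_sum (lb_G_pos hP)]

theorem lb_avg_one {n : ℕ} (hn : 0 < n) : (∑ _i : Fin n, (1 : ℝ)) / n = 1 := by
  have : (n : ℝ) ≠ 0 := by positivity
  simp [this]

theorem lb_EX_fst (hP : P.OK) (f : Fin P.G → ℝ) : P.EX (fun R => f R.1) = (∑ i, f i) / P.G := by
  have h := lb_EX_prod (P := P) f fun _ _ => 1
  simp only [mul_one, lb_avg_one hP.hN, lb_nuw_sum hP] at h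
  exact h

theorem lb_EX_snd (hP : P.OK) (g : Fin P.G → Fin P.N → ℝ) :
    P.EX (fun R => g R.2.1 R.2.2) = ∑ j : Fin P.G, nuw P.G j * ((∑ ξ, g j ξ) / P.N) := by
  have h := lb_EX_prod (P := P) (fun _ => 1) g
  simp only [one_mul, lb_avg_one (lb_G_pos hP)] at h
  exact h

theorem EX_mono {f g : P.RS → ℝ} (h : ∀ R, f R ≤ g R) : P.EX f ≤ P.EX g := by
  exact sum_le_sum fun R _ => mul_le_mul_of_nonneg_left (h R) (lb_w_nonneg R)

theorem EX_add (f g : P.RS → ℝ) : P.EX (fun R => f R + g R) = P.EX f + P.EX g := by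
  unfold EX
  rw [← sum_add_distrib]
  exact sum_congr rfl fun _ _ => by ring

theorem EX_mul (c : ℝ) (f : P.RS → ℝ) : P.EX (fun R => c * f R) = c * P.EX f := by
  unfold EX
  rw [mul_sum]
  exact sum_congr rfl fun _ _ => by ring

theorem EX_sum {κ : Type} (s : Finset κ) (f : κ → P.RS → ℝ) :
    P.EX (fun R => ∑ i ∈ s, f i R) = ∑ i ∈ s, P.EX (f i) := by
  unfold EX
  simp only [mul_sum]
  exact sum_comm

theorem EX_const (hP : P.OK) (c : ℝ) : P.EX (fun _ => c) = c := by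
  have h := lb_EX_fst hP fun _ => c
  have h0 : (P.G : ℝ) ≠ 0 := by have := lb_G_pos hP; positivity
  rw [h, sum_const, card_univ, Fintype.card_fin, nsmul_eq_mul]
  field_simp

theorem exists_le_EX (hP : P.OK) (f : P.RS → ℝ) : ∃ R, f R ≤ P.EX f := by
  have : Nonempty (Fin P.G) := ⟨⟨0, lb_G_pos hP⟩⟩
  have : Nonempty (Fin P.N) := ⟨⟨0, hP.hN⟩⟩
  obtain ⟨R, -, hR⟩ := exists_min_image (univ : Finset P.RS) f univ_nonempty
  refine ⟨R, ?_⟩
  have := EX_mono (P := P) (f := fun _ => f R) (g := f) fun R' => hR R' (mem_univ _)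
  rwa [EX_const hP] at this

theorem chg_nonneg (σ σ' : L2 ι X) (y y' : X) : 0 ≤ P.chg σ σ' y y' := by
  exact sum_nonneg fun R _ => mul_nonneg (lb_w_nonneg R) (ind_nonneg _)

theorem chg_le_one (hP : P.OK) (σ σ' : L2 ι X) (y y' : X) : P.chg σ σ' y y' ≤ 1 := by
  have := EX_mono (P := P) (f := fun R => ind (P.lab σ R y ≠ P.lab σ' R y')) (g := fun _ => 1)
    fun R => ind_le_one _
  rwa [EX_const hP] at this

theorem chg_tri (σ σ' : L2 ι X) (y r : X) : P.chg σ σ' y r ≤ P.chg σ σ' y y + P.chg σ' σ' y r := by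
  unfold chg
  rw [← EX_add]
  refine EX_mono fun R => ind_le_add fun h => ?_
  by_cases h2 : P.lab σ R y = P.lab σ' R y
  · exact Or.inr (by rw [← h2]; exact h)
  · exact Or.inl h2

theorem Ec_self (σ : L2 ι X) (y : X) : P.Ec σ σ y = 0 := by
  unfold Ec chg EX
  simp [ind_neg]

theorem lb_lab1_none {i : Fin P.G} {y : X} (h : P.lab1 σ i y = none) :
    rad P.G i < σ.t1.m P.d y := by
  unfold lab1 at h
  split_ifs at h with h1
  push Not at h1
  rw [← z_arg]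
  exact h1 _

theorem lb_lab1_of_lt {i : Fin P.G} {y : X} (h : ∀ u, rad P.G i < σ.t1.z P.d y u) :
    P.lab1 σ i y = none := by
  unfold lab1
  rw [dif_neg (by push Not; exact h)]

theorem lb_lab1_some {i : Fin P.G} {y : X} {u : ι} (h : P.lab1 σ i y = some u) :
    σ.t1.z P.d y u ≤ rad P.G i := by
  unfold lab1 at h
  split_ifs at h with h1
  rw [← Option.some.inj h]
  exact h1.choose_spec

theorem chg_le (hP : P.OK) (σ σ' : L2 ι X) (y y' : X) : P.chg σ σ' y y' ≤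
    P.c1 σ σ' y y' + ind (2 < σ.t1.m P.d y ∧ 2 < σ'.t1.m P.d y') * P.c2 σ σ' y y' := by
  unfold chg c1 c2
  rw [← lb_EX_fst hP, ← lb_EX_snd hP, ← EX_mul, ← EX_add]
  refine EX_mono fun R => ?_
  have h0 := mul_nonneg (ind_nonneg (2 < σ.t1.m P.d y ∧ 2 < σ'.t1.m P.d y'))
    (ind_nonneg (P.lab2 σ R.2.1 R.2.2 y ≠ P.lab2 σ' R.2.1 R.2.2 y'))
  by_cases h1 : P.lab1 σ R.1 y = P.lab1 σ' R.1 y'
  · rw [ind_neg (not_not.2 h1), zero_add]
    rcases ho : P.lab1 σ R.1 y with _ | u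
    · have ho' : P.lab1 σ' R.1 y' = none := by rw [← h1, ho]
      have e1 := lb_lab1_none ho
      have e2 := lb_lab1_none ho'
      have e3 := two_le_rad R.1
      rw [ind_pos (p := 2 < σ.t1.m P.d y ∧ 2 < σ'.t1.m P.d y') ⟨by linarith, by linarith⟩, one_mul]
      refine ind_mono fun h h' => h ?_
      unfold lab
      rw [ho, ho', h']
    · have ho' : P.lab1 σ' R.1 y' = some u := by rw [← h1, ho]
      rw [ind_neg]
      · exact h0
      · refine not_not.2 ?_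
        unfold lab
        rw [ho, ho']
        rfl
  · rw [ind_pos h1]
    linarith [ind_le_one (P.lab σ R y ≠ P.lab σ' R y')]

theorem c2_bd (hP : P.OK) (σ σ' : L2 ι X) (y y' : X) : 0 ≤ P.c2 σ σ' y y' ∧ P.c2 σ σ' y y' ≤ 1 := by
  unfold c2
  rw [← lb_EX_snd hP]
  refine ⟨sum_nonneg fun R _ => mul_nonneg (lb_w_nonneg R) (ind_nonneg _), ?_⟩
  rw [← EX_const hP 1]
  exact EX_mono fun R => ind_le_one _

theorem lab1_eq (hP : P.OK) (hI : σ.t1.Inv P.d) {i : Fin P.G} {y : X} {u : ι}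
    (h : σ.t1.z P.d y u ≤ rad P.G i) : P.lab1 σ i y = some u := by
  have hex : ∃ u, σ.t1.z P.d y u ≤ rad P.G i := ⟨u, h⟩
  unfold lab1
  rw [dif_pos hex]
  congr 1
  by_contra hne
  have h1 := z_sep hP.hd hI y hne
  have h2 := hex.choose_spec
  have h3 := rad_lt_three i
  linarith

theorem lab_eq (hP : P.OK) (hI : σ.t1.Inv P.d) (R : P.RS) {y : X} {u : ι}
    (h : σ.t1.z P.d y u ≤ 2) : P.lab σ R y = Sum.inl u := by
  unfold lab
  rw [lab1_eq hP hI (h.trans (two_le_rad _))]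
  rfl

theorem lab_diam2 (hP : P.OK) (hI : σ.t1.Inv P.d) {R : P.RS} {a b : X}
    (h : P.lab σ R a = P.lab σ R b) : P.d a b ≤ 6 := by
  have key : ∀ y, (∃ u, P.lab σ R y = Sum.inl u ∧ P.d y (σ.t1.c u) ≤ 3) ∨
      (∃ u, P.lab σ R y = Sum.inr (Sum.inl u) ∧ P.d y (σ.tc u) ≤ 3) ∨
      P.lab σ R y = Sum.inr (Sum.inr y) := by
    intro y
    unfold lab
    rcases ho : P.lab1 σ R.1 y with _ | u
    · unfold lab2
      rcases hw : P.win R.2.2 (P.vec σ y (rho P.G R.2.1)) with _ | t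
      · exact Or.inr (Or.inr rfl)
      · refine Or.inr (Or.inl ⟨t, rfl, ?_⟩)
        have h1 := hP.smp.pos _ _ _ hw
        unfold vec at h1
        split_ifs at h1 with h2
        · linarith [rho_lt R.2.1.2]
        · exact absurd h1 (lt_irrefl _)
    · refine Or.inl ⟨u, rfl, ?_⟩
      have h1 := lb_lab1_some ho
      have := hI.h_nonneg u
      have := rad_lt_three R.1
      unfold St.z at h1
      linarith
  rcases key a with ⟨u, hu, hu2⟩ | ⟨u, hu, hu2⟩ | hu <;>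
    rcases key b with ⟨v, hv, hv2⟩ | ⟨v, hv, hv2⟩ | hv <;> rw [hu, hv] at h <;>
    simp only [Sum.inl.injEq, Sum.inr.injEq, reduceCtorEq] at h
  · subst h
    linarith [hP.hd.tri a (σ.t1.c u) b, hP.hd.symm (σ.t1.c u) b]
  · subst h
    linarith [hP.hd.tri a (σ.tc u) b, hP.hd.symm (σ.tc u) b]
  · subst h
    rw [hP.hd.refl]; norm_num

theorem chg_zero (hP : P.OK) (hI : σ.t1.Inv P.d) (hI' : σ'.t1.Inv P.d) {y y' : X} {u : ι}
    (h : σ.t1.z P.d y u ≤ 2) (h' : σ'.t1.z P.d y' u ≤ 2) : P.chg σ σ' y y' = 0 := by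
  unfold chg EX
  refine sum_eq_zero fun R _ => ?_
  have e : ind (P.lab σ R y ≠ P.lab σ' R y') = 0 :=
    ind_neg (not_not.2 (by rw [lab_eq hP hI R h, lab_eq hP hI' R h']))
  simp only [e, mul_zero]

theorem c1_le (hP : P.OK) (hI : σ.t1.Inv P.d) (hI' : σ'.t1.Inv P.d) {y y' : X} {e : ℝ} (h0 : 0 ≤ e)
    (h1 : e ≤ 1) (hz : ∀ u, σ'.t1.z P.d y' u ≤ σ.t1.z P.d y u + e)
    (hz' : ∀ u, σ.t1.z P.d y u ≤ σ'.t1.z P.d y' u + e) : P.c1 σ σ' y y' ≤ e + 1 / P.G := by
  classical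
  have hG := lb_G_pos hP
  have hG' : (0 : ℝ) < P.G := by exact_mod_cast hG
  set a := σ.t1.m P.d y with ha
  set b := σ'.t1.m P.d y' with hb
  have hab : a ≤ b + e := by
    have e1 := m_le (d := P.d) σ.t1 y (σ'.t1.arg P.d y')
    have e2 := hz' (σ'.t1.arg P.d y')
    rw [z_arg] at e2
    linarith
  have hba : b ≤ a + e := by
    have e1 := m_le (d := P.d) σ'.t1 y' (σ.t1.arg P.d y)
    have e2 := hz (σ.t1.arg P.d y)
    rw [z_arg] at e2
    linarith
  have key : ∀ i : Fin P.G, P.lab1 σ i y ≠ P.lab1 σ' i y' →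
      min a b ≤ rad P.G i ∧ rad P.G i < min a b + e := by
    intro i hi
    by_cases c1 : a ≤ rad P.G i <;> by_cases c2 : b ≤ rad P.G i
    · exfalso
      apply hi
      have e1 : σ.t1.z P.d y (σ.t1.arg P.d y) ≤ rad P.G i := by rw [z_arg]; exact c1
      have e2 : σ'.t1.z P.d y' (σ'.t1.arg P.d y') ≤ rad P.G i := by rw [z_arg]; exact c2
      rw [lab1_eq hP hI e1, lab1_eq hP hI' e2]
      congr 1
      by_contra hne
      have e3 := z_sep hP.hd hI y hne
      have e4 := hz' (σ'.t1.arg P.d y')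
      have e5 := rad_lt_three i
      linarith
    · have c3 := not_le.1 c2
      rw [min_eq_left (by linarith)]
      exact ⟨c1, by linarith⟩
    · have c3 := not_le.1 c1
      rw [min_eq_right (by linarith)]
      exact ⟨c2, by linarith⟩
    · exfalso
      apply hi
      rw [lb_lab1_of_lt fun u => (not_le.1 c1).trans_le (m_le _ _ u),
        lb_lab1_of_lt fun u => (not_le.1 c2).trans_le (m_le _ _ u)]
  have h := lp_card hG (min a b) h0 (univ.filter fun i => P.lab1 σ i y ≠ P.lab1 σ' i y')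
    fun i hi => key i (mem_filter.1 hi).2
  have h2 := lp_sum_ind (fun i => P.lab1 σ i y ≠ P.lab1 σ' i y') fun _ => 1
  simp only [one_mul, sum_const, nsmul_eq_mul, mul_one] at h2
  unfold c1
  rw [h2, div_le_iff₀ hG']
  calc _ ≤ e * P.G + 1 := h
    _ = _ := by field_simp

theorem c1_far (hP : P.OK) (hI : σ.t1.Inv P.d) (hI' : σ'.t1.Inv P.d) {y : X}
    (h : ∀ u, σ'.t1.z P.d y u = σ.t1.z P.d y u ∨ (3 ≤ σ.t1.z P.d y u ∧ 3 ≤ σ'.t1.z P.d y u)) :
    P.c1 σ σ' y y = 0 := by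
  unfold c1
  rw [sum_eq_zero, zero_div]
  intro i _
  refine ind_neg (not_not.2 ?_)
  have e5 := rad_lt_three i
  by_cases c : ∃ u, σ.t1.z P.d y u ≤ rad P.G i
  · obtain ⟨u, hu⟩ := c
    have hu' : σ'.t1.z P.d y u ≤ rad P.G i := by
      rcases h u with h1 | h1
      · rw [h1]; exact hu
      · linarith [h1.1]
    rw [lab1_eq hP hI hu, lab1_eq hP hI' hu']
  · push Not at c
    rw [lb_lab1_of_lt c, lb_lab1_of_lt fun u => ?_]
    rcases h u with h1 | h1
    · rw [h1]; exact c u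
    · linarith [h1.2]

theorem tw_nonneg (hP : P.OK) (h : P.TInv μ σ) (b : ι × ι) : 0 ≤ σ.tw b := by
  rcases h.adm b with h1 | h1
  · exact h1.ge
  · linarith [h1.1, h.lo, hP.hμ]

theorem vec_adm (h : P.TInv μ σ) (y : X) (s : ℝ) : Adm P.μ (P.vec σ y s) := by
  intro b
  unfold vec
  split_ifs
  · rcases h.adm b with h1 | h1
    · exact Or.inl h1
    · exact Or.inr ⟨h.lo.trans h1.1, h1.2⟩
  · exact Or.inl rfl

theorem Om_nonneg (hP : P.OK) (h : P.TInv μ σ) (y : X) (s : ℝ) : 0 ≤ P.Om σ y s := by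
  refine sum_nonneg fun b _ => ?_
  unfold vec
  split_ifs
  · exact tw_nonneg hP h b
  · exact le_rfl

theorem Om_mono (hP : P.OK) (h : P.TInv μ σ) {y y' : X} {s s' : ℝ} (hs : s + P.d y y' ≤ s') :
    P.Om σ y s ≤ P.Om σ y' s' := by
  refine sum_le_sum fun b _ => ?_
  unfold vec
  by_cases h1 : P.d y (σ.tc b) ≤ s
  · have h2 : P.d y' (σ.tc b) ≤ s' := by
      linarith [hP.hd.tri y' y (σ.tc b), hP.hd.symm y y']
    rw [if_pos h1, if_pos h2]
  · rw [if_neg h1]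
    split_ifs
    · exact tw_nonneg hP h b
    · exact le_rfl

theorem ff_anti (hP : P.OK) (h : P.TInv μ σ) {y y' : X} {s s' : ℝ} (hs : s + P.d y y' ≤ s') :
    P.ff σ y' s' ≤ P.ff σ y s := by
  have h0 := w0_pos hP.hk
  have h1 := Om_nonneg hP h y s
  have h2 := Om_mono hP h hs
  unfold ff
  refine Real.log_le_log (div_pos (by linarith) (by linarith)) ?_
  exact div_le_div_of_nonneg_left (by linarith) (by linarith) (by linarith)

theorem ff_nonneg (hP : P.OK) (h : P.TInv μ σ) (y : X) {s : ℝ} (hs : s ≤ 4 / 5) : 0 ≤ P.ff σ y s := by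
  have h0 := w0_pos hP.hk
  have h1 := Om_nonneg hP h y s
  have h2 : P.Om σ y s ≤ P.Om σ y (4 / 5) := Om_mono hP h (by rw [hP.hd.refl]; linarith)
  have h3 := h.ball y
  unfold ff
  refine Real.log_nonneg ?_
  rw [le_div_iff₀ (by linarith)]
  linarith

theorem ff_le (hP : P.OK) (h : P.TInv μ σ) (y : X) (s : ℝ) : P.ff σ y s ≤ 2 * Lk k := by
  have h0 := w0_pos hP.hk
  have h1 := Om_nonneg hP h y s
  refine le_trans ?_ (w0_log hP.hk)
  unfold ff
  refine Real.log_le_log (div_pos (by linarith) (by linarith)) ?_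
  exact div_le_div_of_nonneg_left (by linarith) h0 (by linarith)

theorem lb_ff_rho (hP : P.OK) (h : P.TInv μ σ) (y : X) {j : ℕ} (hj : j ∈ range P.G) :
    0 ≤ P.ff σ y (rho P.G j) :=
  ff_nonneg hP h y (by linarith [rho_lt (mem_range.1 hj)])

theorem U_bd (hP : P.OK) (h : P.TInv μ σ) (y : X) :
    0 ≤ P.U σ y ∧ P.U σ y ≤ 2 * Lk k ∧ P.U σ y ≤ 2 * P.A σ y := by
  refine ⟨sum_nonneg fun j hj => mul_nonneg (nuw_nonneg _ _) (lb_ff_rho hP h y hj), ?_, ?_⟩
  · calc _ ≤ ∑ j ∈ range P.G, nuw P.G j * (2 * Lk k) :=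
          sum_le_sum fun j _ => mul_le_mul_of_nonneg_left (ff_le hP h y _) (nuw_nonneg _ _)
      _ = _ := by rw [← sum_mul, nuw_sum (lb_G_pos hP), one_mul]
  · unfold U A
    rw [sum_div, mul_sum]
    refine sum_le_sum fun j hj => ?_
    calc _ ≤ 2 / P.G * P.ff σ y (rho P.G j) :=
          mul_le_mul_of_nonneg_right (nuw_le (mem_range.1 hj)) (lb_ff_rho hP h y hj)
      _ = _ := by ring

theorem A_bd (hP : P.OK) (h : P.TInv μ σ) (y : X) : 0 ≤ P.A σ y ∧ P.A σ y ≤ 2 * Lk k := by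
  have hG' : (0 : ℝ) < P.G := by exact_mod_cast lb_G_pos hP
  refine ⟨div_nonneg (sum_nonneg fun j hj => lb_ff_rho hP h y hj) hG'.le, ?_⟩
  unfold A
  rw [div_le_iff₀ hG']
  calc _ ≤ ∑ _j ∈ range P.G, 2 * Lk k := sum_le_sum fun j _ => ff_le hP h y _
    _ = _ := by rw [sum_const, card_range, nsmul_eq_mul, mul_comm]

theorem wf_bd (σ : L2 ι X) (y : X) : 0 ≤ P.wf σ y ∧ P.wf σ y ≤ 1 := by
  refine ⟨le_min zero_le_one (le_inf' _ _ fun b _ => ?_), min_le_left _ _⟩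
  have h1 := le_max_right (P.d y (σ.tc b) - 1 / 10) 0
  have h2 := le_max_right (1 - σ.tw b / w0 k) 0
  linarith

theorem wf_lip (hP : P.OK) (σ : L2 ι X) (y r : X) : P.wf σ r ≤ P.wf σ y + 10 * P.d y r := by
  have hd := isD_nonneg hP.hd y r
  unfold wf
  obtain ⟨b, -, hb⟩ := exists_mem_eq_inf' (univ_nonempty (α := ι × ι)) fun b : ι × ι =>
    10 * max (P.d y (σ.tc b) - 1 / 10) 0 + max (1 - σ.tw b / w0 k) 0
  have h1 := inf'_le (fun b : ι × ι =>
    10 * max (P.d r (σ.tc b) - 1 / 10) 0 + max (1 - σ.tw b / w0 k) 0) (mem_univ b)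
  have h2 : max (P.d r (σ.tc b) - 1 / 10) 0 ≤ max (P.d y (σ.tc b) - 1 / 10) 0 + P.d y r := by
    refine max_le ?_ ?_
    · linarith [le_max_left (P.d y (σ.tc b) - 1 / 10) 0, hP.hd.tri r y (σ.tc b), hP.hd.symm y r]
    · linarith [le_max_right (P.d y (σ.tc b) - 1 / 10) 0]
  rw [hb]
  rcases min_choice 1 (10 * max (P.d y (σ.tc b) - 1 / 10) 0 + max (1 - σ.tw b / w0 k) 0) with h3 | h3
  · rw [h3]
    exact (min_le_left _ _).trans (by linarith)
  · rw [h3]
    exact (min_le_right _ _).trans (h1.trans (by linarith))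

theorem Pt_bd (hP : P.OK) (h : P.TInv μ σ) (y : X) : 0 ≤ P.Pt σ y ∧ P.Pt σ y ≤ 8 * Lk k + 1 := by
  have h1 := U_bd hP h y
  have h2 := wf_bd (P := P) σ y
  unfold Pt
  constructor <;> linarith [h1.1, h1.2.1, h2.1, h2.2]

theorem drift_nonneg (hP : P.OK) (σ : L2 ι X) (u : ι) : 0 ≤ P.drift σ u := by
  exact add_nonneg (isD_nonneg hP.hd _ _) (abs_nonneg _)

theorem z_sh (hP : P.OK) (h : P.Inv μ σ) (y : X) (u : ι) :
    σ.sh.z P.d y u ≤ σ.t1.z P.d y u + 1 / 50 ∧ σ.t1.z P.d y u ≤ σ.sh.z P.d y u + 1 / 50 := by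
  have h1 := h.dr u
  unfold drift at h1
  have h2 := le_abs_self (σ.t1.h u - σ.sh.h u)
  have h3 := neg_abs_le (σ.t1.h u - σ.sh.h u)
  have h4 := hP.hd.tri y (σ.t1.c u) (σ.sh.c u)
  have h5 := hP.hd.tri y (σ.sh.c u) (σ.t1.c u)
  have h6 := hP.hd.symm (σ.t1.c u) (σ.sh.c u)
  unfold St.z
  constructor <;> linarith

theorem m_sh (hP : P.OK) (h : P.Inv μ σ) (y : X) :
    σ.sh.m P.d y ≤ σ.t1.m P.d y + 1 / 50 ∧ σ.t1.m P.d y ≤ σ.sh.m P.d y + 1 / 50 := by
  constructor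
  · have e1 := m_le (d := P.d) σ.sh y (σ.t1.arg P.d y)
    have e2 := (z_sh hP h y (σ.t1.arg P.d y)).1
    rw [z_arg] at e2
    linarith
  · have e1 := m_le (d := P.d) σ.t1 y (σ.sh.arg P.d y)
    have e2 := (z_sh hP h y (σ.sh.arg P.d y)).2
    rw [z_arg] at e2
    linarith

theorem sh_sep (hP : P.OK) (h : P.Inv μ σ) (y : X) {u u' : ι} (hu : u ≠ u') :
    7 ≤ σ.sh.z P.d y u + σ.sh.z P.d y u' := by
  have h1 := z_sep hP.hd h.t1 y hu
  linarith [(z_sh hP h y u).2, (z_sh hP h y u').2]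

theorem lb_T_eq (hP : P.OK) (h : P.Inv μ σ) (y : X) :
    P.T σ y = chi (σ.sh.m P.d y) * P.drift σ (σ.sh.arg P.d y) := by
  unfold T
  rw [sum_eq_single (σ.sh.arg P.d y), z_arg]
  · intro u _ hu
    have h1 := sh_sep hP h y hu
    have h2 := m_le (d := P.d) σ.sh y u
    rw [z_arg] at h1
    rw [chi_zero (Or.inr (by linarith)), zero_mul]
  · intro h1
    exact absurd (mem_univ _) h1

theorem T_bd (hP : P.OK) (h : P.Inv μ σ) (y : X) : 0 ≤ P.T σ y ∧ P.T σ y ≤ 1 / 50 := by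
  rw [lb_T_eq hP h y]
  have h1 := chi_bd (σ.sh.m P.d y)
  have h2 := drift_nonneg hP σ (σ.sh.arg P.d y)
  have h3 := h.dr (σ.sh.arg P.d y)
  exact ⟨mul_nonneg h1.1 h2, (mul_le_of_le_one_left h2 h1.2).trans h3⟩

theorem T_zero (hP : P.OK) (h : P.Inv μ σ) {y : X} (hy : σ.t1.m P.d y ≤ 9 / 50) : P.T σ y = 0 := by
  rw [lb_T_eq hP h y, chi_zero (Or.inl (by linarith [(m_sh hP h y).1])), zero_mul]

theorem T_lip (hP : P.OK) (h : P.Inv μ σ) (y r : X) : P.T σ r ≤ P.T σ y + 2 / 5 * P.d y r := by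
  rw [lb_T_eq hP h r, ← z_arg]
  set u := σ.sh.arg P.d r
  have h1 : chi (σ.sh.z P.d y u) * P.drift σ u ≤ P.T σ y :=
    single_le_sum (f := fun u => chi (σ.sh.z P.d y u) * P.drift σ u)
      (fun u _ => mul_nonneg (chi_bd _).1 (drift_nonneg hP σ u)) (mem_univ u)
  have h2 := chi_lip (σ.sh.z P.d r u) (σ.sh.z P.d y u)
  have h3 : |σ.sh.z P.d r u - σ.sh.z P.d y u| ≤ P.d y r := by
    have e1 := z_lip hP.hd σ.sh y r u
    have e2 := z_lip hP.hd σ.sh r y u
    rw [hP.hd.symm r y] at e2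
    exact abs_le.2 ⟨by linarith, by linarith⟩
  have h4 := drift_nonneg hP σ u
  have h5 := h.dr u
  have h6 := isD_nonneg hP.hd y r
  have h7 : chi (σ.sh.z P.d r u) * P.drift σ u ≤
      (chi (σ.sh.z P.d y u) + 20 * P.d y r) * P.drift σ u :=
    mul_le_mul_of_nonneg_right (by linarith) h4
  have h8 : P.d y r * P.drift σ u ≤ P.d y r * (1 / 50) := mul_le_mul_of_nonneg_left h5 h6
  nlinarith

theorem pot_nonneg (hP : P.OK) (h : P.Inv μ σ) (y : X) : 0 ≤ P.pot σ y := by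
  have h1 := (Pt_bd hP h.toTInv y).1
  have h2 := (T_bd hP h y).1
  have h3 := psi_nonneg (σ.sh.m P.d y)
  unfold pot loss
  positivity

end Par

end Vale.Agent.P304.Sq
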