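import Vale.Agent.P304.Sq.LShad

/-! P304 tight bound, LEVEL: amortized cost of claims (model: Vale/Agent/P304/LPoint.lean, whose proofs contain the tier 1 parts).

PLAN.  s' = claim2 s a r v, s'.t1 = s.t1.claim d a r, D = s.t1.m d r, e = d y r.  By chg_le: Ec <= c1 + W2 + 1000 (loss' - loss) + 600 (T' - T).
Claim A (a = arg r, D <= 1/2): all z change by at most D (hz in Ec_claimA_mid), and ndr u := d (c' u) (sh.c u) + |h' u - sh.h u| <= drift u + D
(u = a: z r a = d r (c a) + h a = D; u <> a: the height rises by max 0 (8 - z r u) <= D).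
 near: chg = 0 (chg_zero), m' y <= e <= 1/6: claim_W_zero (psi' = 0), T' = 0 (T_zero for s'), Pt, T >= 0, loss as in Ec_claimA_near.
 mid: c1 <= D e + 1/G (e <= 1: chg_zero-like, lab1_eq; else c1_le), loss' - loss <= 2 D e.
  T' - T <= 6 D e - chi(z'_u y) drift u for every jumping u, and <= 6 D e (claim_T_le; at most one u has chi > 0 by sh_sep; a non jumping u with
  chi(sh.z y u) > 0 forces e >= 9/50: u = a: e = z' y a >= sh.z y a - 1/50 > 9/50 (z_sh for s'); u <> a: z' y u <= 29/10 + 1/50 and z_sep in s' give e >= 5).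
  W2 <= 0 if m' y <= 7/25 or nobody in Cmp is within 11/5.  Otherwise W2 <= 6, e >= m' y > 7/25, u in Cmp with d y (sh.c u) <= 11/5:
  D >= 1/100: 6 <= 2143 D e.  D < 1/100: sh.z y u in [1/4, 13/5] (z' y u >= m' y > 7/25, minus D, minus 1/50), chi = 1, drift u >= 1/50 - D > 1/100.
 far: as Ec_claim_far every u has z' = z or both >= 3; c1_far, loss' <= loss.  If (c u, h u) changes then u = a or z r u < 8, and then z y u >= 3
  (for u = a with 8 <= h a trivially), so sh.z y u >= 3 - 1/50 and chi = 0; unchanged u do not jump (dr) and contribute 0.  A u in Cmp within 11/5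
  has sh.z y u < 13/5 but jumps, contradiction; so W2 <= 0.
Claim B near: chg <= 1, m' y <= 1/10, psi' = 0, T' = 0, loss drops by 16/100 - 1/100.  Ec_claim_le: chg <= 1, loss' <= 1, claim_pt, T' <= 1/50.
Mc_claim: m' r = 0, so loss, psi, T vanish at r; chg = 0 if d y r <= 2.  init: Om = 0, drift = 0, m y <= d y a, psi = 0 if d y a <= 3/10, Pt <= 8 Lk + 1, Lk >= 2. -/

set_option linter.unusedSectionVars false

namespace Vale.Agent.P304.Sq

open Finset Lv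

variable {ι X : Type} [Fintype ι] [LinearOrder ι] [Nonempty ι] {k : ℕ} {P : Par ι X k}
  {σ σ' : L2 ι X} {μ : ℝ}

namespace Par

variable {a v : ι} {r y : X}

theorem clm_self (σ : L2 ι X) (a : ι) (r : X) (v : ι) (y : X) :
    (P.claim2 σ a r v).t1.z P.d y a = P.d y r := claim_z_self _ _ _ _

theorem clm_Ec (hP : P.OK) (σ σ' : L2 ι X) (y : X) : P.Ec σ σ' y ≤ P.c1 σ σ' y y + P.W2 σ σ' y +
    1000 * (P.loss σ' y - P.loss σ y) + 600 * (P.T σ' y - P.T σ y) := by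
  have := chg_le hP σ σ' y y
  unfold Ec pot W2
  linarith

theorem clm_pot (hP : P.OK) (h : P.Inv μ σ) (lo : P.μ ≤ μ / 2) (hi : μ ≤ w0 k)
    (hv : ∀ u, σ.tw (v, u) = 0) (a : ι) {e : ℝ} (hy : P.d y r ≤ e) (he : e ≤ 9 / 50) :
    P.pot (P.claim2 σ a r v) y ≤ 1000 * e ^ 2 := by
  have hI' := claim2_inv hP h lo hi hv a r
  have e2 := clm_self (P := P) σ a r v y
  have e4 := m_le (d := P.d) (P.claim2 σ a r v).t1 y a
  have h0 : 0 ≤ min ((P.claim2 σ a r v).t1.m P.d y) 1 :=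
    le_min (m_nonneg hP.hd hI'.t1 y) zero_le_one
  have h3 := pow_le_pow_left₀ h0 ((min_le_left _ _).trans (by linarith : _ ≤ e)) 2
  rw [pot, (claim_W_zero hP h lo hi hv (by linarith)).1, T_zero hP hI' (by linarith), loss]
  linarith

theorem clm_pot_ge (hP : P.OK) (h : P.Inv μ σ) {e : ℝ} (h0 : 0 ≤ e) (h1 : e ≤ 1)
    (h2 : e ≤ σ.t1.m P.d y) : 1000 * e ^ 2 ≤ P.pot σ y := by
  have h3 := pow_le_pow_left₀ h0 (le_min h2 h1) 2
  have h4 := mul_nonneg (psi_nonneg (σ.sh.m P.d y)) (Pt_bd hP h.toTInv y).1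
  have h5 := (T_bd hP h y).1
  unfold pot loss
  linarith

/-- the drift of `u` after the claim if its shadow does not jump -/
noncomputable def ndr (P : Par ι X k) (σ : L2 ι X) (a : ι) (r : X) (u : ι) : ℝ :=
  P.d ((σ.t1.claim P.d a r).c u) (σ.sh.c u) + |(σ.t1.claim P.d a r).h u - σ.sh.h u|

theorem clm_T (hP : P.OK) (h : P.Inv μ σ) (a : ι) (r y : X) (v : ι) {u : ι}
    (hu : σ.sh.z P.d y u ≤ 4 ∨ u = σ.sh.arg P.d y) : P.T (P.claim2 σ a r v) y - P.T σ y =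
      chi (σ.sh.z P.d y u) * (ind (¬P.Jmp σ a r u) * P.ndr σ a r u - P.drift σ u) := by
  rw [claim_T_le hP, sum_eq_single u (fun b _ hb => ?_) (by simp), ndr]
  have h1 := sh_sep hP h y hb
  rw [chi_zero (.inr ?_), zero_mul]
  rcases hu with hu | hu
  · linarith
  · have h2 := m_le (d := P.d) σ.sh y b
    rw [← z_arg, ← hu] at h2
    linarith

theorem clm_ndr (hP : P.OK) (h : P.Inv μ σ) (r : X) (u : ι) :
    P.ndr σ (σ.t1.arg P.d r) r u ≤ P.drift σ u + σ.t1.m P.d r := by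
  have e1 := z_arg (d := P.d) σ.t1 r
  have e7 := m_nonneg hP.hd h.t1 r
  have t0 := le_abs_self (σ.t1.h u - σ.sh.h u)
  have t1 := neg_abs_le (σ.t1.h u - σ.sh.h u)
  unfold ndr drift
  simp only [St.claim]
  by_cases hu : u = σ.t1.arg P.d r
  · rw [← hu] at e1 ⊢
    have t2 := hP.hd.tri r (σ.t1.c u) (σ.sh.c u)
    have t3 := h.t1.h_nonneg u
    have : |0 - σ.sh.h u| ≤ |σ.t1.h u - σ.sh.h u| + σ.t1.h u := abs_le.2 ⟨by linarith, by linarith⟩
    rw [Function.update_self, if_pos rfl]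
    unfold St.z at e1
    linarith
  · have t2 := z_sep hP.hd h.t1 r hu
    have t3 := hP.hd.symm r (σ.t1.c u)
    have t4 := le_max_left (σ.t1.h u) (8 - P.d (σ.t1.c u) r)
    have t5 : max (σ.t1.h u) (8 - P.d (σ.t1.c u) r) ≤ σ.t1.h u + σ.t1.m P.d r :=
      max_le (by linarith) (by rw [e1] at t2; unfold St.z at t2; linarith)
    rw [Function.update_of_ne hu, if_neg hu]
    have : |max (σ.t1.h u) (8 - P.d (σ.t1.c u) r) - σ.sh.h u| ≤
      |σ.t1.h u - σ.sh.h u| + σ.t1.m P.d r := abs_le.2 ⟨by linarith, by linarith⟩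
    linarith

theorem clm_z (hP : P.OK) (h : P.Inv μ σ) (r y : X) (v u : ι) :
    (P.claim2 σ (σ.t1.arg P.d r) r v).t1.z P.d y u ≤ σ.t1.z P.d y u + σ.t1.m P.d r ∧
      σ.t1.z P.d y u ≤ (P.claim2 σ (σ.t1.arg P.d r) r v).t1.z P.d y u + σ.t1.m P.d r := by
  have e1 := z_arg (d := P.d) σ.t1 r
  by_cases hu : u = σ.t1.arg P.d r
  · rw [← hu] at e1 ⊢
    have t1 := hP.hd.tri y (σ.t1.c u) r
    have t2 := hP.hd.symm (σ.t1.c u) r
    have t3 := h.t1.h_nonneg u
    have e3 := z_lip hP.hd σ.t1 y r u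
    rw [clm_self]
    refine ⟨?_, by linarith⟩
    unfold St.z at e1 ⊢
    linarith
  · have e : (P.claim2 σ (σ.t1.arg P.d r) r v).t1.z P.d y u = _ := claim_z_ne hP.hd σ.t1 hu r y
    have t1 := z_sep hP.hd h.t1 r hu
    have t2 : max 0 (8 - σ.t1.z P.d r u) ≤ σ.t1.m P.d r :=
      max_le (m_nonneg hP.hd h.t1 r) (by linarith)
    have t3 := le_max_left 0 (8 - σ.t1.z P.d r u)
    constructor <;> linarith

theorem clm_T_mid (hP : P.OK) (h : P.Inv μ σ) (lo : P.μ ≤ μ / 2) (hi : μ ≤ w0 k)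
    (hv : ∀ u, σ.tw (v, u) = 0) (r y : X) :
    P.T (P.claim2 σ (σ.t1.arg P.d r) r v) y - P.T σ y ≤ 6 * σ.t1.m P.d r * P.d y r := by
  have hI' := claim2_inv hP h lo hi hv (σ.t1.arg P.d r) r
  have e7 := m_nonneg hP.hd h.t1 r
  have e8 := isD_nonneg hP.hd y r
  rw [clm_T hP h _ r y v (.inr rfl)]
  generalize σ.sh.arg P.d y = u
  obtain ⟨c0, c1⟩ := chi_bd (σ.sh.z P.d y u)
  by_cases hJ : P.Jmp σ (σ.t1.arg P.d r) r u
  · rw [ind_neg (not_not.2 hJ)]
    nlinarith [mul_nonneg c0 (drift_nonneg hP σ u), mul_nonneg e7 e8]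
  by_cases hc : σ.sh.z P.d y u ≤ 1 / 5 ∨ 29 / 10 ≤ σ.sh.z P.d y u
  · rw [chi_zero hc, zero_mul]
    positivity
  rw [not_or, not_le, not_le] at hc
  have h1 : (P.claim2 σ (σ.t1.arg P.d r) r v).sh.z P.d y u = σ.sh.z P.d y u := by
    simp only [St.z, claim2, if_neg hJ]
  have h2 := z_sh hP hI' y u
  have h3 := clm_self (P := P) σ (σ.t1.arg P.d r) r v y
  have h4 : 9 / 50 ≤ P.d y r := by
    by_cases hu : u = σ.t1.arg P.d r
    · rw [← hu] at h3
      rw [← hu] at h1 h2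
      linarith [h2.1, hc.1]
    · linarith [z_sep hP.hd hI'.t1 y hu, h2.2, hc.2]
  have h5 := mul_le_mul_of_nonneg_left (sub_le_iff_le_add'.2 (clm_ndr hP h r u)) c0
  rw [ind_pos hJ, one_mul]
  nlinarith [mul_le_mul_of_nonneg_left h4 e7, mul_le_mul_of_nonneg_right c1 e7]

theorem EcA_near (hP : P.OK) (h : P.Inv μ σ) (lo : P.μ ≤ μ / 2) (hi : μ ≤ w0 k)
    (hv : ∀ u, σ.tw (v, u) = 0) (hD : σ.t1.m P.d r ≤ 1 / 2) (hy : P.d y r ≤ σ.t1.m P.d r / 3) :
    P.Ec σ (P.claim2 σ (σ.t1.arg P.d r) r v) y ≤ -(1000 * σ.t1.m P.d r ^ 2 / 3) := by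
  have hI' := claim2_inv hP h lo hi hv (σ.t1.arg P.d r) r
  have e1 := z_arg (d := P.d) σ.t1 r
  have e2 := clm_self (P := P) σ (σ.t1.arg P.d r) r v y
  have e3 := z_lip hP.hd σ.t1 y r (σ.t1.arg P.d r)
  have e5 := m_lip hP.hd σ.t1 r y
  have e6 := hP.hd.symm r y
  have e7 := m_nonneg hP.hd h.t1 r
  have h0 := chg_zero hP h.t1 hI'.t1 (y := y) (y' := y) (u := σ.t1.arg P.d r) (by linarith)
    (by linarith)
  have h1 := clm_pot hP h lo hi hv (σ.t1.arg P.d r) (y := y) (e := σ.t1.m P.d r / 3) hy (by linarith)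
  have h2 := clm_pot_ge hP h (y := y) (e := 2 * σ.t1.m P.d r / 3) (by linarith) (by linarith)
    (by linarith)
  unfold Ec
  nlinarith

theorem EcA_mid (hP : P.OK) (h : P.Inv μ σ) (lo : P.μ ≤ μ / 2) (hi : μ ≤ w0 k)
    (hv : ∀ u, σ.tw (v, u) = 0) (hD : σ.t1.m P.d r ≤ 1 / 2) (y : X) :
    P.Ec σ (P.claim2 σ (σ.t1.arg P.d r) r v) y ≤ 8000 * σ.t1.m P.d r * P.d y r + 1 / P.G := by
  have hI' := claim2_inv hP h lo hi hv (σ.t1.arg P.d r) r
  have hz := clm_z hP h r y v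
  have hT := clm_T_mid hP h lo hi hv r y
  have hW := claim_W hP h lo hi hv (σ.t1.arg P.d r) r y
  have hW0 := claim_W_zero hP h lo hi hv (a := σ.t1.arg P.d r) (r := r) (y := y)
  have hT2 := fun u hu => clm_T hP h (σ.t1.arg P.d r) r y v (u := u) (.inl hu)
  have e2 := clm_self (P := P) σ (σ.t1.arg P.d r) r v y
  generalize P.claim2 σ (σ.t1.arg P.d r) r v = σ' at *
  have e1 := z_arg (d := P.d) σ.t1 r
  have e3 := z_lip hP.hd σ.t1 y r (σ.t1.arg P.d r)
  have e4 := m_le (d := P.d) σ'.t1 y (σ.t1.arg P.d r)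
  have e7 := m_nonneg hP.hd h.t1 r
  have e8 := isD_nonneg hP.hd y r
  have hds := mul_nonneg e7 e8
  have hm1 : σ'.t1.m P.d y ≤ σ.t1.m P.d y + σ.t1.m P.d r := by
    have := (hz (σ.t1.arg P.d y)).1
    rw [z_arg] at this
    linarith [m_le (d := P.d) σ'.t1 y (σ.t1.arg P.d y)]
  have hc : P.c1 σ σ' y y ≤ σ.t1.m P.d r * P.d y r + 1 / P.G := by
    rcases le_total (P.d y r) 1 with hs | hs
    · have : ∀ i, P.lab1 σ i y = P.lab1 σ' i y := fun i => by
        have := two_le_rad i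
        rw [lab1_eq hP h.t1 (u := σ.t1.arg P.d r) (by linarith),
          lab1_eq hP hI'.t1 (u := σ.t1.arg P.d r) (by linarith)]
      rw [c1, sum_eq_zero fun i _ => ind_neg fun hR => hR (this i), zero_div]
      positivity
    · nlinarith [c1_le hP h.t1 hI'.t1 e7 (by linarith) (fun u => (hz u).1) fun u => (hz u).2]
  have hl : P.loss σ' y ≤ P.loss σ y + 2 * σ.t1.m P.d r * P.d y r := by
    have hmin : min (σ'.t1.m P.d y) 1 ≤ min (σ.t1.m P.d y) 1 + σ.t1.m P.d r := by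
      rcases le_total (σ.t1.m P.d y) 1 with h | h
      · rw [min_eq_left h]
        linarith [min_le_left (σ'.t1.m P.d y) 1]
      · rw [min_eq_right h]
        linarith [min_le_right (σ'.t1.m P.d y) 1]
    have h0 : 0 ≤ min (σ'.t1.m P.d y) 1 := le_min (m_nonneg hP.hd hI'.t1 y) zero_le_one
    have h0' : 0 ≤ min (σ.t1.m P.d y) 1 := le_min (m_nonneg hP.hd h.t1 y) zero_le_one
    have h1 : min (σ'.t1.m P.d y) 1 ≤ P.d y r := by linarith [min_le_left (σ'.t1.m P.d y) 1]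
    unfold loss
    generalize min (σ'.t1.m P.d y) 1 = a at *
    generalize min (σ.t1.m P.d y) 1 = b at *
    rcases le_total a b with h | h <;> nlinarith
  have hE := clm_Ec hP σ σ' y
  by_cases h1 : σ'.t1.m P.d y ≤ 7 / 25
  · linarith [(hW0 h1).2]
  by_cases h2 : ∃ u, P.Cmp σ (σ.t1.arg P.d r) r u ∧ P.d y (σ.sh.c u) ≤ 11 / 5
  swap
  · rw [ind_neg h2] at hW
    linarith
  rw [ind_pos h2] at hW
  rcases le_total (1 / 100) (σ.t1.m P.d r) with h3 | h3
  · have : 1 / 100 * (7 / 25) ≤ σ.t1.m P.d r * P.d y r :=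
      mul_le_mul h3 (by linarith) (by norm_num) e7
    linarith
  obtain ⟨u, ⟨hJ, h4⟩, h5⟩ := h2
  have h6 : σ.sh.z P.d y u ≤ 13 / 5 := by
    unfold St.z
    linarith
  have h7 := hT2 u (by linarith)
  have h8 : 1 / 50 < P.ndr σ (σ.t1.arg P.d r) r u := hJ
  rw [chi_one (by linarith [m_le (d := P.d) σ'.t1 y u, (hz u).1, (z_sh hP h y u).2]) (by linarith),
    ind_neg (not_not.2 hJ)] at h7
  linarith [clm_ndr hP h r u]

theorem Ec_claim_far2 (hP : P.OK) (h : P.Inv μ σ) (lo : P.μ ≤ μ / 2) (hi : μ ≤ w0 k)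
    (hv : ∀ u, σ.tw (v, u) = 0) (ha : σ.t1.z P.d r a ≤ 1 / 2 ∨ 8 ≤ σ.t1.h a) (hy : 11 < P.d y r) :
    P.Ec σ (P.claim2 σ a r v) y ≤ 0 := by
  have hI' := claim2_inv hP h lo hi hv a r
  have key : ∀ u, ((σ.t1.claim P.d a r).c u = σ.t1.c u ∧ (σ.t1.claim P.d a r).h u = σ.t1.h u) ∨
      (3 ≤ σ.t1.z P.d y u ∧ 3 ≤ (σ.t1.claim P.d a r).z P.d y u) := fun u => by
    have t1 := hP.hd.tri y (σ.t1.c u) r
    have t2 := hP.hd.symm (σ.t1.c u) r
    have t3 := h.t1.h_nonneg u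
    by_cases hu : u = a
    · subst hu
      right
      rw [claim_z_self]
      refine ⟨?_, by linarith⟩
      have := isD_nonneg hP.hd y (σ.t1.c u)
      unfold St.z at *
      rcases ha with ha | ha <;> linarith
    rcases le_total 8 (σ.t1.z P.d r u) with h1 | h1
    · refine .inl ⟨Function.update_of_ne hu _ _, (if_neg hu).trans (max_eq_left ?_)⟩
      unfold St.z at h1
      linarith
    · right
      rw [claim_z_ne hP.hd σ.t1 hu]
      have := le_max_left 0 (8 - σ.t1.z P.d r u)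
      unfold St.z at *
      constructor <;> linarith
  have hz : ∀ u, (P.claim2 σ a r v).t1.z P.d y u = σ.t1.z P.d y u ∨
      (3 ≤ σ.t1.z P.d y u ∧ 3 ≤ (P.claim2 σ a r v).t1.z P.d y u) := fun u =>
    (key u).imp_left fun e => congrArg₂ (fun c t => P.d y c + t) e.1 e.2
  have hc := c1_far hP h.t1 hI'.t1 hz
  have hm : min ((P.claim2 σ a r v).t1.m P.d y) 1 ≤ min (σ.t1.m P.d y) 1 := by
    refine le_min ?_ (min_le_right _ _)
    have e1 := z_arg (d := P.d) σ.t1 y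
    have e2 := m_le (d := P.d) (P.claim2 σ a r v).t1 y (σ.t1.arg P.d y)
    rcases hz (σ.t1.arg P.d y) with h2 | h2
    · linarith [min_le_left ((P.claim2 σ a r v).t1.m P.d y) 1]
    · linarith [min_le_right ((P.claim2 σ a r v).t1.m P.d y) 1, h2.1]
  have hl : P.loss (P.claim2 σ a r v) y ≤ P.loss σ y :=
    pow_le_pow_left₀ (le_min (m_nonneg hP.hd hI'.t1 y) zero_le_one) hm 2
  have hT : P.T (P.claim2 σ a r v) y - P.T σ y ≤ 0 := by
    rw [claim_T_le hP]
    refine sum_nonpos fun u _ => ?_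
    rcases key u with ⟨e1, e2⟩ | ⟨e1, -⟩
    · rw [e1, e2]
      exact mul_nonpos_of_nonneg_of_nonpos (chi_bd _).1
        (sub_nonpos.2 (mul_le_of_le_one_left (drift_nonneg hP σ u) (ind_le_one _)))
    · rw [chi_zero (.inr (by linarith [(z_sh hP h y u).2])), zero_mul]
  have hW := claim_W hP h lo hi hv a r y
  rw [ind_neg] at hW
  · linarith [clm_Ec hP σ (P.claim2 σ a r v) y]
  rintro ⟨u, ⟨hJ, h4⟩, h5⟩
  rcases key u with ⟨e1, e2⟩ | ⟨e1, -⟩
  · rw [Jmp, e1, e2] at hJ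
    exact not_lt.2 (h.dr u) hJ
  · have := (z_sh hP h y u).2
    unfold St.z at this e1
    linarith

theorem EcB_near (hP : P.OK) (h : P.Inv μ σ) (lo : P.μ ≤ μ / 2) (hi : μ ≤ w0 k)
    (hv : ∀ u, σ.tw (v, u) = 0) (a : ι) (hD : 1 / 2 < σ.t1.m P.d r) (hy : P.d y r ≤ 1 / 10) :
    P.Ec σ (P.claim2 σ a r v) y ≤ -149 := by
  have h0 := chg_le_one hP σ (P.claim2 σ a r v) y y
  have h1 := clm_pot hP h lo hi hv a hy (by norm_num)
  have h2 := clm_pot_ge hP h (y := y) (e := 2 / 5) (by norm_num) (by norm_num)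
    (by linarith [m_lip hP.hd σ.t1 r y, hP.hd.symm r y])
  unfold Ec
  linarith

theorem Ec_claim_le (hP : P.OK) (h : P.Inv μ σ) (lo : P.μ ≤ μ / 2) (hi : μ ≤ w0 k)
    (hv : ∀ u, σ.tw (v, u) = 0) (a : ι) (r y : X) : P.Ec σ (P.claim2 σ a r v) y ≤ 1018 := by
  have hI' := claim2_inv hP h lo hi hv a r
  have h0 := chg_le_one hP σ (P.claim2 σ a r v) y y
  have h1 := pow_le_one₀ (n := 2) (le_min (m_nonneg hP.hd hI'.t1 y) zero_le_one) (min_le_right _ _)
  have h2 := claim_pt hP h lo hi hv a r y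
  have h3 := (T_bd hP hI' y).2
  have h4 := (T_bd hP h y).1
  have h5 := sq_nonneg (min (σ.t1.m P.d y) 1)
  unfold Ec pot loss
  linarith

theorem Mc_claim2 (hP : P.OK) (h : P.Inv μ σ) (lo : P.μ ≤ μ / 2) (hi : μ ≤ w0 k)
    (hv : ∀ u, σ.tw (v, u) = 0) (a : ι) (r y : X) :
    P.Mc (P.claim2 σ a r v) y r ≤ (min (P.d y r) 1) ^ 2 := by
  have hI' := claim2_inv hP h lo hi hv a r
  have h1 := clm_pot hP h lo hi hv a (hP.hd.refl r).le (by norm_num)
  have h2 := pot_nonneg hP hI' y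
  have h3 : P.chg (P.claim2 σ a r v) (P.claim2 σ a r v) y r ≤ (min (P.d y r) 1) ^ 2 := by
    rcases le_total (P.d y r) 1 with hs | hs
    · rw [chg_zero hP hI'.t1 hI'.t1 (u := a) (by rw [clm_self]; linarith)
        (by rw [clm_self, hP.hd.refl]; norm_num)]
      positivity
    · rw [min_eq_right hs, one_pow]
      exact chg_le_one hP _ _ _ _
  unfold Mc
  linarith

theorem init_inv2 (hP : P.OK) (lo : P.μ ≤ μ) (i₀ : ι) (b : X) : P.Inv μ (L2.init i₀ b) := by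
  refine ⟨⟨fun _ => .inl rfl, fun y => ?_, lo⟩, init_inv hP.hd i₀ b, fun u => ?_,
    (init_inv hP.hd i₀ b).h_nonneg⟩
  · exact (sum_nonpos fun _ _ => (ite_self _).le).trans zero_le_one
  · simp [drift, L2.init, hP.hd.refl]

theorem pot_init (hP : P.OK) (i₀ : ι) (b y : X) :
    P.pot (L2.init i₀ b) y ≤ 600 * Lk k * (min (P.d y b) 1) ^ 2 := by
  have hI := init_inv2 hP le_rfl i₀ b
  have e1 : (St.init i₀ b).z P.d y i₀ = P.d y b := by simp [St.z, St.init]
  have e2 := m_le (d := P.d) (St.init i₀ b) y i₀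
  have h3 : P.loss (L2.init i₀ b) y ≤ (min (P.d y b) 1) ^ 2 :=
    pow_le_pow_left₀ (le_min (m_nonneg hP.hd hI.t1 y) zero_le_one)
      (min_le_min_right _ (e2.trans e1.le)) 2
  have h4 : P.T (L2.init i₀ b) y = 0 := by simp [T, drift, L2.init, hP.hd.refl]
  have h5 : 2 ≤ Lk k := le_add_of_nonneg_left (Real.log_natCast_nonneg k)
  rw [pot, h4]
  rcases le_total (P.d y b) (3 / 10) with h | h
  · rw [psi_zero (s := (L2.init i₀ b).sh.m P.d y) (e2.trans (e1.le.trans h))]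
    nlinarith [sq_nonneg (min (P.d y b) 1)]
  · have h6 := pow_le_pow_left₀ (by norm_num) (le_min h (by norm_num : (3 / 10 : ℝ) ≤ 1)) 2
    have h7 := Pt_bd hP hI.toTInv y
    have h8 := mul_le_of_le_one_left h7.1 (psi_le_one ((L2.init i₀ b).sh.m P.d y))
    nlinarith [mul_le_mul_of_nonneg_left h6 (show 0 ≤ 600 * Lk k - 1000 by linarith), h7.2]

end Par

end Vale.Agent.P304.Sq
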