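import Vale.Agent.P304.Sq.Defs
import Vale.Agent.P304.LAvg

/-! P304 tight bound, part LEVEL: definitions (see notes/P304_sq.md, section LEVEL).
Tier 1 centres and their shadows are states `Lv.St` of the old LEVEL part (the base is not used);
`Lv.ind` is the indicator, `Lv.rad G i = 2 + i / G`. -/

namespace Vale.Agent.P304.Sq

open Finset Lv

/-- admissible weight vectors -/
def Adm {τ : Type} (μ : ℝ) (a : τ → ℝ) : Prop := ∀ b, a b = 0 ∨ (μ ≤ a b ∧ a b ≤ 1)

/-- a consistent sampler: it picks an index of positive weight, and two weight vectors get different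
picks with probability at most their weighted Jaccard distance plus `ε` -/
structure SmpOK {τ : Type} [Fintype τ] {N : ℕ} (μ ε : ℝ) (win : Fin N → (τ → ℝ) → Option τ) : Prop where
  pos : ∀ ξ a b, win ξ a = some b → 0 < a b
  ex : ∀ ξ a b, 0 < a b → win ξ a ≠ none
  cut : ∀ a a', Adm μ a → Adm μ a' → (∑ ξ, ind (win ξ a ≠ win ξ a')) / N ≤
    (∑ b, |a b - a' b|) / (∑ b, max (a b) (a' b)) + ε

/-- radii of tier 2 -/
noncomputable def rho (G j : ℕ) : ℝ := (2 + (j : ℝ) / G) / 5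
/-- linear density of the radius of tier 2 -/
noncomputable def nuw (G j : ℕ) : ℝ := (2 * (j : ℝ) + 1) / (G : ℝ) ^ 2
/-- regularization weight -/
noncomputable def w0 (k : ℕ) : ℝ := 1 / (40 * (k : ℝ))
/-- cutoff of the tier 2 potential -/
noncomputable def psi (s : ℝ) : ℝ := (max 0 (min 1 (10 * (s - 3 / 10)))) ^ 2
/-- cutoff of the drift potential -/
noncomputable def chi (s : ℝ) : ℝ := max 0 (min (min (20 * (s - 1 / 5)) 1) (5 * (29 / 10 - s)))
/-- depth inside the zone where the tier 2 potential counts -/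
noncomputable def dep (s : ℝ) : ℝ := max 0 (min (s - 3 / 10) (1 / 10))

/-- state of one level: centres, shadows, tokens -/
structure L2 (ι X : Type) where
  t1 : Lv.St ι X
  sh : Lv.St ι X
  tc : ι × ι → X
  tw : ι × ι → ℝ

/-- parameters of one level -/
structure Par (ι X : Type) (k : ℕ) where
  d : X → X → ℝ
  G : ℕ
  N : ℕ
  win : Fin N → (ι × ι → ℝ) → Option (ι × ι)
  μ : ℝ
  ε : ℝ

variable {ι X : Type} [Fintype ι] [LinearOrder ι] [Nonempty ι] {k : ℕ}

namespace Par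

variable (P : Par ι X k)

structure OK : Prop where
  hd : IsD P.d
  hk : 2 ≤ k
  hG : 2 ≤ P.G
  hN : 0 < P.N
  hμ : 0 < P.μ
  hε : 0 ≤ P.ε
  smp : SmpOK P.μ P.ε P.win

open Classical in
/-- weights of the tokens within distance `s` of `y` -/
noncomputable def vec (σ : L2 ι X) (y : X) (s : ℝ) : ι × ι → ℝ :=
  fun b => if P.d y (σ.tc b) ≤ s then σ.tw b else 0
noncomputable def Om (σ : L2 ι X) (y : X) (s : ℝ) : ℝ := ∑ b, P.vec σ y s b
noncomputable def ff (σ : L2 ι X) (y : X) (s : ℝ) : ℝ := Real.log ((1 + w0 k) / (P.Om σ y s + w0 k))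
noncomputable def U (σ : L2 ι X) (y : X) : ℝ := ∑ j ∈ range P.G, nuw P.G j * P.ff σ y (rho P.G j)
noncomputable def A (σ : L2 ι X) (y : X) : ℝ := (∑ j ∈ range P.G, P.ff σ y (rho P.G j)) / P.G
noncomputable def wf (σ : L2 ι X) (y : X) : ℝ :=
  min 1 (univ.inf' univ_nonempty fun b : ι × ι =>
    10 * max (P.d y (σ.tc b) - 1 / 10) 0 + max (1 - σ.tw b / w0 k) 0)
/-- tier 2 potential -/
noncomputable def Pt (σ : L2 ι X) (y : X) : ℝ := 4 * P.U σ y + P.wf σ y
noncomputable def drift (σ : L2 ι X) (u : ι) : ℝ := P.d (σ.t1.c u) (σ.sh.c u) + |σ.t1.h u - σ.sh.h u|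
/-- drift potential -/
noncomputable def T (σ : L2 ι X) (y : X) : ℝ := ∑ u, chi (σ.sh.z P.d y u) * P.drift σ u
noncomputable def loss (σ : L2 ι X) (y : X) : ℝ := (min (σ.t1.m P.d y) 1) ^ 2
/-- potential of one server -/
noncomputable def pot (σ : L2 ι X) (y : X) : ℝ :=
  1000 * P.loss σ y + psi (σ.sh.m P.d y) * P.Pt σ y + 600 * P.T σ y

open Classical in
/-- tier 1 label -/
noncomputable def lab1 (σ : L2 ι X) (i : Fin P.G) (y : X) : Option ι :=
  if h : ∃ u, σ.t1.z P.d y u ≤ rad P.G i then some h.choose else none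
/-- tier 2 label -/
noncomputable def lab2 (σ : L2 ι X) (j : Fin P.G) (ξ : Fin P.N) (y : X) : (ι × ι) ⊕ X :=
  (P.win ξ (P.vec σ y (rho P.G j))).elim (Sum.inr y) Sum.inl
/-- the space of random choices -/
abbrev RS : Type := Fin P.G × Fin P.G × Fin P.N
/-- label -/
noncomputable def lab (σ : L2 ι X) (R : P.RS) (y : X) : ι ⊕ (ι × ι) ⊕ X :=
  (P.lab1 σ R.1 y).elim (Sum.inr (P.lab2 σ R.2.1 R.2.2 y)) Sum.inl
/-- expectation over the random choices -/
noncomputable def EX (f : P.RS → ℝ) : ℝ := ∑ R : P.RS, 1 / P.G * (nuw P.G R.2.1 * (1 / P.N)) * f R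
noncomputable def c1 (σ σ' : L2 ι X) (y y' : X) : ℝ :=
  (∑ i, ind (P.lab1 σ i y ≠ P.lab1 σ' i y')) / P.G
noncomputable def c2 (σ σ' : L2 ι X) (y y' : X) : ℝ :=
  ∑ j : Fin P.G, nuw P.G j * ((∑ ξ, ind (P.lab2 σ j ξ y ≠ P.lab2 σ' j ξ y')) / P.N)
/-- probability that the label of `y` in `σ` differs from the label of `y'` in `σ'` -/
noncomputable def chg (σ σ' : L2 ι X) (y y' : X) : ℝ := P.EX fun R => ind (P.lab σ R y ≠ P.lab σ' R y')
/-- amortized cost of a change of state for a server at `y` -/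
noncomputable def Ec (σ σ' : L2 ι X) (y : X) : ℝ := P.chg σ σ' y y + P.pot σ' y - P.pot σ y
/-- amortized cost of moving a server from `y` to `r` -/
noncomputable def Mc (σ : L2 ι X) (y r : X) : ℝ := P.chg σ σ y r + P.pot σ r - P.pot σ y

/-- invariants of the tokens -/
structure TInv (μ : ℝ) (σ : L2 ι X) : Prop where
  adm : Adm μ σ.tw
  ball : ∀ y, P.Om σ y (4 / 5) ≤ 1
  lo : P.μ ≤ μ

/-- invariants of the state -/
structure Inv (μ : ℝ) (σ : L2 ι X) : Prop extends P.TInv μ σ where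
  t1 : σ.t1.Inv P.d
  dr : ∀ u, P.drift σ u ≤ 1 / 50
  sh0 : ∀ u, 0 ≤ σ.sh.h u

/-- the index `v` has not been used -/
def Fresh (σ : L2 ι X) (v : ι) : Prop := 8 ≤ σ.t1.h v ∧ ∀ u, σ.tw (v, u) = 0

open Classical in
/-- insert tokens of weight `θ` at the places `y u`, `Jp u`, with the indices `(v, u)`, and age the
tokens nearby -/
noncomputable def ins (σ : L2 ι X) (Jp : ι → Prop) (y : ι → X) (θ : ℝ) (v : ι) : L2 ι X where
  t1 := σ.t1
  sh := σ.sh
  tc := fun b => if b.1 = v ∧ Jp b.2 then y b.2 else σ.tc b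
  tw := fun b => if b.1 = v ∧ Jp b.2 then θ
    else if ∃ u, Jp u ∧ P.d (σ.tc b) (y u) ≤ 8 / 5 then (1 - θ) * σ.tw b else σ.tw b

/-- hypotheses of an insertion -/
structure InsOK (μ : ℝ) (σ : L2 ι X) (Jp : ι → Prop) (y : ι → X) (θ : ℝ) (v : ι) : Prop where
  ok : P.OK
  inv : P.TInv μ σ
  lo : P.μ ≤ μ / 2
  hi : μ ≤ w0 k
  lb : w0 k ≤ θ
  ub : θ ≤ 1 / 2
  fr : ∀ u, σ.tw (v, u) = 0
  sep : ∀ u u', Jp u → Jp u' → u ≠ u' → 8 / 5 < P.d (y u) (y u')

/-- insert one token at `r` -/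
noncomputable def insR (σ : L2 ι X) (r : X) (θ : ℝ) (v : ι) : L2 ι X :=
  P.ins σ (fun u => u = v) (fun _ => r) θ v

/-- the shadow of `u` jumps when `a` is claimed at `r` -/
def Jmp (σ : L2 ι X) (a : ι) (r : X) (u : ι) : Prop :=
  1 / 50 < P.d ((σ.t1.claim P.d a r).c u) (σ.sh.c u) + |(σ.t1.claim P.d a r).h u - σ.sh.h u|

/-- the jumping shadows that leave a token behind -/
def Cmp (σ : L2 ι X) (a : ι) (r : X) (u : ι) : Prop := P.Jmp σ a r u ∧ σ.sh.h u < 2 / 5

open Classical in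
/-- claim the centre `a` at `r`; `v` is the fresh index -/
noncomputable def claim2 (σ : L2 ι X) (a : ι) (r : X) (v : ι) : L2 ι X where
  t1 := σ.t1.claim P.d a r
  sh := { c := fun u => if P.Jmp σ a r u then (σ.t1.claim P.d a r).c u else σ.sh.c u
          h := fun u => if P.Jmp σ a r u then (σ.t1.claim P.d a r).h u else σ.sh.h u
          base := σ.sh.base
          bc := σ.sh.bc }
  tc := (P.ins σ (P.Cmp σ a r) σ.sh.c (1 / 2) v).tc
  tw := (P.ins σ (P.Cmp σ a r) σ.sh.c (1 / 2) v).tw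

/-- a token of reasonable weight is close to `r` -/
def Tok (σ : L2 ι X) (r : X) : Prop := ∃ b, w0 k / 2 ≤ σ.tw b ∧ P.d r (σ.tc b) ≤ 1 / 4

variable {Ω : Type} [Fintype Ω]

/-- target weight at the scale `i` -/
noncomputable def tg (w : Ω → ℝ) (x : Ω → Fin k → X) (r : X) (i : ℕ) : ℝ :=
  uu i ^ 4 * ballMass P.d w x r (uu i / 2) / ballMass P.d w x r 11

/-- the weights near `r` reach the fraction `c` of the targets -/
def Rule (c : ℝ) (σ : L2 ι X) (w : Ω → ℝ) (x : Ω → Fin k → X) (r : X) : Prop :=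
  ∀ i ≤ k, uu i ≤ σ.sh.m P.d r - 3 / 10 → c * P.tg w x r i ≤ P.Om σ r (2 / 5 + uu i) + w0 k

end Par

/-- initial state -/
noncomputable def L2.init (i₀ : ι) (a : X) : L2 ι X where
  t1 := Lv.St.init i₀ a
  sh := Lv.St.init i₀ a
  tc := fun _ => a
  tw := fun _ => 0

end Vale.Agent.P304.Sq
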