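import Vale.Agent.P304.Sq.LTok

/-! P304 tight bound, LEVEL: the step without a claim (at most one token is inserted at the request).

PLAN.  s' = insR s r th v has the same centres and shadows as s, so loss and T agree, c1 s s' y y = 0 (c1_far) and by chg_le, m_sh, psi_one
(2 < m y gives psi = 1): Ec <= psi(sh.m y) * (c2 + Pt' - Pt)  (Ec_insR).  With ins_main, ins_wf, ins_far: Ec <= 10 th + eps, Ec <= 0 if d y r > 11/5.
Ec_main_near: u = uu i, d y r <= u/2: for rho j <= 2/5 + u/2 the token covers y (u/2 <= 2/5) and Om y (rho j) <= Om r (2/5 + u) (Om_mono), nuw_low with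
t = u/2 gives 25 u^2/4; psi >= 25 u^2 (psi_ge, m_lip); psi (10 th + eps - 25 u^2) <= 10 th + eps - 625 u^4.
Ec_wf_near: psi = 1, wf' = 0 (ins_wf_zero), wf >= 1/2 (wf_ge).
noclaim: Vio i := i <= k, uu i <= sh.m r - 3/10, Om r (2/5 + uu i) + w0 < tg i.
 (1) some Vio: take i maximizing tg among them (finite: exists_max_image on a filter of range (k+1)), th = 8 tg i in [8 w0, 8/10^4] (M(u/2) <= M 11).
   avg_split with a = u/2, alpha = 625 u^4 - 10 th - eps, beta = 0, gamma = 10 th + eps: total <= -625 u^4 M(u/2) + (10 th + eps) M 11 and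
   th M 11 = 8 u^4 M(u/2) (M 11 > 0 because tg > 0), M 11 <= k.  Rule (1/2): violated i': Om' >= th >= tg i'; others: Om' + w0 >= (1-th)(Om + w0) (ins_Om).
 (2) no Vio, 1 <= sh.m r, not Tok: th = w0; total <= -M(1/20)/2 + (10 w0 + eps) k = -M(1/20)/2 + 1/4 + eps k; if M(1/20) < 1/2 then db >= 1/40
   (half_le_of_ballMass_lt).
 (3) otherwise s' = s (Ec_self; Adm mu gives Adm (mu/2)). -/

set_option linter.unusedSectionVars false

namespace Vale.Agent.P304.Sq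

open Finset Lv

variable {ι X Ω : Type} [Fintype ι] [LinearOrder ι] [Nonempty ι] [Fintype Ω] {k : ℕ} {P : Par ι X k}
  {σ σ' : L2 ι X} {μ : ℝ} {w : Ω → ℝ} {x : Ω → Fin k → X} {r : X} {v : ι}

namespace Par

variable {θ : ℝ} {y : X}

theorem insR_ok (hP : P.OK) (h : P.Inv μ σ) (lo : P.μ ≤ μ / 2) (hi : μ ≤ w0 k)
    (hv : ∀ u, σ.tw (v, u) = 0) (h0 : w0 k ≤ θ) (h1 : θ ≤ 1 / 2) (r : X) :
    P.InsOK μ σ (fun u => u = v) (fun _ => r) θ v := by
  exact ⟨hP, h.toTInv, lo, hi, h0, h1, hv, fun u u' a b c => absurd (a.trans b.symm) c⟩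

theorem Ec_insR (hI : P.Inv μ σ) (h : P.InsOK μ σ (fun u => u = v) (fun _ => r) θ v) (y : X) :
    P.Ec σ (P.insR σ r θ v) y ≤ psi (σ.sh.m P.d y) *
      (P.c2 σ (P.insR σ r θ v) y y + P.Pt (P.insR σ r θ v) y - P.Pt σ y) := by
  have hP := h.ok
  have h1 := chg_le hP σ (P.insR σ r θ v) y y
  have h2 : P.c1 σ (P.insR σ r θ v) y y = 0 := c1_far hP hI.t1 hI.t1 fun u => Or.inl rfl
  have h3 := (c2_bd hP σ (P.insR σ r θ v) y y).1
  have h4 : ind (2 < σ.t1.m P.d y ∧ 2 < (P.insR σ r θ v).t1.m P.d y) ≤ psi (σ.sh.m P.d y) := by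
    by_cases c : 2 < σ.t1.m P.d y ∧ 2 < (P.insR σ r θ v).t1.m P.d y
    · rw [ind_pos c, psi_one (by linarith [(m_sh hP hI y).2, c.1])]
    · rw [ind_neg c]; exact psi_nonneg _
  have h5 := mul_le_mul_of_nonneg_right h4 h3
  have e : P.pot (P.insR σ r θ v) y = 1000 * P.loss σ y +
      psi (σ.sh.m P.d y) * P.Pt (P.insR σ r θ v) y + 600 * P.T σ y := rfl
  unfold Ec
  rw [e]
  unfold pot
  linarith

theorem lins_main (h : P.InsOK μ σ (fun u => u = v) (fun _ => r) θ v) (y : X) {S : ℝ}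
    (hS : S ≤ ∑ j ∈ range P.G, nuw P.G j * ind ((∃ u, u = v ∧ P.d y r ≤ rho P.G j) ∧
        8 * (P.Om σ y (rho P.G j) + w0 k) ≤ θ)) :
    P.c2 σ (P.insR σ r θ v) y y + P.Pt (P.insR σ r θ v) y - P.Pt σ y ≤
      9 * θ + P.ε - 4 * S + (P.wf (P.insR σ r θ v) y - P.wf σ y) := by
  have h1 := ins_main h y
  unfold Pt insR
  linarith

theorem lins_zero (θ : ℝ) (y : X) :
    0 ≤ ∑ j ∈ range P.G, nuw P.G j * ind ((∃ u, u = v ∧ P.d y r ≤ rho P.G j) ∧
        8 * (P.Om σ y (rho P.G j) + w0 k) ≤ θ) :=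
  sum_nonneg fun _ _ => mul_nonneg (nuw_nonneg _ _) (ind_nonneg _)

theorem lins_pos (h : P.InsOK μ σ (fun u => u = v) (fun _ => r) θ v) : 0 ≤ 10 * θ + P.ε := by
  linarith [h.lb, w0_pos h.ok.hk, h.ok.hε]

theorem Ec_ins_le (hI : P.Inv μ σ) (h : P.InsOK μ σ (fun u => u = v) (fun _ => r) θ v) (y : X) :
    P.Ec σ (P.insR σ r θ v) y ≤ 10 * θ + P.ε := by
  have h1 := lins_main h y (lins_zero θ y)
  have h2 : P.wf (P.insR σ r θ v) y ≤ P.wf σ y + θ := ins_wf h y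
  have h3 := psi_nonneg (σ.sh.m P.d y)
  have h4 := psi_le_one (σ.sh.m P.d y)
  have h5 := lins_pos h
  refine (Ec_insR hI h y).trans ((mul_le_mul_of_nonneg_left
    (show _ ≤ 10 * θ + P.ε by linarith) h3).trans ?_)
  nlinarith

theorem Ec_ins_far (hI : P.Inv μ σ) (h : P.InsOK μ σ (fun u => u = v) (fun _ => r) θ v)
    (hy : 11 < P.d y r) : P.Ec σ (P.insR σ r θ v) y ≤ 0 := by
  obtain ⟨h1, h2⟩ := ins_far h (x := y) fun _ _ => by linarith
  refine (Ec_insR hI h y).trans (mul_nonpos_of_nonneg_of_nonpos (psi_nonneg _) ?_)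
  unfold insR
  linarith

theorem Ec_main_near (hI : P.Inv μ σ) (h : P.InsOK μ σ (fun u => u = v) (fun _ => r) θ v) {i : ℕ}
    (h1 : uu i ≤ σ.sh.m P.d r - 3 / 10) (h2 : 8 * (P.Om σ r (2 / 5 + uu i) + w0 k) ≤ θ)
    (hy : P.d y r ≤ uu i / 2) : P.Ec σ (P.insR σ r θ v) y ≤ 10 * θ + P.ε - 625 * uu i ^ 4 := by
  have hP := h.ok
  have hu0 := uu_pos i
  have hu1 := uu_le i
  have hG : 0 < P.G := by have := hP.hG; omega
  have h3 := nuw_low hG (t := uu i / 2) (by linarith) (by linarith)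
  have h4 := lins_main h y (S := 25 * (uu i / 2) ^ 2) (h3.trans (sum_le_sum fun j _ =>
    mul_le_mul_of_nonneg_left (ind_mono fun hj => ⟨⟨v, rfl, by linarith [rho_ge P.G j]⟩, by
      have := Om_mono hP h.inv (y := y) (y' := r) (s := rho P.G j) (s' := 2 / 5 + uu i)
        (by linarith)
      linarith⟩) (nuw_nonneg _ _)))
  have h5 : P.wf (P.insR σ r θ v) y ≤ P.wf σ y + θ := ins_wf h y
  have h6 := psi_nonneg (σ.sh.m P.d y)
  have h7 := psi_le_one (σ.sh.m P.d y)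
  have h8 := lins_pos h
  have h9 : 100 * (uu i / 2) ^ 2 ≤ psi (σ.sh.m P.d y) := psi_ge (by linarith) (by linarith) (by
    have := m_lip hP.hd σ.sh r y
    rw [hP.hd.symm r y] at this
    linarith)
  refine (Ec_insR hI h y).trans ((mul_le_mul_of_nonneg_left
    (show _ ≤ 10 * θ + P.ε - 25 * uu i ^ 2 by linarith) h6).trans ?_)
  have h10 := mul_le_mul_of_nonneg_right h9 (show 0 ≤ 25 * uu i ^ 2 by positivity)
  have h11 := mul_le_mul_of_nonneg_right h7 h8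
  linarith

theorem Ec_wf_near (hI : P.Inv μ σ) (h : P.InsOK μ σ (fun u => u = v) (fun _ => r) θ v)
    (h1 : 1 ≤ σ.sh.m P.d r) (h2 : ¬P.Tok σ r) (hy : P.d y r ≤ 1 / 20) :
    P.Ec σ (P.insR σ r θ v) y ≤ 10 * θ + P.ε - 1 / 2 := by
  have hP := h.ok
  have h3 := lins_main h y (lins_zero θ y)
  have h4 : P.wf (P.insR σ r θ v) y = 0 := ins_wf_zero h (u := v) rfl (by linarith)
  have h5 := wf_ge hP h2 hy
  have h6 : psi (σ.sh.m P.d y) = 1 := psi_one (by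
    have := m_lip hP.hd σ.sh r y
    rw [hP.hd.symm r y] at this
    linarith)
  have h7 := Ec_insR hI h y
  have h8 := h.lb
  have h9 := w0_pos hP.hk
  rw [h6] at h7
  linarith

theorem lins_inv (hI : P.Inv μ σ) (h : P.InsOK μ σ (fun u => u = v) (fun _ => r) θ v) :
    P.Inv (μ / 2) (P.insR σ r θ v) :=
  ⟨ins_tinv h, hI.t1, hI.dr, hI.sh0⟩

theorem lins_fresh (u : ι) (hu : u ≠ v) (hf : Fresh σ u) : Fresh (P.insR σ r θ v) u :=
  ⟨hf.1, fun u' => ins_fresh hu hf.2 u'⟩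

theorem lins_tok (h : P.InsOK μ σ (fun u => u = v) (fun _ => r) θ v) :
    P.Tok (P.insR σ r θ v) r := by
  refine ⟨(v, v), ?_, ?_⟩
  · have e : (P.insR σ r θ v).tw (v, v) = θ := by simp [insR, ins]
    rw [e]; linarith [h.lb, w0_pos h.ok.hk]
  · have e : (P.insR σ r θ v).tc (v, v) = r := by simp [insR, ins]
    rw [e, h.ok.hd.refl]; norm_num

theorem lins_rule (h : P.InsOK μ σ (fun u => u = v) (fun _ => r) θ v)
    (hv : ∀ i ≤ k, uu i ≤ σ.sh.m P.d r - 3 / 10 →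
      P.Om σ r (2 / 5 + uu i) + w0 k < P.tg w x r i → P.tg w x r i ≤ θ) :
    P.Rule (1 / 2) (P.insR σ r θ v) w x r := by
  intro i hi hu
  have hP := h.ok
  have h1 : (1 - θ) * P.Om σ r (2 / 5 + uu i) + θ * ind (∃ u, u = v ∧ P.d r r ≤ 2 / 5 + uu i) ≤
      P.Om (P.insR σ r θ v) r (2 / 5 + uu i) := ins_Om h r _
  rw [ind_pos ⟨v, rfl, by rw [hP.hd.refl]; linarith [uu_pos i]⟩] at h1
  have h2 := Om_nonneg hP h.inv r (2 / 5 + uu i)
  have h3 := w0_pos hP.hk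
  have h4 := h.lb
  have h5 := mul_le_mul_of_nonneg_right (show 1 / 2 ≤ 1 - θ by linarith [h.ub]) h2
  by_cases c : P.Om σ r (2 / 5 + uu i) + w0 k < P.tg w x r i
  · have := hv i hi hu c
    linarith
  · linarith

theorem lins_tg (hw : ∀ ω, 0 ≤ w ω) (i : ℕ) : P.tg w x r i ≤ 1 / 16 := by
  have h0 := uu_pos i
  have h1 := uu_le i
  have h2 : ballMass P.d w x r (uu i / 2) / ballMass P.d w x r 11 ≤ 1 :=
    div_le_one_of_le₀ (ballMass_mono hw (by linarith)) (ballMass_nonneg hw _)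
  have h3 : uu i ^ 4 ≤ (1 / 10) ^ 4 := pow_le_pow_left₀ h0.le h1 4
  have h4 := mul_le_mul_of_nonneg_left h2 (show 0 ≤ uu i ^ 4 by positivity)
  unfold tg
  rw [mul_div_assoc]
  linarith

theorem lins_avg1 (hI : P.Inv μ σ) {i : ℕ}
    (h : P.InsOK μ σ (fun u => u = v) (fun _ => r) (8 * P.tg w x r i) v)
    (hw : ∀ ω, 0 ≤ w ω) (hw1 : ∑ ω, w ω = 1) (h1 : uu i ≤ σ.sh.m P.d r - 3 / 10)
    (h2 : P.Om σ r (2 / 5 + uu i) + w0 k < P.tg w x r i) :
    ∑ ω, w ω * ∑ l, P.Ec σ (P.insR σ r (8 * P.tg w x r i) v) (x ω l) ≤ k * P.ε := by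
  have h0 := uu_pos i
  have h3 := avg_split (d := P.d) (x := x) (r := r) hw (a := uu i / 2)
    (α := 625 * uu i ^ 4 - 10 * (8 * P.tg w x r i) - P.ε) (β := 0)
    (γ := 10 * (8 * P.tg w x r i) + P.ε) (by linarith [uu_le i])
    (P.Ec σ (P.insR σ r (8 * P.tg w x r i) v))
    (fun y hy => by linarith [Ec_main_near hI h h1 (by linarith) hy])
    (fun y _ _ => by linarith [Ec_ins_le hI h y]) (fun y hy => Ec_ins_far hI h hy)
  have h4 : P.tg w x r i * ballMass P.d w x r 11 = uu i ^ 4 * ballMass P.d w x r (uu i / 2) := by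
    have hM : ballMass P.d w x r 11 ≠ 0 := fun e => by
      have h5 := Om_nonneg h.ok h.inv r (2 / 5 + uu i)
      have h6 := w0_pos h.ok.hk
      unfold tg at h2
      rw [e, div_zero] at h2
      linarith
    unfold tg
    rw [div_mul_cancel₀ _ hM]
  have h5 := mul_le_mul_of_nonneg_left (ballMass_le (d := P.d) (x := x) (r := r) hw hw1 11) h.ok.hε
  have h6 : 0 ≤ uu i ^ 4 * ballMass P.d w x r (uu i / 2) :=
    mul_nonneg (by positivity) (ballMass_nonneg hw _)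
  linarith

theorem lins_avg2 (hI : P.Inv μ σ) (h : P.InsOK μ σ (fun u => u = v) (fun _ => r) (w0 k) v)
    (hw : ∀ ω, 0 ≤ w ω) (hw1 : ∑ ω, w ω = 1) (mv : Ω → Fin k) (h1 : 1 ≤ σ.sh.m P.d r)
    (h2 : ¬P.Tok σ r) :
    ∑ ω, w ω * ∑ l, P.Ec σ (P.insR σ r (w0 k) v) (x ω l) ≤
      400 * (min (∑ ω, w ω * P.d (x ω (mv ω)) r) 1) ^ 2 + k * P.ε := by
  have h3 := avg_split (d := P.d) (x := x) (r := r) hw (a := 1 / 20)
    (α := 1 / 2 - 10 * w0 k - P.ε) (β := 0) (γ := 10 * w0 k + P.ε) (by norm_num)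
    (P.Ec σ (P.insR σ r (w0 k) v))
    (fun y hy => by linarith [Ec_wf_near hI h h1 h2 hy])
    (fun y _ _ => by linarith [Ec_ins_le hI h y]) (fun y hy => Ec_ins_far hI h hy)
  have h5 := mul_le_mul_of_nonneg_left (ballMass_le (d := P.d) (x := x) (r := r) hw hw1 11)
    (lins_pos h)
  have h6 : w0 k * k = 1 / 40 := by
    have : (k : ℝ) ≠ 0 := by have := h.ok.hk; positivity
    unfold w0; field_simp
  have h7 := ballMass_nonneg (d := P.d) (x := x) (r := r) hw (1 / 20)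
  by_cases c : ballMass P.d w x r (1 / 20) < 1 / 2
  · have h8 := half_le_of_ballMass_lt h.ok.hd hw hw1 mv (by norm_num) c
    have h9 : (1 / 40 : ℝ) ≤ min (∑ ω, w ω * P.d (x ω (mv ω)) r) 1 :=
      le_min (by linarith) (by norm_num)
    have h10 := pow_le_pow_left₀ (by norm_num) h9 2
    linarith
  · have h10 := sq_nonneg (min (∑ ω, w ω * P.d (x ω (mv ω)) r) 1)
    linarith

theorem noclaim (hP : P.OK) (h : P.Inv μ σ) (lo : P.μ ≤ μ / 2) (hi : μ ≤ w0 k)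
    (hv : ∀ u, σ.tw (v, u) = 0) (hw : ∀ ω, 0 ≤ w ω) (hw1 : ∑ ω, w ω = 1) (x : Ω → Fin k → X) (r : X)
    (mv : Ω → Fin k) :
    ∃ σ' : L2 ι X, P.Inv (μ / 2) σ' ∧ σ'.t1 = σ.t1 ∧ (∀ u, u ≠ v → Fresh σ u → Fresh σ' u) ∧
      P.Rule (1 / 2) σ' w x r ∧ (1 ≤ σ'.sh.m P.d r → P.Tok σ' r) ∧
      ∑ ω, w ω * ∑ l, P.Ec σ σ' (x ω l) ≤
        400 * (min (∑ ω, w ω * P.d (x ω (mv ω)) r) 1) ^ 2 + k * P.ε := by
  classical
  have hw0 := w0_pos hP.hk
  by_cases c1 : ((range (k + 1)).filter fun i => uu i ≤ σ.sh.m P.d r - 3 / 10 ∧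
      P.Om σ r (2 / 5 + uu i) + w0 k < P.tg w x r i).Nonempty
  · obtain ⟨i, hi1, hi2⟩ := exists_max_image _ (P.tg w x r) c1
    obtain ⟨-, a1, a2⟩ := mem_filter.1 hi1
    have a3 := Om_nonneg hP h.toTInv r (2 / 5 + uu i)
    have a4 := lins_tg (P := P) (x := x) (r := r) hw i
    have hok := insR_ok hP h lo hi hv (θ := 8 * P.tg w x r i) (by linarith) (by linarith) r
    refine ⟨_, lins_inv h hok, rfl, lins_fresh, lins_rule hok fun j hj b1 b2 => ?_,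
      fun _ => lins_tok hok, ?_⟩
    · have := hi2 j (mem_filter.2 ⟨mem_range.2 (by omega), b1, b2⟩)
      linarith
    · have := lins_avg1 h hok hw hw1 a1 a2
      have := sq_nonneg (min (∑ ω, w ω * P.d (x ω (mv ω)) r) 1)
      linarith
  · have hno : ∀ i ≤ k, uu i ≤ σ.sh.m P.d r - 3 / 10 →
        ¬P.Om σ r (2 / 5 + uu i) + w0 k < P.tg w x r i := fun j hj b1 b2 =>
      c1 ⟨j, mem_filter.2 ⟨mem_range.2 (by omega), b1, b2⟩⟩
    by_cases c2 : 1 ≤ σ.sh.m P.d r ∧ ¬P.Tok σ r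
    · have hok := insR_ok hP h lo hi hv (θ := w0 k) le_rfl (by linarith [w0_le hP.hk]) r
      exact ⟨_, lins_inv h hok, rfl, lins_fresh,
        lins_rule hok fun j hj b1 b2 => absurd b2 (hno j hj b1), fun _ => lins_tok hok,
        lins_avg2 h hok hw hw1 mv c2.1 c2.2⟩
    · refine ⟨σ, ⟨⟨fun b => ?_, h.ball, lo⟩, h.t1, h.dr, h.sh0⟩, rfl, fun _ _ hf => hf,
        fun j hj b1 => ?_, fun b1 => by_contra fun b2 => c2 ⟨b1, b2⟩, ?_⟩
      · rcases h.adm b with a | a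
        · exact Or.inl a
        · exact Or.inr ⟨by linarith [a.1, hP.hμ], a.2⟩
      · have a1 := not_lt.1 (hno j hj b1)
        have a3 := Om_nonneg hP h.toTInv r (2 / 5 + uu j)
        linarith
      · simp only [Ec_self, sum_const_zero, mul_zero]
        have := hP.hε
        positivity

end Par

end Vale.Agent.P304.Sq
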