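import Vale.Agent.P304.Sq.LShift
import Vale.Agent.P304.Sq.LAvgF

/-! P304 tight bound, LEVEL: the moving server when nothing is claimed.

PLAN.  D = t1.m r, e = d y r, a = dep (sh.m r).
Mc_long: chg <= 1, loss <= 1, psi Pt <= 8 Lk + 1, T <= 1/50, pot y >= 0, Lk >= 2.
Mc_short (e <= 1/10): loss r - loss y <= 2 min(D,1) e (m_lip).  600 (T r - T y) <= 240 e, and <= 0 if D <= 9/50 (T_zero), so <= 1334 min(D,1) e.
chg: D <= 19/10: chg_zero with u = arg r (z_lip).  Otherwise chg_le, c1_le (e + 1/G, and min(D,1) = 1); the tier 2 part needs 2 < D, then sh.m r >= 1,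
a = 1/10, c2_move: 90 e A = 900 e a A, 18 A/G <= 36 Lk/G.  psi_move; a > 0 forces D > 7/25, so 300 a <= 30 <= 108 min(D,1).
unclaimed: as in step_ineq / move_B of LStep.lean (shellI_ge, shellI_le_budget, half_le_of_ballMass_lt): D <= 1/2: D <= 39 budget or D/6 <= db;
D > 1/2: 1 <= 125 budget or db >= 1/20.
Mc_avg: Mc_le2, sum w min(e,1) <= min(db,1) <= db, dep_A, 6 ind(3/10 < sh.m r) <= 22 min(D,1), unclaimed, 2 <= Lk <= k + 1. -/

set_option linter.unusedSectionVars false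

namespace Vale.Agent.P304.Sq

open Finset Lv

variable {ι X Ω : Type} [Fintype ι] [LinearOrder ι] [Nonempty ι] [Fintype Ω] {k : ℕ} {P : Par ι X k}
  {σ σ' : L2 ι X} {μ : ℝ} {w : Ω → ℝ} {x : Ω → Fin k → X} {r : X} {v : ι}

namespace Par

theorem lmove_loss_le (hP : P.OK) (h : P.Inv μ σ) (y r : X) :
    P.loss σ r - P.loss σ y ≤ 2 * min (σ.t1.m P.d r) 1 * P.d y r := by
  have h1 := m_lip hP.hd σ.t1 r y
  rw [hP.hd.symm r y] at h1
  have h2 := m_nonneg hP.hd h.t1 y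
  have h3 := m_nonneg hP.hd h.t1 r
  have he := isD_nonneg hP.hd y r
  have hp : 0 ≤ min (σ.t1.m P.d r) 1 := le_min h3 (by norm_num)
  have hq : 0 ≤ min (σ.t1.m P.d y) 1 := le_min h2 (by norm_num)
  have hpq : min (σ.t1.m P.d r) 1 ≤ min (σ.t1.m P.d y) 1 + P.d y r := by
    rcases le_total (σ.t1.m P.d y) 1 with h4 | h4
    · rw [min_eq_left h4]; exact (min_le_left _ _).trans h1
    · rw [min_eq_right h4]; linarith [min_le_right (σ.t1.m P.d r) 1]
  unfold loss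
  rcases le_total (min (σ.t1.m P.d r) 1) (min (σ.t1.m P.d y) 1) with h4 | h4
  · nlinarith [mul_nonneg hp he]
  · nlinarith [mul_nonneg hp he, mul_nonneg hq he]

theorem lmove_T_le (hP : P.OK) (h : P.Inv μ σ) (y r : X) :
    600 * (P.T σ r - P.T σ y) ≤ 1334 * min (σ.t1.m P.d r) 1 * P.d y r := by
  have h3 := m_nonneg hP.hd h.t1 r
  have he := isD_nonneg hP.hd y r
  have hp : 0 ≤ min (σ.t1.m P.d r) 1 := le_min h3 (by norm_num)
  rcases le_total (σ.t1.m P.d r) (9 / 50) with h1 | h1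
  · rw [T_zero hP h h1]
    have := (T_bd hP h y).1
    nlinarith [mul_nonneg hp he]
  · have h2 : 9 / 50 ≤ min (σ.t1.m P.d r) 1 := le_min h1 (by norm_num)
    have := T_lip hP h y r
    nlinarith [mul_le_mul_of_nonneg_right h2 he]

theorem lmove_dep_le (hP : P.OK) (h : P.Inv μ σ) (r : X) :
    300 * dep (σ.sh.m P.d r) ≤ 108 * min (σ.t1.m P.d r) 1 := by
  have h3 := m_nonneg hP.hd h.t1 r
  have hp : 0 ≤ min (σ.t1.m P.d r) 1 := le_min h3 (by norm_num)
  rcases le_total (σ.sh.m P.d r) (3 / 10) with h1 | h1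
  · have : dep (σ.sh.m P.d r) = 0 := by
      unfold dep
      exact max_eq_left (min_le_of_left_le (by linarith))
    rw [this]
    linarith
  · have h2 : 7 / 25 ≤ min (σ.t1.m P.d r) 1 :=
      le_min (by linarith [(m_sh hP h r).1]) (by norm_num)
    linarith [(dep_bd (σ.sh.m P.d r)).2]

theorem lmove_chg_le (hP : P.OK) (h : P.Inv μ σ) (hT : 1 ≤ σ.sh.m P.d r → P.Tok σ r) {y : X}
    (hy : P.d y r ≤ 1 / 10) :
    P.chg σ σ y r ≤ min (σ.t1.m P.d r) 1 * P.d y r + 50 * P.d y r ^ 2 +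
      900 * (P.d y r * (dep (σ.sh.m P.d r) * P.A σ r)) + (3 + 36 * Lk k) * (1 / P.G) + P.ε := by
  have h3 := m_nonneg hP.hd h.t1 r
  have he := isD_nonneg hP.hd y r
  have hp : 0 ≤ min (σ.t1.m P.d r) 1 := le_min h3 (by norm_num)
  have hL := two_le_Lk (k := k) (by have := hP.hk; omega)
  have hA := A_bd hP h.toTInv r
  have hd := dep_bd (σ.sh.m P.d r)
  have hε := hP.hε
  have hg : (0 : ℝ) ≤ 1 / P.G := by positivity
  have e1 : 0 ≤ P.d y r * (dep (σ.sh.m P.d r) * P.A σ r) :=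
    mul_nonneg he (mul_nonneg hd.1 hA.1)
  have e2 : 0 ≤ Lk k * (1 / P.G) := mul_nonneg (by linarith) hg
  have e3 : 0 ≤ P.d y r ^ 2 := by positivity
  rcases le_total (σ.t1.m P.d r) (19 / 10) with h1 | h1
  · have h2 := z_arg (d := P.d) σ.t1 r
    have h4 := z_lip hP.hd σ.t1 y r (σ.t1.arg P.d r)
    rw [chg_zero hP h.t1 h.t1 (u := σ.t1.arg P.d r) (by linarith) (by linarith)]
    nlinarith [mul_nonneg hp he]
  · rw [min_eq_right (by linarith), one_mul]
    have h2 := chg_le hP σ σ y r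
    have h4 : P.c1 σ σ y r ≤ P.d y r + 1 / P.G := c1_le hP h.t1 h.t1 he (by linarith)
      (fun u => by have := z_lip hP.hd σ.t1 r y u; rwa [hP.hd.symm r y] at this)
      (fun u => z_lip hP.hd σ.t1 y r u)
    by_cases h5 : 2 < σ.t1.m P.d y ∧ 2 < σ.t1.m P.d r
    · rw [ind_pos h5, one_mul] at h2
      have h6 : 1 ≤ σ.sh.m P.d r := by linarith [(m_sh hP h r).2, h5.2]
      have h7 := c2_move hP h.toTInv (hT h6) hy
      have h8 : dep (σ.sh.m P.d r) = 1 / 10 := by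
        unfold dep
        rw [min_eq_right (by linarith), max_eq_right (by norm_num)]
      have h9 : P.A σ r * (1 / P.G) ≤ 2 * Lk k * (1 / P.G) := mul_le_mul_of_nonneg_right hA.2 hg
      have h10 : (2 : ℝ) / P.G = 2 * (1 / P.G) := by ring
      rw [h8]
      nlinarith
    · rw [ind_neg h5, zero_mul] at h2
      nlinarith

theorem lmove_avg_le (hw : ∀ ω, 0 ≤ w ω) (hw1 : ∑ ω, w ω = 1) {f g₁ g₂ : Ω → ℝ} {a b c : ℝ}
    (h : ∀ ω, f ω ≤ a * g₁ ω + b * g₂ ω + c) :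
    ∑ ω, w ω * f ω ≤ a * ∑ ω, w ω * g₁ ω + b * ∑ ω, w ω * g₂ ω + c := by
  calc ∑ ω, w ω * f ω ≤ ∑ ω, w ω * (a * g₁ ω + b * g₂ ω + c) :=
        sum_le_sum fun ω _ => mul_le_mul_of_nonneg_left (h ω) (hw ω)
    _ = a * ∑ ω, w ω * g₁ ω + b * ∑ ω, w ω * g₂ ω + c * ∑ ω, w ω := by
        rw [mul_sum, mul_sum, mul_sum, ← sum_add_distrib, ← sum_add_distrib]
        exact sum_congr rfl fun _ _ => by ring
    _ = _ := by rw [hw1, mul_one]

theorem Mc_long (hP : P.OK) (h : P.Inv μ σ) (y r : X) : P.Mc σ y r ≤ 515 * Lk k := by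
  have hL := two_le_Lk (k := k) (by have := hP.hk; omega)
  have h1 := chg_le_one hP σ σ y r
  have h2 := pot_nonneg hP h y
  have h3 := m_nonneg hP.hd h.t1 r
  have hp : 0 ≤ min (σ.t1.m P.d r) 1 := le_min h3 (by norm_num)
  have h4 : P.loss σ r ≤ 1 := pow_le_one₀ hp (min_le_right _ _)
  have h5 := Pt_bd hP h.toTInv r
  have h6 : psi (σ.sh.m P.d r) * P.Pt σ r ≤ 1 * P.Pt σ r :=
    mul_le_mul_of_nonneg_right (psi_le_one _) h5.1
  have h7 := (T_bd hP h r).2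
  have h8 : P.pot σ r = 1000 * P.loss σ r + psi (σ.sh.m P.d r) * P.Pt σ r + 600 * P.T σ r := rfl
  unfold Mc
  linarith [h5.2]

theorem Mc_short (hP : P.OK) (h : P.Inv μ σ) (hT : 1 ≤ σ.sh.m P.d r → P.Tok σ r) {y : X}
    (hy : P.d y r ≤ 1 / 10) :
    P.Mc σ y r ≤ 900 * Lk k * P.d y r ^ 2 +
      3500 * P.d y r * (min (σ.t1.m P.d r) 1 + dep (σ.sh.m P.d r) * P.A σ r) + 70 * Lk k / P.G + P.ε := by
  have hL := two_le_Lk (k := k) (by have := hP.hk; omega)
  have he := isD_nonneg hP.hd y r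
  have h1 := lmove_loss_le hP h y r
  have h2 := lmove_T_le hP h y r
  have h3 := mul_le_mul_of_nonneg_left (lmove_dep_le hP h r) he
  have h4 := lmove_chg_le hP h hT hy
  have h5 := psi_move hP h.toTInv hy
  have hA := A_bd hP h.toTInv r
  have hd := dep_bd (σ.sh.m P.d r)
  have hp : 0 ≤ min (σ.t1.m P.d r) 1 := le_min (m_nonneg hP.hd h.t1 r) (by norm_num)
  have hg : (0 : ℝ) ≤ 1 / P.G := by positivity
  have e1 : 0 ≤ P.d y r * (dep (σ.sh.m P.d r) * P.A σ r) :=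
    mul_nonneg he (mul_nonneg hd.1 hA.1)
  have e2 : 2 * (1 / P.G) ≤ Lk k * (1 / P.G) := mul_le_mul_of_nonneg_right hL hg
  have e3 : 2 * P.d y r ^ 2 ≤ Lk k * P.d y r ^ 2 := mul_le_mul_of_nonneg_right hL (by positivity)
  have e4 : 0 ≤ P.d y r * min (σ.t1.m P.d r) 1 := mul_nonneg he hp
  have e5 : 0 ≤ P.d y r ^ 2 := by positivity
  have e6 : 32 * Lk k / P.G = 32 * (Lk k * (1 / P.G)) := by ring
  have e7 : 70 * Lk k / P.G = 70 * (Lk k * (1 / P.G)) := by ring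
  rw [e6] at h5
  rw [e7]
  unfold Mc pot
  nlinarith

theorem Mc_le2 (hP : P.OK) (h : P.Inv μ σ) (hT : 1 ≤ σ.sh.m P.d r → P.Tok σ r) (y : X) :
    P.Mc σ y r ≤ 52000 * Lk k * (min (P.d y r) 1) ^ 2 +
      3500 * min (P.d y r) 1 * (min (σ.t1.m P.d r) 1 + dep (σ.sh.m P.d r) * P.A σ r) +
        70 * Lk k / P.G + P.ε := by
  have hL := two_le_Lk (k := k) (by have := hP.hk; omega)
  have he := isD_nonneg hP.hd y r
  rcases le_total (P.d y r) (1 / 10) with h1 | h1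
  · rw [min_eq_left (by linarith : P.d y r ≤ 1)]
    have h2 := Mc_short hP h hT h1
    have e3 : 0 ≤ Lk k * P.d y r ^ 2 := by positivity
    nlinarith
  · have h2 := Mc_long hP h y r
    have h3 : 1 / 10 ≤ min (P.d y r) 1 := le_min h1 (by norm_num)
    have h4 := mul_le_mul_of_nonneg_left (pow_le_pow_left₀ (by norm_num) h3 2)
      (show 0 ≤ 52000 * Lk k by linarith)
    have hA := A_bd hP h.toTInv r
    have hd := dep_bd (σ.sh.m P.d r)
    have hp : 0 ≤ min (σ.t1.m P.d r) 1 := le_min (m_nonneg hP.hd h.t1 r) (by norm_num)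
    have h5 : 0 ≤ 3500 * min (P.d y r) 1 *
        (min (σ.t1.m P.d r) 1 + dep (σ.sh.m P.d r) * P.A σ r) :=
      mul_nonneg (by linarith) (add_nonneg hp (mul_nonneg hd.1 hA.1))
    have h6 : 0 ≤ 70 * Lk k / P.G := by positivity
    have hε := hP.hε
    linarith

theorem unclaimed {d : X → X → ℝ} (hd : IsD d) (hw : ∀ ω, 0 ≤ w ω) (hw1 : ∑ ω, w ω = 1)
    (mv : Ω → Fin k) {D : ℝ} (h0 : 0 ≤ D)
    (hA : D ≤ 1 / 2 → ¬12 * shellI d w x r (D / 3) ≤ D / 3 * ballMass d w x r (D / 3))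
    (hB : 1 / 2 < D → ¬23 * (ballMass d w x r 11 - ballMass d w x r (1 / 10)) ≤
      2 * ballMass d w x r (1 / 10)) :
    min D 1 ≤ 125 * budget d w x r + 20 * min (∑ ω, w ω * d (x ω (mv ω)) r) 1 := by
  have hdb : 0 ≤ ∑ ω, w ω * d (x ω (mv ω)) r :=
    sum_nonneg fun ω _ => mul_nonneg (hw ω) (isD_nonneg hd _ _)
  have hm : 0 ≤ min (∑ ω, w ω * d (x ω (mv ω)) r) 1 := le_min hdb (by norm_num)
  have hT := budget_nonneg (x := x) (r := r) hd hw
  rcases le_or_gt D (1 / 2) with g1 | g1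
  · have g2 := not_le.1 (hA g1)
    have hD := min_le_left D 1
    rcases le_or_gt (1 / 2) (ballMass d w x r (D / 3)) with hM | hM
    · have h2 := shellI_ge (d := d) (x := x) (r := r) hw (a := D / 3) (by linarith)
      have h3 := shellI_le_budget hd hw hM
      have h4 := ballMass_mono (d := d) (x := x) (r := r) hw (u := D / 3) (u' := 11)
        (by linarith)
      have h5 : D ≤ 39 * budget d w x r := by
        by_contra h6
        push Not at h6
        nlinarith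
      linarith
    · have h2 := half_le_of_ballMass_lt hd hw hw1 mv (by linarith) hM
      have h3 : D / 6 ≤ min (∑ ω, w ω * d (x ω (mv ω)) r) 1 :=
        le_min (by linarith) (by linarith)
      linarith
  · have g2 := not_le.1 (hB g1)
    have hD := min_le_right D 1
    rcases le_or_gt (1 / 2) (ballMass d w x r (1 / 10)) with hM | hM
    · have h2 := shellI_ge (d := d) (x := x) (r := r) hw (a := 1 / 10) (by norm_num)
      have h3 := shellI_le_budget hd hw hM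
      have h4 := ballMass_mono (d := d) (x := x) (r := r) hw (u := 1 / 10) (u' := 11)
        (by norm_num)
      have h5 : 1 ≤ 125 * budget d w x r := by
        by_contra h6
        push Not at h6
        nlinarith
      linarith
    · have h1 := half_le_of_ballMass_lt hd hw hw1 mv (by norm_num) hM
      have h2 : 1 / 20 ≤ min (∑ ω, w ω * d (x ω (mv ω)) r) 1 :=
        le_min (by linarith) (by norm_num)
      linarith

theorem lmove_num {L b b2 m db q K S : ℝ} (hL : 2 ≤ L) (hb : 0 ≤ b) (hb2 : 0 ≤ b2) (hm : 0 ≤ m)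
    (hm1 : m ≤ 1) (hmd : m ≤ db) (hq : 0 ≤ q) (hK0 : 0 ≤ K) (hS : S ≤ m)
    (hK : K ≤ 23 * (125 * b + 20 * m) + 2 * b2 + 32 * L * m + 20 * q) :
    3500 * K * S ≤ 10 ^ 6 * L * m ^ 2 + 11 * 10 ^ 6 * ((b + b2) * db) + 70000 * q := by
  have h1 : K * S ≤ K * m := mul_le_mul_of_nonneg_left hS hK0
  have h2 := mul_le_mul_of_nonneg_right hK hm
  have h3 : b * m ≤ b * db := mul_le_mul_of_nonneg_left hmd hb
  have h4 : b2 * m ≤ b2 * db := mul_le_mul_of_nonneg_left hmd hb2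
  have h5 : q * m ≤ q * 1 := mul_le_mul_of_nonneg_left hm1 hq
  have h6 : 2 * m ^ 2 ≤ L * m ^ 2 := mul_le_mul_of_nonneg_right hL (by positivity)
  have h7 : 0 ≤ b * m := mul_nonneg hb hm
  have h8 : 0 ≤ b2 * m := mul_nonneg hb2 hm
  have h9 : 0 ≤ m ^ 2 := by positivity
  nlinarith

theorem Mc_avg (hP : P.OK) (h : P.Inv μ σ) (hT : 1 ≤ σ.sh.m P.d r → P.Tok σ r)
    (hw : ∀ ω, 0 ≤ w ω) (hw1 : ∑ ω, w ω = 1) (mv : Ω → Fin k) (hR : P.Rule (1 / 2) σ w x r)
    (hD : min (σ.t1.m P.d r) 1 ≤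
      125 * budget P.d w x r + 20 * min (∑ ω, w ω * P.d (x ω (mv ω)) r) 1) :
    ∑ ω, w ω * P.Mc σ (x ω (mv ω)) r ≤
      52000 * Lk k * ∑ ω, w ω * (min (P.d (x ω (mv ω)) r) 1) ^ 2 +
      10 ^ 6 * Lk k * (min (∑ ω, w ω * P.d (x ω (mv ω)) r) 1) ^ 2 +
      11 * 10 ^ 6 * ((budget P.d w x r + budget2 P.d w x r) * ∑ ω, w ω * P.d (x ω (mv ω)) r) +
      80000 * (k : ℝ) ^ 2 / P.G + P.ε := by
  have hL := two_le_Lk (k := k) (by have := hP.hk; omega)
  have hL' := lavgf_Lk_le hP.hk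
  have hk' : (2 : ℝ) ≤ k := by exact_mod_cast hP.hk
  have hdb : 0 ≤ ∑ ω, w ω * P.d (x ω (mv ω)) r :=
    sum_nonneg fun ω _ => mul_nonneg (hw ω) (isD_nonneg hP.hd _ _)
  have hm : 0 ≤ min (∑ ω, w ω * P.d (x ω (mv ω)) r) 1 := le_min hdb (by norm_num)
  have hA := A_bd hP h.toTInv r
  have hd := dep_bd (σ.sh.m P.d r)
  have hp : 0 ≤ min (σ.t1.m P.d r) 1 := le_min (m_nonneg hP.hd h.t1 r) (by norm_num)
  have h1 := lmove_avg_le hw hw1 (f := fun ω => P.Mc σ (x ω (mv ω)) r)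
    (g₁ := fun ω => (min (P.d (x ω (mv ω)) r) 1) ^ 2) (g₂ := fun ω => min (P.d (x ω (mv ω)) r) 1)
    (a := 52000 * Lk k) (b := 3500 * (min (σ.t1.m P.d r) 1 + dep (σ.sh.m P.d r) * P.A σ r))
    (c := 70 * Lk k / P.G + P.ε) fun ω => by linarith [Mc_le2 hP h hT (x ω (mv ω))]
  have h2 : ∑ ω, w ω * min (P.d (x ω (mv ω)) r) 1 ≤ min (∑ ω, w ω * P.d (x ω (mv ω)) r) 1 := by
    refine le_min (sum_le_sum fun ω _ => mul_le_mul_of_nonneg_left (min_le_left _ _) (hw ω)) ?_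
    rw [← hw1]
    exact sum_le_sum fun ω _ => mul_le_of_le_one_right (hw ω) (by rw [hw1]; exact min_le_right _ _)
  have h3 := dep_A hP h.toTInv hw hw1 mv hR
  have h4 : 6 * ind (3 / 10 < σ.sh.m P.d r) ≤ 22 * min (σ.t1.m P.d r) 1 := by
    by_cases h5 : 3 / 10 < σ.sh.m P.d r
    · have h6 : 7 / 25 ≤ min (σ.t1.m P.d r) 1 :=
        le_min (by linarith [(m_sh hP h r).1]) (by norm_num)
      rw [ind_pos h5]
      linarith
    · rw [ind_neg h5]
      linarith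
  have e1 : 20 * (k : ℝ) ^ 2 / P.G = 20 * ((k : ℝ) ^ 2 / P.G) := by ring
  have e2 : 80000 * (k : ℝ) ^ 2 / P.G = 80000 * ((k : ℝ) ^ 2 / P.G) := by ring
  have e3 : 70 * Lk k / P.G ≤ 10000 * ((k : ℝ) ^ 2 / P.G) := by
    rw [← mul_div_assoc]
    exact div_le_div_of_nonneg_right (by nlinarith) (by positivity)
  have h5 := lmove_num hL (budget_nonneg (x := x) (r := r) hP.hd hw)
    (budget2_nonneg (x := x) (r := r) hP hw hw1) hm (min_le_right _ _) (min_le_left _ _)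
    (q := (k : ℝ) ^ 2 / P.G) (by positivity) (add_nonneg hp (mul_nonneg hd.1 hA.1)) h2
    (by linarith)
  linarith

end Par

end Vale.Agent.P304.Sq
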