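import Vale.Agent.P304.Sq.LDefs

/-! P304 tight bound, LEVEL: scalar facts and sums over the grid of radii.

PLAN.  sum_{j<n} (2j+1) = n^2.  nuw_low: the j < G with rho G j <= 2/5 + t are the j <= 5 t G, at least 5 t G of them (5 t <= 1), they form range n.
cnt_lt: the j with j < 5 t G number at most 5 t G + 1.
shift_up: sum_{j<G} (2j+1) phi(j+m) >= sum_{m <= i < G} (2(i-m)+1) phi i (reindex, drop the terms i >= G, phi >= 0), and 2j+1 <= 2m for j < m.
shift_both: sum over m <= j < G of (2j+1) phi(j-m) = sum_{i<G-m} (2i+2m+1) phi i, sum of (2j+1) phi(j+m) >= sum_{2m <= i < G-m} (2i-2m+1) phi i;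
2i+2m+1 <= 6m for i < 2m.  (Or split phi(j-m) - phi(j+m) and bound both halves.)
psi s = p^2 with p = clamp(10(s - 3/10)) = 10 dep s, 10-Lipschitz and monotone.  w0_log: log(40k+1) <= log k + log 41 <= 2 log k + 4. -/

set_option linter.unusedSectionVars false

namespace Vale.Agent.P304.Sq

open Finset Lv

variable {k G : ℕ}

theorem w0_pos (hk : 2 ≤ k) : 0 < w0 k := by
  have : (0 : ℝ) < k := by exact_mod_cast (by omega : 0 < k)
  unfold w0
  positivity

theorem w0_le (hk : 2 ≤ k) : w0 k ≤ 1 / 80 := by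
  have : (2 : ℝ) ≤ k := by exact_mod_cast hk
  exact one_div_le_one_div_of_le (by norm_num) (by linarith)

theorem w0_log (hk : 2 ≤ k) : Real.log ((1 + w0 k) / w0 k) ≤ 2 * Lk k := by
  have h : (2 : ℝ) ≤ k := by exact_mod_cast hk
  have h0 : (0 : ℝ) < k := by linarith
  have h1 : (2.7 : ℝ) ^ 4 ≤ Real.exp 1 ^ 4 :=
    pow_le_pow_left₀ (by norm_num) (by linarith [Real.exp_one_gt_d9]) 4
  rw [show (1 + w0 k) / w0 k = 40 * k + 1 by unfold w0; field_simp,
    Real.log_le_iff_le_exp (by positivity), Lk, mul_add, Real.exp_add, two_mul (Real.log k),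
    Real.exp_add, Real.exp_log h0, show (2 * 2 : ℝ) = (4 : ℕ) * 1 by norm_num, Real.exp_nat_mul]
  nlinarith

theorem uu_pos (i : ℕ) : 0 < uu i := by
  unfold uu
  positivity

theorem uu_le (i : ℕ) : uu i ≤ 1 / 10 := by
  exact one_div_le_one_div_of_le (by norm_num)
    (le_mul_of_one_le_right (by norm_num) (one_le_pow₀ (by norm_num)))

theorem uu_succ (i : ℕ) : uu i = 2 * uu (i + 1) := by
  unfold uu
  rw [pow_succ]
  field_simp

theorem uu_mul_Lk (hk : 2 ≤ k) : uu k * Lk k ≤ 1 / 10 := by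
  have h0 : (0 : ℝ) < k := by exact_mod_cast (by omega : 0 < k)
  have h1 := Real.log_le_sub_one_of_pos h0
  have h2 : (k : ℝ) + 1 ≤ 2 ^ k := by exact_mod_cast Nat.lt_two_pow_self
  rw [uu, Lk, div_mul_eq_mul_div, div_le_div_iff₀ (by positivity) (by norm_num)]
  linarith

theorem rho_ge (G j : ℕ) : 2 / 5 ≤ rho G j := by
  have : (0 : ℝ) ≤ (j : ℝ) / G := by positivity
  unfold rho
  linarith

theorem rho_lt {j : ℕ} (h : j < G) : rho G j < 3 / 5 := by
  have : (j : ℝ) / G < 1 := (div_lt_one (Nat.cast_pos.2 (by omega))).2 (Nat.cast_lt.2 h)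
  unfold rho
  linarith

theorem rho_le (hG : 0 < G) {j : ℕ} (h : j ≤ 2 * G) : rho G j ≤ 4 / 5 := by
  have : (j : ℝ) / G ≤ 2 := (div_le_iff₀ (Nat.cast_pos.2 hG)).2 (by exact_mod_cast h)
  unfold rho
  linarith

theorem rho_add (G j m : ℕ) : rho G (j + m) = rho G j + m / (5 * G) := by
  unfold rho
  push_cast
  ring

theorem nuw_nonneg (G j : ℕ) : 0 ≤ nuw G j := by
  unfold nuw
  positivity

theorem nuw_le {j : ℕ} (h : j < G) : nuw G j ≤ 2 / G := by
  have h0 : (0 : ℝ) < G := Nat.cast_pos.2 (by omega)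
  have h1 : (j : ℝ) + 1 ≤ G := by exact_mod_cast h
  rw [nuw, div_le_div_iff₀ (by positivity) h0]
  nlinarith

theorem nuw_range (G n : ℕ) : ∑ j ∈ range n, nuw G j = ((n : ℝ) / G) ^ 2 := by
  induction n with
  | zero => simp
  | succ n ih =>
    rw [sum_range_succ, ih, nuw]
    push_cast
    ring

theorem nuw_sum (hG : 0 < G) : ∑ j ∈ range G, nuw G j = 1 := by
  rw [nuw_range, div_self (Nat.cast_pos.2 hG).ne', one_pow]

theorem lnum_lt (hG : 0 < G) {t : ℝ} {j : ℕ} : rho G j < 2 / 5 + t ↔ j < ⌈5 * t * G⌉₊ := by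
  rw [Nat.lt_ceil, ← div_lt_iff₀ (Nat.cast_pos.2 hG), rho]
  constructor <;> intro h <;> linarith

theorem lnum_key (G m : ℕ) {φ : ℕ → ℝ} (h0 : ∀ j < G + m, 0 ≤ φ j) :
    ∑ i ∈ range G, (2 * (i : ℝ) + 1 - 2 * m) * φ i ≤ ∑ j ∈ range G, (2 * (j : ℝ) + 1) * φ (j + m) := by
  have h1 := sum_range_add (fun i => max (2 * (i : ℝ) + 1 - 2 * m) 0 * φ i) m G
  rw [sum_eq_zero (s := range m) fun i hi => by
    have : (i : ℝ) + 1 ≤ m := by exact_mod_cast mem_range.1 hi
    rw [max_eq_right (by linarith), zero_mul], zero_add] at h1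
  refine (sum_le_sum fun i hi => mul_le_mul_of_nonneg_right (le_max_left _ 0)
    (h0 i (by have := mem_range.1 hi; omega))).trans ((sum_le_sum_of_subset_of_nonneg
      (range_subset_range.2 (Nat.le_add_left G m)) fun i hi _ => mul_nonneg (le_max_right _ _)
        (h0 i (by have := mem_range.1 hi; omega))).trans (h1.trans (sum_congr rfl fun j _ => ?_)).le)
  have : (0 : ℝ) ≤ j := Nat.cast_nonneg j
  rw [Nat.cast_add, max_eq_left (by linarith), add_comm m j]
  ring

theorem nuw_low (hG : 0 < G) {t : ℝ} (h0 : 0 ≤ t) (h1 : t ≤ 1 / 5) :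
    25 * t ^ 2 ≤ ∑ j ∈ range G, nuw G j * ind (rho G j ≤ 2 / 5 + t) := by
  have h2 : (0 : ℝ) < G := Nat.cast_pos.2 hG
  have h3 : ⌈5 * t * G⌉₊ ≤ G := Nat.ceil_le.2 (mul_le_of_le_one_left h2.le (by linarith))
  refine le_trans ?_ (sum_le_sum_of_subset_of_nonneg (range_subset_range.2 h3)
    fun j _ _ => mul_nonneg (nuw_nonneg G j) (ind_nonneg _))
  rw [sum_congr rfl fun j hj => by
    rw [ind_pos ((lnum_lt hG).2 (mem_range.1 hj)).le, mul_one], nuw_range,
    show 25 * t ^ 2 = (5 * t) ^ 2 by ring]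
  exact pow_le_pow_left₀ (by positivity) ((le_div_iff₀ h2).2 (Nat.le_ceil _)) 2

theorem cnt_lt (hG : 0 < G) {t : ℝ} (h0 : 0 ≤ t) :
    (∑ j ∈ range G, ind (rho G j < 2 / 5 + t)) / G ≤ 5 * t + 1 / G := by
  have h2 : (0 : ℝ) < G := Nat.cast_pos.2 hG
  have h3 := Nat.ceil_lt_add_one (show 0 ≤ 5 * t * G by positivity)
  have h4 : ∑ j ∈ range G, ind (rho G j < 2 / 5 + t) ≤ ⌈5 * t * G⌉₊ := by
    simp only [lnum_lt hG, ind]
    rw [sum_boole]
    exact Nat.cast_le.2 ((card_le_card fun j hj => mem_range.2 (mem_filter.1 hj).2).trans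
      (card_range _).le)
  rw [div_le_iff₀ h2, add_mul, one_div_mul_cancel h2.ne']
  linarith

theorem shift_up (hG : 0 < G) (m : ℕ) {φ : ℕ → ℝ} (h0 : ∀ j < G + m, 0 ≤ φ j) :
    ∑ j ∈ range G, nuw G j * (φ j - φ (j + m)) ≤ 2 * (m / G) * ((∑ j ∈ range G, φ j) / G) := by
  have h1 := lnum_key G m h0
  have h2 : (0 : ℝ) < G := Nat.cast_pos.2 hG
  simp only [nuw, div_mul_eq_mul_div, ← sum_div, mul_sub, sub_mul, sum_sub_distrib,
    ← mul_sum] at h1 ⊢
  rw [← sub_div, div_le_iff₀ (by positivity)]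
  refine le_trans ?_ (le_of_eq (show 2 * m * ∑ j ∈ range G, φ j = _ by field_simp))
  linarith

theorem shift_both (hG : 0 < G) (m : ℕ) {φ : ℕ → ℝ} (h0 : ∀ j < G + m, 0 ≤ φ j) :
    ∑ j ∈ Ico m G, nuw G j * (φ (j - m) - φ (j + m)) ≤ 6 * (m / G) * ((∑ j ∈ range G, φ j) / G) := by
  have h2 : (0 : ℝ) < G := Nat.cast_pos.2 hG
  rcases le_total G m with h | h
  · rw [Ico_eq_empty_of_le h, sum_empty]
    have := sum_nonneg (s := range G) fun j hj => h0 j (by have := mem_range.1 hj; omega)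
    positivity
  have h1 := lnum_key (G - m) (2 * m) (φ := φ) fun j hj => h0 j (by omega)
  have h3 : ∑ j ∈ range (G - m), φ j ≤ ∑ j ∈ range G, φ j :=
    sum_le_sum_of_subset_of_nonneg (range_subset_range.2 (Nat.sub_le _ _))
      fun j hj _ => h0 j (by have := mem_range.1 hj; omega)
  simp only [nuw, div_mul_eq_mul_div, ← sum_div]
  rw [div_le_iff₀ (by positivity), sum_Ico_eq_sum_range]
  refine le_trans ?_ (le_of_eq (show 6 * m * ∑ j ∈ range G, φ j = _ by field_simp))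
  refine le_trans ?_ (mul_le_mul_of_nonneg_left h3 (by positivity))
  rw [← sub_nonneg, ← sum_sub_distrib] at h1
  refine (le_add_of_nonneg_right h1).trans ?_
  rw [mul_sum, ← sum_add_distrib]
  refine sum_le_sum fun j hj => ?_
  have h4 := mul_nonneg (Nat.cast_nonneg (α := ℝ) m)
    (h0 (j + 2 * m) (by have := mem_range.1 hj; omega))
  rw [Nat.add_sub_cancel_left, show m + j + m = j + 2 * m by ring]
  push_cast
  linarith

theorem dep_bd (s : ℝ) : 0 ≤ dep s ∧ dep s ≤ 1 / 10 := by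
  exact ⟨le_max_left _ _, max_le (by norm_num) (min_le_right _ _)⟩

theorem lnum_dep {s s' e : ℝ} (he : 0 ≤ e) (h : s ≤ s' + e) : dep s ≤ dep s' + e := by
  refine max_le (add_nonneg (le_max_left _ _) he) (le_trans ?_ (add_le_add (le_max_right _ _) le_rfl))
  rw [← min_add_add_right]
  exact min_le_min (by linarith) (by linarith)

theorem psi_eq (s : ℝ) : psi s = (10 * dep s) ^ 2 := by
  rw [psi, dep, mul_max_of_nonneg _ _ (by norm_num), mul_min_of_nonneg _ _ (by norm_num), min_comm]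
  norm_num

theorem psi_nonneg (s : ℝ) : 0 ≤ psi s := by
  exact sq_nonneg _

theorem psi_le_one (s : ℝ) : psi s ≤ 1 := by
  rw [psi_eq]
  exact pow_le_one₀ (by linarith [dep_bd s]) (by linarith [dep_bd s])

theorem psi_mono : Monotone psi := by
  intro s s' h
  rw [psi_eq, psi_eq]
  exact pow_le_pow_left₀ (by linarith [dep_bd s])
    (by linarith [lnum_dep (e := 0) le_rfl (h.trans (add_zero s').ge)]) 2

theorem psi_zero {s : ℝ} (h : s ≤ 3 / 10) : psi s = 0 := by
  rw [psi, max_eq_left (min_le_of_right_le (by linarith)), zero_pow two_ne_zero]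

theorem psi_one {s : ℝ} (h : 2 / 5 ≤ s) : psi s = 1 := by
  rw [psi, min_eq_left (by linarith), max_eq_right zero_le_one, one_pow]

theorem psi_ge {s t : ℝ} (h0 : 0 ≤ t) (h1 : t ≤ 1 / 10) (h : t ≤ s - 3 / 10) : 100 * t ^ 2 ≤ psi s := by
  have h2 : t ≤ dep s := le_max_of_le_right (le_min h h1)
  rw [psi_eq]
  nlinarith

theorem psi_lip {s s' e : ℝ} (he : 0 ≤ e) (h : s ≤ s' + e) : psi s ≤ psi s' + 200 * dep s * e := by
  have h1 := lnum_dep he h
  have h2 := (dep_bd s).1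
  have h3 := (dep_bd s').1
  rw [psi_eq, psi_eq]
  rcases le_total (dep s) (dep s') with c | c <;> nlinarith

theorem psi_le_dep {s s' e : ℝ} (he : 0 ≤ e) (h : s' ≤ s + e) : psi s' ≤ 10 * dep s + 10 * e := by
  have h1 := lnum_dep he h
  have h2 := dep_bd s'
  rw [psi_eq]
  nlinarith

theorem chi_bd (s : ℝ) : 0 ≤ chi s ∧ chi s ≤ 1 := by
  exact ⟨le_max_left _ _, max_le zero_le_one (min_le_of_left_le (min_le_right _ _))⟩

theorem chi_zero {s : ℝ} (h : s ≤ 1 / 5 ∨ 29 / 10 ≤ s) : chi s = 0 := by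
  refine max_eq_left (h.elim (fun h => min_le_of_left_le (min_le_of_left_le (by linarith)))
    fun h => min_le_of_right_le (by linarith))

theorem chi_one {s : ℝ} (h0 : 1 / 4 ≤ s) (h1 : s ≤ 27 / 10) : chi s = 1 := by
  rw [chi, min_eq_right (b := 1) (by linarith), min_eq_left (by linarith), max_eq_right zero_le_one]

theorem chi_lip (s s' : ℝ) : chi s ≤ chi s' + 20 * |s - s'| := by
  have h1 := le_abs_self (s - s')
  have h2 := neg_abs_le (s - s')
  have h3 := (chi_bd s').1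
  refine max_le (by linarith) (le_trans ?_ (add_le_add (le_max_right _ _) le_rfl))
  rw [← min_add_add_right, ← min_add_add_right]
  exact min_le_min (min_le_min (by linarith) (by linarith)) (by linarith)

end Vale.Agent.P304.Sq
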