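import Vale.Agent.P304.Sq.LTok

/-! P304 tight bound, LEVEL: shadows under a claim.

PLAN.  s' = claim2 s a r v, s1 = ins s (Cmp s a r) s.sh.c (1/2) v.  s' and s1 have the same tokens, so vec, Om, ff, U, wf, Pt, lab2, c2 agree (rfl).
claim_insOK: sep: for u <> u' with sh.h < 2/5: sh_sep at the point sh.c u gives 7 <= sh.h u + d + sh.h u'.  w0 <= 1/2.
claim2_inv: claim_inv, ins_tinv; the new drift is 0 for jumping u and <= 1/50 otherwise (not Jmp); new shadow heights >= 0.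
claim2_fresh: u <> a keeps or raises its height; ins_fresh.
claim_W: if no u in Cmp has d y (sh.c u) <= 11/5: c2 = 0, Pt' <= Pt (ins_far) and psi' <= psi: otherwise psi < 1, so sh.m y < 2/5, attained at u1 (z_arg),
u1 jumps (else s'.sh.m y <= sh.m y), sh.h u1 < 2/5 and d y (sh.c u1) < 2/5 (sh0, d >= 0): u1 is in Cmp, contradiction.
In general: c2 <= 1; if psi' <= psi then psi' Pt' - psi Pt <= psi (Pt' - Pt)^+ <= 9/2 (ins_U, ins_wf, Pt' >= 0); if psi' > psi then u1 as above and Pt' <= 4 (ins_near).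
claim_W_zero: s'.sh.m y <= 7/25 + 1/50 (m_sh for s'), psi_zero, Pt >= 0.
claim_T_le: termwise; a jumping u contributes - chi * drift <= 0, a non jumping u has the same shadow. -/

set_option linter.unusedSectionVars false

namespace Vale.Agent.P304.Sq

open Finset Lv

variable {ι X : Type} [Fintype ι] [LinearOrder ι] [Nonempty ι] {k : ℕ} {P : Par ι X k}
  {σ σ' : L2 ι X} {μ : ℝ}

namespace Par

variable {a v : ι} {r y : X}

theorem shad_Pt (σ : L2 ι X) (a : ι) (r : X) (v : ι) (y : X) :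
    P.Pt (P.claim2 σ a r v) y = P.Pt (P.ins σ (P.Cmp σ a r) σ.sh.c (1 / 2) v) y := rfl

theorem shad_c2 (σ : L2 ι X) (a : ι) (r : X) (v : ι) (y : X) :
    P.c2 σ (P.claim2 σ a r v) y y = P.c2 σ (P.ins σ (P.Cmp σ a r) σ.sh.c (1 / 2) v) y y := rfl

theorem shad_c_jmp {u : ι} (hu : P.Jmp σ a r u) :
    (P.claim2 σ a r v).sh.c u = (σ.t1.claim P.d a r).c u := by
  simp only [claim2, if_pos hu]

theorem shad_h_jmp {u : ι} (hu : P.Jmp σ a r u) :
    (P.claim2 σ a r v).sh.h u = (σ.t1.claim P.d a r).h u := by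
  simp only [claim2, if_pos hu]

theorem shad_c_not {u : ι} (hu : ¬P.Jmp σ a r u) : (P.claim2 σ a r v).sh.c u = σ.sh.c u := by
  simp only [claim2, if_neg hu]

theorem shad_h_not {u : ι} (hu : ¬P.Jmp σ a r u) : (P.claim2 σ a r v).sh.h u = σ.sh.h u := by
  simp only [claim2, if_neg hu]

theorem shad_z_not {u : ι} (hu : ¬P.Jmp σ a r u) (y : X) :
    (P.claim2 σ a r v).sh.z P.d y u = σ.sh.z P.d y u := by
  unfold St.z
  rw [shad_c_not hu, shad_h_not hu]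

theorem shad_drift_jmp (hP : P.OK) {u : ι} (hu : P.Jmp σ a r u) :
    P.drift (P.claim2 σ a r v) u = 0 := by
  unfold drift
  rw [shad_c_jmp hu, shad_h_jmp hu]
  change P.d ((σ.t1.claim P.d a r).c u) ((σ.t1.claim P.d a r).c u) +
    |(σ.t1.claim P.d a r).h u - (σ.t1.claim P.d a r).h u| = 0
  rw [hP.hd.refl, sub_self, abs_zero, add_zero]

theorem shad_drift_not {u : ι} (hu : ¬P.Jmp σ a r u) :
    P.drift (P.claim2 σ a r v) u = P.d ((σ.t1.claim P.d a r).c u) (σ.sh.c u) +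
      |(σ.t1.claim P.d a r).h u - σ.sh.h u| := by
  unfold drift
  rw [shad_c_not hu, shad_h_not hu]
  rfl

theorem shad_key (hP : P.OK) (h : P.Inv μ σ) (a : ι) (r y : X) (v : ι)
    (hlt : psi (σ.sh.m P.d y) < psi ((P.claim2 σ a r v).sh.m P.d y)) :
    ∃ u, P.Cmp σ a r u ∧ P.d y (σ.sh.c u) ≤ 2 / 5 := by
  have h1 : σ.sh.m P.d y < 2 / 5 := by
    by_contra hc
    rw [psi_one (not_lt.1 hc)] at hlt
    linarith [psi_le_one ((P.claim2 σ a r v).sh.m P.d y)]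
  have h2 := z_arg (d := P.d) σ.sh y
  set u := σ.sh.arg P.d y
  have h3 : P.Jmp σ a r u := by
    by_contra hc
    have h4 := m_le (d := P.d) (P.claim2 σ a r v).sh y u
    rw [shad_z_not hc, h2] at h4
    exact absurd (psi_mono h4) (not_le.2 hlt)
  have h5 := h.sh0 u
  have h6 := isD_nonneg hP.hd y (σ.sh.c u)
  unfold St.z at h2
  exact ⟨u, ⟨h3, by linarith⟩, by linarith⟩

theorem claim_insOK (hP : P.OK) (h : P.Inv μ σ) (lo : P.μ ≤ μ / 2) (hi : μ ≤ w0 k)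
    (hv : ∀ u, σ.tw (v, u) = 0) (a : ι) (r : X) : P.InsOK μ σ (P.Cmp σ a r) σ.sh.c (1 / 2) v := by
  refine ⟨hP, h.toTInv, lo, hi, ?_, le_rfl, hv, ?_⟩
  · linarith [w0_le hP.hk]
  · intro u u' hu hu' hne
    have h1 := sh_sep hP h (σ.sh.c u) hne
    unfold St.z at h1
    rw [hP.hd.refl] at h1
    linarith [hu.2, hu'.2]

theorem claim2_inv (hP : P.OK) (h : P.Inv μ σ) (lo : P.μ ≤ μ / 2) (hi : μ ≤ w0 k)
    (hv : ∀ u, σ.tw (v, u) = 0) (a : ι) (r : X) : P.Inv (μ / 2) (P.claim2 σ a r v) := by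
  have h0 := ins_tinv (claim_insOK hP h lo hi hv a r)
  refine ⟨⟨h0.adm, h0.ball, h0.lo⟩, claim_inv hP.hd h.t1 a r, fun u => ?_, fun u => ?_⟩
  · by_cases hu : P.Jmp σ a r u
    · rw [shad_drift_jmp hP hu]; norm_num
    · rw [shad_drift_not hu]; exact not_lt.1 hu
  · by_cases hu : P.Jmp σ a r u
    · rw [shad_h_jmp hu]; exact (claim_inv hP.hd h.t1 a r).h_nonneg u
    · rw [shad_h_not hu]; exact h.sh0 u

theorem claim2_fresh {u : ι} (h1 : u ≠ a) (h2 : u ≠ v) (h : Fresh σ u) (r : X) :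
    Fresh (P.claim2 σ a r v) u := by
  refine ⟨?_, fun u' => ins_fresh (P := P) h2 h.2 u'⟩
  change 8 ≤ (σ.t1.claim P.d a r).h u
  simp only [St.claim, if_neg h1]
  exact h.1.trans (le_max_left _ _)

/-- tier 2 part of the amortized cost of a claim -/
noncomputable def W2 (P : Par ι X k) (σ σ' : L2 ι X) (y : X) : ℝ :=
  ind (2 < σ.t1.m P.d y ∧ 2 < σ'.t1.m P.d y) * P.c2 σ σ' y y +
    psi (σ'.sh.m P.d y) * P.Pt σ' y - psi (σ.sh.m P.d y) * P.Pt σ y

theorem shad_pt (hP : P.OK) (h : P.Inv μ σ) (lo : P.μ ≤ μ / 2) (hi : μ ≤ w0 k)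
    (hv : ∀ u, σ.tw (v, u) = 0) (a : ι) (r y : X) :
    psi ((P.claim2 σ a r v).sh.m P.d y) * P.Pt (P.claim2 σ a r v) y -
      psi (σ.sh.m P.d y) * P.Pt σ y ≤ 5 := by
  have hI := claim_insOK hP h lo hi hv a r
  have h0 := (Pt_bd hP (ins_tinv hI) y).1
  have h1 := (Pt_bd hP h.toTInv y).1
  have p0 := psi_nonneg (σ.sh.m P.d y)
  have p1 := psi_le_one (σ.sh.m P.d y)
  have q0 := psi_nonneg ((P.claim2 σ a r v).sh.m P.d y)
  have q1 := psi_le_one ((P.claim2 σ a r v).sh.m P.d y)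
  rw [shad_Pt]
  rcases le_or_gt (psi ((P.claim2 σ a r v).sh.m P.d y)) (psi (σ.sh.m P.d y)) with hc | hc
  · have h2 : P.Pt (P.ins σ (P.Cmp σ a r) σ.sh.c (1 / 2) v) y ≤ P.Pt σ y + 9 / 2 := by
      have := ins_U hI y
      have := ins_wf hI y
      unfold Pt
      linarith
    have h3 := mul_le_mul_of_nonneg_right hc h0
    have h4 := mul_le_mul_of_nonneg_left h2 p0
    nlinarith
  · obtain ⟨u, hu, hd⟩ := shad_key hP h a r y v hc
    have h2 := ins_near hI hu hd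
    have h3 := mul_le_mul_of_nonneg_right q1 h0
    have h4 := mul_nonneg p0 h1
    linarith

theorem claim_W (hP : P.OK) (h : P.Inv μ σ) (lo : P.μ ≤ μ / 2) (hi : μ ≤ w0 k)
    (hv : ∀ u, σ.tw (v, u) = 0) (a : ι) (r y : X) :
    P.W2 σ (P.claim2 σ a r v) y ≤ 6 * ind (∃ u, P.Cmp σ a r u ∧ P.d y (σ.sh.c u) ≤ 11 / 5) := by
  have hI := claim_insOK hP h lo hi hv a r
  unfold W2
  by_cases hex : ∃ u, P.Cmp σ a r u ∧ P.d y (σ.sh.c u) ≤ 11 / 5
  · rw [ind_pos hex]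
    have h1 := shad_pt hP h lo hi hv a r y
    have h2 := c2_bd hP σ (P.claim2 σ a r v) y y
    have h3 := mul_le_mul_of_nonneg_right
      (ind_le_one (2 < σ.t1.m P.d y ∧ 2 < (P.claim2 σ a r v).t1.m P.d y)) h2.1
    linarith [h2.2]
  · rw [ind_neg hex]
    have hx : ∀ u, P.Cmp σ a r u → 11 / 5 < P.d y (σ.sh.c u) := fun u hu =>
      not_le.1 fun hc => hex ⟨u, hu, hc⟩
    obtain ⟨h1, h2⟩ := ins_far hI hx
    have h3 : psi ((P.claim2 σ a r v).sh.m P.d y) ≤ psi (σ.sh.m P.d y) := by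
      by_contra hc
      obtain ⟨u, hu, hd⟩ := shad_key hP h a r y v (not_le.1 hc)
      linarith [hx u hu]
    have h0 := (Pt_bd hP (ins_tinv hI) y).1
    rw [shad_c2, h1, shad_Pt]
    have h4 := mul_le_mul_of_nonneg_right h3 h0
    have h5 := mul_le_mul_of_nonneg_left h2 (psi_nonneg (σ.sh.m P.d y))
    linarith

theorem claim_pt (hP : P.OK) (h : P.Inv μ σ) (lo : P.μ ≤ μ / 2) (hi : μ ≤ w0 k)
    (hv : ∀ u, σ.tw (v, u) = 0) (a : ι) (r y : X) :
    psi ((P.claim2 σ a r v).sh.m P.d y) * P.Pt (P.claim2 σ a r v) y -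
      psi (σ.sh.m P.d y) * P.Pt σ y ≤ 5 := by
  exact shad_pt hP h lo hi hv a r y

theorem claim_W_zero (hP : P.OK) (h : P.Inv μ σ) (lo : P.μ ≤ μ / 2) (hi : μ ≤ w0 k)
    (hv : ∀ u, σ.tw (v, u) = 0) (hy : (P.claim2 σ a r v).t1.m P.d y ≤ 7 / 25) :
    psi ((P.claim2 σ a r v).sh.m P.d y) = 0 ∧ P.W2 σ (P.claim2 σ a r v) y ≤ 0 := by
  have h1 := (m_sh hP (claim2_inv hP h lo hi hv a r) y).1
  have h2 : psi ((P.claim2 σ a r v).sh.m P.d y) = 0 := psi_zero (by linarith)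
  refine ⟨h2, ?_⟩
  unfold W2
  rw [h2, ind_neg (fun hc => by linarith [hc.2])]
  have h4 := mul_nonneg (psi_nonneg (σ.sh.m P.d y)) (Pt_bd hP h.toTInv y).1
  linarith

/-- change of the drift potential, term by term -/
theorem claim_T_le (hP : P.OK) (σ : L2 ι X) (a : ι) (r y : X) (v : ι) :
    P.T (P.claim2 σ a r v) y - P.T σ y =
      ∑ u, chi (σ.sh.z P.d y u) * (ind (¬P.Jmp σ a r u) * (P.d ((σ.t1.claim P.d a r).c u) (σ.sh.c u) +
        |(σ.t1.claim P.d a r).h u - σ.sh.h u|) - P.drift σ u) := by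
  unfold T
  rw [← sum_sub_distrib]
  refine sum_congr rfl fun u _ => ?_
  by_cases hu : P.Jmp σ a r u
  · rw [shad_drift_jmp hP hu, ind_neg (not_not.2 hu)]; ring
  · rw [shad_drift_not hu, shad_z_not hu, ind_pos hu]; ring

end Par

end Vale.Agent.P304.Sq
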