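import Vale.Agent.P304.Sq.LBasic

/-! P304 tight bound, LEVEL: tier 2 and the moving server.

PLAN.  e = d y r <= 1/10, m = ceil(5 e G) (so e <= m/(5G) and m/G <= 5 e + 1/G, m <= G because G >= 2), phi j = ff s r (rho G j) >= 0 for j <= 2G.
U_grad: ff s y (rho j) >= phi (j+m) (ff_anti, rho_add), shift_up.
jac_move (radius t >= 2/5): a = vec s y t, a' = vec s r t; sum |a - a'| = sum max - sum min, sum min >= Om r (t - e) =: p, sum max <= Om r (t + e) =: q,
sum max >= w0/2 > 0 (the token of Tok is within 1/4 of r and 7/20 of y); the quotient is 1 - sum min/sum max <= 1 - p/q = (q-p)/q <= 3 (q-p)/(q + w0)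
<= 3 log((q+w0)/(p+w0)) = 3 (ff r (t-e) - ff r (t+e)).
c2_move: both picks are not none (smp.ex), so lab2 differs iff win differs; for j < m bound the probability by 1 (nuw_range: (m/G)^2 <= 50 e^2 + 2/G),
for j >= m use smp.cut, jac_move, ff r (rho j - e) <= phi (j - m), ff r (rho j + e) >= phi (j+m), shift_both.
psi_move: psi(r) Pt(r) - psi(y) Pt(y) = (psi r - psi y) Pt r + psi y (Pt r - Pt y); Pt r <= 8 A + 1, psi_lip, psi_le_dep (m_lip for the shadows),
Pt r - Pt y <= 8 (5e + 1/G) A + 10 e, A <= 2 Lk, dep <= 1/10. -/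

set_option linter.unusedSectionVars false

namespace Vale.Agent.P304.Sq

open Finset Lv

variable {ι X : Type} [Fintype ι] [LinearOrder ι] [Nonempty ι] {k : ℕ} {P : Par ι X k}
  {σ σ' : L2 ι X} {μ : ℝ}

namespace Par

variable {y r : X}

theorem lsh_exm {G : ℕ} (hG : 0 < G) {e : ℝ} (h0 : 0 ≤ e) (h1 : e ≤ 1 / 10) :
    ∃ m : ℕ, e ≤ m / (5 * G) ∧ (m : ℝ) / G ≤ 5 * e + 1 / G ∧ m ≤ G := by
  have hG' : (0 : ℝ) < G := by exact_mod_cast hG
  refine ⟨⌈5 * e * G⌉₊, ?_, ?_, Nat.ceil_le.2 (by nlinarith)⟩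
  · rw [le_div_iff₀ (by positivity)]
    linarith [Nat.le_ceil (5 * e * G)]
  · rw [div_le_iff₀ hG', add_mul, one_div_mul_cancel hG'.ne']
    exact (Nat.ceil_lt_add_one (by positivity)).le

theorem lsh_log {w p q s M : ℝ} (hw : 0 < w) (hp : 0 ≤ p) (h1 : p ≤ s) (h2 : s ≤ M) (h3 : M ≤ q)
    (h4 : w / 2 ≤ M) :
    (M - s) / M ≤ 3 * (Real.log ((1 + w) / (p + w)) - Real.log ((1 + w) / (q + w))) := by
  have hM : 0 < M := by linarith
  have hq : 0 < q := by linarith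
  have a1 : 0 < p + w := by linarith
  have a2 : 0 < q + w := by linarith
  have a3 : 0 < 1 + w := by linarith
  rw [Real.log_div a3.ne' a1.ne', Real.log_div a3.ne' a2.ne']
  have b1 := Real.one_sub_inv_le_log_of_pos (div_pos a2 a1)
  rw [Real.log_div a2.ne' a1.ne', inv_div] at b1
  have b2 : (M - s) / M ≤ (q - p) / q := by
    rw [div_le_div_iff₀ hM hq]
    nlinarith
  have b3 : (q - p) / q ≤ 3 * (1 - (p + w) / (q + w)) := by
    rw [show 3 * (1 - (p + w) / (q + w)) = 3 * (q - p) / (q + w) by field_simp; ring,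
      div_le_div_iff₀ hq a2]
    have : 0 ≤ q - p := by linarith
    nlinarith
  linarith

theorem lsh_phi (hP : P.OK) (h : P.TInv μ σ) (r : X) {m : ℕ} (hm : m ≤ P.G) :
    ∀ j < P.G + m, 0 ≤ P.ff σ r (rho P.G j) := fun j hj =>
  ff_nonneg hP h r (rho_le (by have := hP.hG; omega) (by omega))

theorem lsh_vec0 (hP : P.OK) (h : P.TInv μ σ) (y : X) (s : ℝ) (b : ι × ι) : 0 ≤ P.vec σ y s b := by
  unfold vec
  split_ifs
  · exact tw_nonneg hP h b
  · exact le_rfl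

theorem lsh_vec (hP : P.OK) (h : P.TInv μ σ) {y y' : X} {s s' : ℝ} (hs : s + P.d y y' ≤ s')
    (b : ι × ι) : P.vec σ y s b ≤ P.vec σ y' s' b := by
  by_cases hb : P.d y (σ.tc b) ≤ s
  · have h1 := hP.hd.tri y' y (σ.tc b)
    rw [hP.hd.symm y' y] at h1
    unfold vec
    rw [if_pos hb, if_pos (by linarith)]
  · refine le_trans (le_of_eq ?_) (lsh_vec0 hP h y' s' b)
    unfold vec
    rw [if_neg hb]

theorem lsh_tok (hT : P.Tok σ r) {t : ℝ} (ht : 2 / 5 ≤ t) : ∃ b, w0 k / 2 ≤ P.vec σ r t b := by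
  obtain ⟨b, h1, h2⟩ := hT
  refine ⟨b, ?_⟩
  unfold vec
  rw [if_pos (by linarith)]
  exact h1

theorem U_grad (hP : P.OK) (h : P.TInv μ σ) (hy : P.d y r ≤ 1 / 10) :
    P.U σ r ≤ P.U σ y + 2 * (5 * P.d y r + 1 / P.G) * P.A σ r := by
  have hG : 0 < P.G := by have := hP.hG; omega
  obtain ⟨m, m1, m2, m3⟩ := lsh_exm hG (isD_nonneg hP.hd y r) hy
  have h1 := shift_up hG m (φ := fun j => P.ff σ r (rho P.G j)) (lsh_phi hP h r m3)
  have h2 : P.U σ r - P.U σ y ≤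
      ∑ j ∈ range P.G, nuw P.G j * (P.ff σ r (rho P.G j) - P.ff σ r (rho P.G (j + m))) := by
    unfold U
    rw [← sum_sub_distrib]
    refine sum_le_sum fun j _ => ?_
    rw [← mul_sub]
    refine mul_le_mul_of_nonneg_left (sub_le_sub_left (ff_anti hP h ?_) _) (nuw_nonneg _ _)
    rw [rho_add]
    linarith
  have h3 : 2 * ((m : ℝ) / P.G) * P.A σ r ≤ 2 * (5 * P.d y r + 1 / P.G) * P.A σ r :=
    mul_le_mul_of_nonneg_right (by linarith) (A_bd hP h r).1
  have h4 : P.A σ r = (∑ j ∈ range P.G, P.ff σ r (rho P.G j)) / P.G := rfl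
  rw [← h4] at h1
  linarith

theorem jac_move (hP : P.OK) (h : P.TInv μ σ) (hT : P.Tok σ r) (hy : P.d y r ≤ 1 / 10) {t : ℝ}
    (ht : 2 / 5 ≤ t) :
    (∑ b, |P.vec σ y t b - P.vec σ r t b|) / (∑ b, max (P.vec σ y t b) (P.vec σ r t b)) ≤
      3 * (P.ff σ r (t - P.d y r) - P.ff σ r (t + P.d y r)) := by
  have he := isD_nonneg hP.hd y r
  have hr := hP.hd.refl r
  have hs := hP.hd.symm r y
  have e : ∑ b, |P.vec σ y t b - P.vec σ r t b| =
      ∑ b, max (P.vec σ y t b) (P.vec σ r t b) - ∑ b, min (P.vec σ y t b) (P.vec σ r t b) := by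
    rw [← sum_sub_distrib]
    exact sum_congr rfl fun b _ => by rw [max_sub_min_eq_abs', abs_sub_comm]
  rw [e]
  obtain ⟨b, hb⟩ := lsh_tok hT ht
  refine lsh_log (w0_pos hP.hk) (Om_nonneg hP h r _) (sum_le_sum fun b _ => le_min ?_ ?_)
    (sum_le_sum fun b _ => min_le_max) (sum_le_sum fun b _ => max_le ?_ ?_) ?_
  · exact lsh_vec hP h (by linarith) b
  · exact lsh_vec hP h (by linarith) b
  · exact lsh_vec hP h le_rfl b
  · exact lsh_vec hP h (by linarith) b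
  · exact (hb.trans (le_max_right _ _)).trans (single_le_sum
      (f := fun b => max (P.vec σ y t b) (P.vec σ r t b))
      (fun b _ => (lsh_vec0 hP h r t b).trans (le_max_right _ _)) (mem_univ b))

theorem c2_move (hP : P.OK) (h : P.TInv μ σ) (hT : P.Tok σ r) (hy : P.d y r ≤ 1 / 10) :
    P.c2 σ σ y r ≤ 50 * P.d y r ^ 2 + 2 / P.G + 18 * (5 * P.d y r + 1 / P.G) * P.A σ r + P.ε := by
  have hG : 0 < P.G := by have := hP.hG; omega
  have hG' : (1 : ℝ) ≤ P.G := by exact_mod_cast hG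
  have hN : (0 : ℝ) < P.N := by exact_mod_cast hP.hN
  have he := isD_nonneg hP.hd y r
  have hr := hP.hd.refl r
  obtain ⟨m, m1, m2, m3⟩ := lsh_exm hG he hy
  set T : ℕ → ℝ := fun j =>
    (∑ ξ, ind (P.win ξ (P.vec σ y (rho P.G j)) ≠ P.win ξ (P.vec σ r (rho P.G j)))) / P.N with hT'
  have h1 : P.c2 σ σ y r ≤ ∑ j ∈ range P.G, nuw P.G j * T j := by
    rw [← Fin.sum_univ_eq_sum_range (fun j => nuw P.G j * T j)]
    refine sum_le_sum fun j _ => mul_le_mul_of_nonneg_left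
      (div_le_div_of_nonneg_right (sum_le_sum fun ξ _ => ind_mono fun hne heq => hne ?_) hN.le)
      (nuw_nonneg _ _)
    obtain ⟨b, hb⟩ := lsh_tok hT (rho_ge P.G j)
    have := hP.smp.ex ξ _ b ((half_pos (w0_pos hP.hk)).trans_le hb)
    obtain ⟨c, hc⟩ := Option.ne_none_iff_exists'.1 this
    unfold lab2
    rw [heq, hc]
    rfl
  have h2 : ∀ j, T j ≤ 1 := fun j => by
    rw [hT', div_le_one hN]
    exact (sum_le_sum fun ξ _ => ind_le_one _).trans (by simp)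
  have h3 : ∑ j ∈ range m, nuw P.G j * T j ≤ 50 * P.d y r ^ 2 + 2 / P.G := by
    refine (sum_le_sum fun j _ => mul_le_of_le_one_right (nuw_nonneg _ _) (h2 j)).trans ?_
    rw [nuw_range]
    have a1 : ((m : ℝ) / P.G) ^ 2 ≤ (5 * P.d y r + 1 / P.G) ^ 2 :=
      pow_le_pow_left₀ (by positivity) m2 2
    have a2 : (1 : ℝ) / P.G ≤ 1 := by rw [div_le_one (by linarith)]; exact hG'
    have a3 : (0 : ℝ) ≤ 1 / P.G := by positivity
    have a4 : (2 : ℝ) / P.G = 2 * (1 / P.G) := by ring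
    rw [a4]
    nlinarith [sq_nonneg (5 * P.d y r - 1 / P.G)]
  have h4 : ∑ j ∈ Ico m P.G, nuw P.G j * T j ≤ ∑ j ∈ Ico m P.G,
      (3 * (nuw P.G j * (P.ff σ r (rho P.G (j - m)) - P.ff σ r (rho P.G (j + m)))) +
        nuw P.G j * P.ε) := by
    refine sum_le_sum fun j hj => ?_
    have a1 := hP.smp.cut _ _ (vec_adm h y (rho P.G j)) (vec_adm h r (rho P.G j))
    have a2 := jac_move hP h hT hy (rho_ge P.G j)
    have a3 : P.ff σ r (rho P.G j - P.d y r) ≤ P.ff σ r (rho P.G (j - m)) := by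
      refine ff_anti hP h ?_
      have := rho_add P.G (j - m) m
      rw [Nat.sub_add_cancel (mem_Ico.1 hj).1] at this
      linarith
    have a4 : P.ff σ r (rho P.G (j + m)) ≤ P.ff σ r (rho P.G j + P.d y r) := by
      refine ff_anti hP h ?_
      rw [rho_add]
      linarith
    have a5 : T j ≤ 3 * (P.ff σ r (rho P.G (j - m)) - P.ff σ r (rho P.G (j + m))) + P.ε := by
      refine a1.trans ?_
      linarith
    have := mul_le_mul_of_nonneg_left a5 (nuw_nonneg P.G j)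
    linarith
  rw [sum_add_distrib, ← mul_sum, ← sum_mul] at h4
  have h5 := shift_both hG m (φ := fun j => P.ff σ r (rho P.G j)) (lsh_phi hP h r m3)
  have h6 : P.A σ r = (∑ j ∈ range P.G, P.ff σ r (rho P.G j)) / P.G := rfl
  rw [← h6] at h5
  have h7 : ∑ j ∈ Ico m P.G, nuw P.G j ≤ 1 := by
    rw [← nuw_sum hG]
    exact sum_le_sum_of_subset_of_nonneg (fun j hj => mem_range.2 (mem_Ico.1 hj).2)
      fun j _ _ => nuw_nonneg _ _
  have h8 := mul_le_of_le_one_left hP.hε h7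
  have h9 : 6 * ((m : ℝ) / P.G) * P.A σ r ≤ 6 * (5 * P.d y r + 1 / P.G) * P.A σ r :=
    mul_le_mul_of_nonneg_right (by linarith) (A_bd hP h r).1
  rw [← sum_range_add_sum_Ico _ m3] at h1
  linarith

theorem psi_move (hP : P.OK) (h : P.TInv μ σ) (hy : P.d y r ≤ 1 / 10) :
    psi (σ.sh.m P.d r) * P.Pt σ r - psi (σ.sh.m P.d y) * P.Pt σ y ≤
      P.d y r * (dep (σ.sh.m P.d r) * (2000 * P.A σ r + 300)) + (800 * Lk k + 100) * P.d y r ^ 2 +
        32 * Lk k / P.G := by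
  have he := isD_nonneg hP.hd y r
  have s1 := m_lip hP.hd σ.sh r y
  rw [hP.hd.symm r y] at s1
  have s2 := m_lip hP.hd σ.sh y r
  have p1 := psi_lip he s1
  have p2 := psi_le_dep he s2
  have p3 := psi_le_one (σ.sh.m P.d y)
  have p4 := psi_nonneg (σ.sh.m P.d y)
  obtain ⟨d0, d1⟩ := dep_bd (σ.sh.m P.d r)
  obtain ⟨A0, A1⟩ := A_bd hP h r
  have q0 := (Pt_bd hP h r).1
  have q1 : P.Pt σ r ≤ 8 * P.A σ r + 1 := by
    unfold Pt
    linarith [(U_bd hP h r).2.2, (wf_bd (P := P) σ r).2]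
  have q2 : P.Pt σ r - P.Pt σ y ≤
      (40 * P.d y r * P.A σ r + 10 * P.d y r) + 8 * (1 / P.G) * P.A σ r := by
    unfold Pt
    linarith [U_grad hP h hy, wf_lip hP σ y r]
  have g0 : (0 : ℝ) ≤ 1 / P.G := by positivity
  rw [show 32 * Lk k / P.G = 32 * Lk k * (1 / P.G) by ring]
  set e := P.d y r
  set a := P.A σ r
  set g : ℝ := 1 / P.G
  set D := dep (σ.sh.m P.d r)
  set u := psi (σ.sh.m P.d r)
  set u' := psi (σ.sh.m P.d y)
  have r1 : (u - u') * P.Pt σ r ≤ 200 * D * e * (8 * a + 1) :=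
    (mul_le_mul_of_nonneg_right (by linarith) q0).trans
      (mul_le_mul_of_nonneg_left q1 (by positivity))
  have r2 := mul_le_mul_of_nonneg_left q2 p4
  have r3 : u' * (40 * e * a + 10 * e) ≤ (10 * D + 10 * e) * (40 * e * a + 10 * e) :=
    mul_le_mul_of_nonneg_right p2 (by positivity)
  have r4 : u' * (8 * g * a) ≤ 8 * g * a := mul_le_of_le_one_left (by positivity) p3
  have r5 : g * a ≤ g * (2 * Lk k) := mul_le_mul_of_nonneg_left A1 g0
  have r6 : e ^ 2 * a ≤ e ^ 2 * (2 * Lk k) := mul_le_mul_of_nonneg_left A1 (sq_nonneg e)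
  have r7 : 0 ≤ g * a := mul_nonneg g0 A0
  nlinarith

end Par

end Vale.Agent.P304.Sq
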