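import Vale.Agent.P304.Sq.LDefs

/-! P304 tight bound, LEVEL: existence of a consistent sampler (min-hash).

PLAN.  Let n = card tau, Q : Nat with Q >= 1 and n / (Q mu) <= eps.  Slots: tau x Fin Q.  Active slots of a weight vector a:
act a = filter (fun s => (s.2 : Real) < Q * a s.1); for 0 <= a b <= 1 the number of active slots above b is ceil(Q a b).
Randomness: permutations pi : Equiv.Perm (Fin m), m = card of the slots, slots numbered by e := Fintype.equivFin; transport the finite nonempty type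
of permutations to Fin N by Fintype.equivFin.  first pi S = the element of a nonempty finset S minimizing pi (e s) (exists_min_image; unique by
injectivity); win pi a = none if act a is empty, otherwise some (first pi (act a)).1.
minhash: for s, s' in S the sets {pi | first pi S = s} and {pi | first pi S = s'} have the same cardinality (precompose with the swap of e s and e s'),
so for B inside S: card {pi | first pi S in B} * card S = card B * N.
If first pi (A union A') lies in A inter A' then first pi A = first pi A'.  So P(win differs) <= (card(A union A') - card(A inter A')) / card(A union A'),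
card (A union A') = sum_b ceil(Q max) >= Q sum max, card union - card inter = sum_b |ceil(Q a b) - ceil(Q a' b)| <= Q sum |a - a'| + n,
and sum max >= mu unless a = a' = 0 (then both picks are none and the left side is 0). -/

namespace Vale.Agent.P304.Sq

open Finset Lv

/-- the element of `S` of smallest rank -/
noncomputable def smpFst {σ : Type} {m : ℕ} (π : σ ≃ Fin m) (S : Finset σ) : Option σ :=
  if h : S.Nonempty then some (S.exists_min_image π h).choose else none

theorem smp_some {σ : Type} {m : ℕ} (π : σ ≃ Fin m) (S : Finset σ) (s : σ) :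
    smpFst π S = some s ↔ s ∈ S ∧ ∀ t ∈ S, π s ≤ π t := by
  unfold smpFst
  split_ifs with h
  · have h1 := (S.exists_min_image π h).choose_spec
    constructor
    · intro h2
      rwa [Option.some.inj h2] at h1
    · exact fun h2 => congrArg _ (π.injective (le_antisymm (h1.2 _ h2.1) (h2.2 _ h1.1)))
  · exact ⟨fun h2 => by simp at h2, fun h2 => (h ⟨s, h2.1⟩).elim⟩

theorem smp_ex {σ : Type} {m : ℕ} (π : σ ≃ Fin m) {S : Finset σ} (h : S.Nonempty) :
    ∃ s ∈ S, smpFst π S = some s := by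
  obtain ⟨s, h1, h2⟩ := S.exists_min_image π h
  exact ⟨s, h1, (smp_some π S s).2 ⟨h1, h2⟩⟩

theorem smp_sym {σ : Type} [Fintype σ] [DecidableEq σ] {m : ℕ} {S : Finset σ} {s s' : σ}
    (h : s ∈ S) (h' : s' ∈ S) :
    ∑ π : σ ≃ Fin m, ind (smpFst π S = some s) ≤ ∑ π : σ ≃ Fin m, ind (smpFst π S = some s') := by
  rw [← Equiv.sum_comp (Equiv.equivCongr (Equiv.swap s s') (Equiv.refl (Fin m)))]
  refine sum_le_sum fun π _ => ind_mono fun h1 => ?_
  rw [smp_some] at h1 ⊢
  refine ⟨h', fun t ht => ?_⟩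
  have h2 := h1.2 (Equiv.swap s s' t) (by
    rw [Equiv.swap_apply_def]
    split_ifs <;> assumption)
  simpa using h2

theorem smp_minhash {σ : Type} [Fintype σ] [DecidableEq σ] {m : ℕ} (A A' : Finset σ) :
    (∑ π : σ ≃ Fin m, ind (smpFst π A ≠ smpFst π A')) * #(A ∪ A') ≤
      ((#(A ∪ A') : ℝ) - #(A ∩ A')) * Fintype.card (σ ≃ Fin m) := by
  have h0 : A ∩ A' ⊆ A ∪ A' := inter_subset_union
  have h1 : ∀ π : σ ≃ Fin m, ∑ s ∈ A ∪ A', ind (smpFst π (A ∪ A') = some s) ≤ 1 := fun π => by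
    rcases (A ∪ A').eq_empty_or_nonempty with h | h
    · simp [h]
    obtain ⟨s, hs, h2⟩ := smp_ex π h
    rw [sum_eq_single s (fun t _ ht => ind_neg (by rw [h2]; simpa using ht.symm)) fun h => (h hs).elim]
    exact ind_le_one _
  have h2 : ∀ π : σ ≃ Fin m, ind (smpFst π A ≠ smpFst π A') ≤
      ∑ s ∈ (A ∪ A') \ (A ∩ A'), ind (smpFst π (A ∪ A') = some s) := fun π => by
    by_cases h : smpFst π A = smpFst π A'
    · rw [ind_neg (not_not.2 h)]
      exact sum_nonneg fun _ _ => ind_nonneg _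
    have h3 : (A ∪ A').Nonempty := by
      by_contra h3
      rw [not_nonempty_iff_eq_empty, union_eq_empty] at h3
      exact h (by rw [h3.1, h3.2])
    obtain ⟨s, hs, h4⟩ := smp_ex π h3
    have h5 : s ∉ A ∩ A' := fun h5 => by
      have h6 := ((smp_some π _ s).1 h4).2
      rw [mem_inter] at h5
      exact h (((smp_some π A s).2 ⟨h5.1, fun t ht => h6 t (mem_union_left _ ht)⟩).trans
        ((smp_some π A' s).2 ⟨h5.2, fun t ht => h6 t (mem_union_right _ ht)⟩).symm)
    rw [ind_pos h, ← ind_pos h4]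
    exact single_le_sum (f := fun s => ind (smpFst π (A ∪ A') = some s)) (fun _ _ => ind_nonneg _)
      (mem_sdiff.2 ⟨hs, h5⟩)
  have h3 : ∀ s ∈ (A ∪ A') \ (A ∩ A'), (∑ π : σ ≃ Fin m, ind (smpFst π (A ∪ A') = some s)) *
      #(A ∪ A') ≤ Fintype.card (σ ≃ Fin m) := fun s hs => by
    have h4 := sum_le_sum fun s' (hs' : s' ∈ A ∪ A') => smp_sym (m := m) (mem_sdiff.1 hs).1 hs'
    rw [sum_const, nsmul_eq_mul, mul_comm, sum_comm] at h4
    refine h4.trans ((sum_le_sum fun π _ => h1 π).trans (by simp))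
  have h4 := mul_le_mul_of_nonneg_right (sum_le_sum fun π (_ : π ∈ univ) => h2 π)
    (Nat.cast_nonneg (α := ℝ) #(A ∪ A'))
  rw [sum_comm, sum_mul ((A ∪ A') \ (A ∩ A'))] at h4
  refine h4.trans ((sum_le_sum h3).trans (le_of_eq ?_))
  rw [sum_const, nsmul_eq_mul, card_sdiff_of_subset h0, Nat.cast_sub (card_le_card h0)]

/-- active slots -/
noncomputable def smpAct {τ : Type} [Fintype τ] (Q : ℕ) (a : τ → ℝ) : Finset (τ × Fin Q) :=
  univ.filter fun s => ((s.2 : ℕ) : ℝ) < Q * a s.1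

theorem smp_card {τ : Type} [Fintype τ] (Q : ℕ) {a : τ → ℝ} (h0 : ∀ b, 0 ≤ a b) (h1 : ∀ b, a b ≤ 1) :
    Q * ∑ b, a b ≤ #(smpAct Q a) ∧ (#(smpAct Q a) : ℝ) ≤ Q * ∑ b, a b + Fintype.card τ := by
  have h2 : #(smpAct Q a) = ∑ b, ⌈Q * a b⌉₊ := by
    rw [smpAct, card_filter, Fintype.sum_prod_type]
    refine sum_congr rfl fun b _ => ?_
    rw [← card_filter]
    simp only [← Nat.lt_ceil, Fin.card_filter_val_lt]
    exact min_eq_right (Nat.ceil_le.2 (mul_le_of_le_one_right (Nat.cast_nonneg Q) (h1 b)))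
  rw [h2, Nat.cast_sum, mul_sum]
  refine ⟨sum_le_sum fun b _ => Nat.le_ceil _, (sum_le_sum fun b _ =>
    (Nat.ceil_lt_add_one (mul_nonneg (Nat.cast_nonneg Q) (h0 b))).le).trans (le_of_eq ?_)⟩
  simp [sum_add_distrib]

theorem exists_smp (τ : Type) [Fintype τ] [DecidableEq τ] {μ ε : ℝ} (hμ : 0 < μ) (hε : 0 < ε) :
    ∃ N : ℕ, 0 < N ∧ ∃ win : Fin N → (τ → ℝ) → Option τ, SmpOK μ ε win := by
  obtain ⟨Q, hQ⟩ := exists_nat_gt (Fintype.card τ / (μ * ε))
  have hQ0 : (0 : ℝ) < Q := lt_of_le_of_lt (by positivity) hQ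
  rw [div_lt_iff₀ (by positivity)] at hQ
  have : Nonempty (τ × Fin Q ≃ Fin (Fintype.card (τ × Fin Q))) := ⟨Fintype.equivFin _⟩
  have e := (Fintype.equivFin (τ × Fin Q ≃ Fin (Fintype.card (τ × Fin Q)))).symm
  refine ⟨_, Fintype.card_pos, fun ξ a => (smpFst (e ξ) (smpAct Q a)).map Prod.fst, ?_, ?_, ?_⟩
  · intro ξ a b h
    obtain ⟨s, h1, rfl⟩ := Option.map_eq_some_iff.1 h
    have h2 := (mem_filter.1 ((smp_some _ _ s).1 h1).1).2
    exact pos_of_mul_pos_right (lt_of_le_of_lt (Nat.cast_nonneg _) h2) hQ0.le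
  · intro ξ a b h
    obtain ⟨s, -, h1⟩ := smp_ex (e ξ) (S := smpAct Q a) ⟨(b, ⟨0, by exact_mod_cast hQ0⟩),
      mem_filter.2 ⟨mem_univ _, by simpa using mul_pos hQ0 h⟩⟩
    simp [h1]
  intro a a' ha ha'
  have g0 : ∀ {a : τ → ℝ}, Adm μ a → ∀ b, 0 ≤ a b ∧ a b ≤ 1 := fun ha b => by
    rcases ha b with h | h
    · rw [h]; norm_num
    · exact ⟨hμ.le.trans h.1, h.2⟩
  have g1 : 0 ≤ ∑ b, |a b - a' b| := sum_nonneg fun _ _ => abs_nonneg _
  have g2 : ∀ b, 0 ≤ max (a b) (a' b) := fun b => (g0 ha b).1.trans (le_max_left _ _)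
  by_cases h : a = a'
  · simp only [h, ne_eq, not_true, ind_neg not_false, sum_const_zero, zero_div, sub_self, abs_zero]
    linarith
  have g3 : μ ≤ ∑ b, max (a b) (a' b) := by
    obtain ⟨b, hb⟩ := Function.ne_iff.1 h
    refine le_trans ?_ (single_le_sum (fun b _ => g2 b) (mem_univ b))
    rcases ha b with h1 | h1
    · rcases ha' b with h2 | h2
      · exact (hb (h1.trans h2.symm)).elim
      · exact h2.1.trans (le_max_right _ _)
    · exact h1.1.trans (le_max_left _ _)
  have h1 := smp_minhash (m := Fintype.card (τ × Fin Q)) (smpAct Q a) (smpAct Q a')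
  have h2 : smpAct Q a ∪ smpAct Q a' = smpAct Q fun b => max (a b) (a' b) := by
    ext s
    simp [smpAct, mul_max_of_nonneg _ _ hQ0.le]
  have h3 : smpAct Q a ∩ smpAct Q a' = smpAct Q fun b => min (a b) (a' b) := by
    ext s
    simp [smpAct, mul_min_of_nonneg _ _ hQ0.le]
  obtain ⟨h4, h5⟩ := smp_card Q g2 fun b => max_le (g0 ha b).2 (g0 ha' b).2
  have h6 := (smp_card Q (a := fun b => min (a b) (a' b)) (fun b => le_min (g0 ha b).1 (g0 ha' b).1)
    fun b => (min_le_left _ _).trans (g0 ha b).2).1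
  have h7 : ∑ b, |a b - a' b| = ∑ b, max (a b) (a' b) - ∑ b, min (a b) (a' b) := by
    rw [← sum_sub_distrib]
    exact sum_congr rfl fun b _ => (max_sub_min_eq_abs' _ _).symm
  have h8 : ∑ ξ, ind ((smpFst (e ξ) (smpAct Q a)).map Prod.fst ≠
      (smpFst (e ξ) (smpAct Q a')).map Prod.fst) ≤
      ∑ π : τ × Fin Q ≃ Fin (Fintype.card (τ × Fin Q)),
        ind (smpFst π (smpAct Q a) ≠ smpFst π (smpAct Q a')) := by
    rw [← Equiv.sum_comp e]
    exact sum_le_sum fun ξ _ => ind_mono fun h h' => h (by rw [h'])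
  have h9 : 0 ≤ ∑ π : τ × Fin Q ≃ Fin (Fintype.card (τ × Fin Q)),
      ind (smpFst π (smpAct Q a) ≠ smpFst π (smpAct Q a')) := sum_nonneg fun _ _ => ind_nonneg _
  have hN : (0 : ℝ) < Fintype.card (τ × Fin Q ≃ Fin (Fintype.card (τ × Fin Q))) := by
    exact_mod_cast Fintype.card_pos
  rw [h2, h3] at h1
  refine (div_le_div_of_nonneg_right h8 hN.le).trans ?_
  have hM : 0 < ∑ b, max (a b) (a' b) := hμ.trans_le g3
  rw [div_add' _ _ _ hM.ne', div_le_div_iff₀ hN hM]
  refine le_of_mul_le_mul_left ?_ hQ0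
  generalize (∑ π : τ × Fin Q ≃ Fin (Fintype.card (τ × Fin Q)),
    ind (smpFst π (smpAct Q a) ≠ smpFst π (smpAct Q a'))) = X at h1 h9 ⊢
  generalize (Fintype.card (τ × Fin Q ≃ Fin (Fintype.card (τ × Fin Q))) : ℝ) = N at h1 hN ⊢
  have k1 := mul_le_mul_of_nonneg_left h4 h9
  have k2 := mul_le_mul_of_nonneg_left g3 (mul_pos hQ0 hε).le
  have k3 : (#(smpAct Q fun b => max (a b) (a' b)) : ℝ) - #(smpAct Q fun b => min (a b) (a' b)) ≤
      Q * (∑ b, |a b - a' b| + ε * ∑ b, max (a b) (a' b)) := by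
    rw [h7]
    nlinarith
  have k4 := mul_le_mul_of_nonneg_right k3 hN.le
  nlinarith

end Vale.Agent.P304.Sq
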