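import Vale.Agent.P304.Sq.LClaim
import Vale.Agent.P304.Sq.LIns
import Vale.Agent.P304.Sq.LMove

/-! P304 tight bound, LEVEL: one step. -/

set_option linter.unusedSectionVars false

namespace Vale.Agent.P304.Sq

open Finset Lv

variable {ι X Ω : Type} [Fintype ι] [LinearOrder ι] [Nonempty ι] [Fintype Ω] {k : ℕ} {P : Par ι X k}
  {σ : L2 ι X} {μ : ℝ} {w : Ω → ℝ} {v : ι}

namespace Par

theorem step2 (hP : P.OK) (h : P.Inv μ σ) (lo : P.μ ≤ μ / 2) (hi : μ ≤ w0 k) (hv : Fresh σ v)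
    (hw : ∀ ω, 0 ≤ w ω) (hw1 : ∑ ω, w ω = 1) (x : Ω → Fin k → X) (r : X) (mv : Ω → Fin k) :
    ∃ σ' : L2 ι X, P.Inv (μ / 2) σ' ∧ (∀ u, u ≠ v → Fresh σ u → Fresh σ' u) ∧
      ∑ ω, w ω * (∑ l, P.Ec σ σ' (x ω l) + P.Mc σ' (x ω (mv ω)) r) ≤
        11 * 10 ^ 6 * (Lk k * ∑ ω, w ω * (min (P.d (x ω (mv ω)) r) 1) ^ 2 +
          Lk k * (min (∑ ω, w ω * P.d (x ω (mv ω)) r) 1) ^ 2 +
          (budget P.d w x r + budget2 P.d w x r) * ∑ ω, w ω * P.d (x ω (mv ω)) r) +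
        (10 ^ 5 * (k : ℝ) ^ 2 / P.G + (k + 1) * P.ε) := by
  have hd := hP.hd
  have hk' : (2 : ℝ) ≤ k := by exact_mod_cast hP.hk
  have hG : (0 : ℝ) < P.G := by exact_mod_cast (by have := hP.hG; omega : 0 < P.G)
  have hL := two_le_Lk (k := k) (by have := hP.hk; omega)
  have hε := hP.hε
  have hA : 0 ≤ ∑ ω, w ω * (min (P.d (x ω (mv ω)) r) 1) ^ 2 :=
    sum_nonneg fun ω _ => mul_nonneg (hw ω) (by positivity)
  have hdb : 0 ≤ ∑ ω, w ω * P.d (x ω (mv ω)) r :=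
    sum_nonneg fun ω _ => mul_nonneg (hw ω) (isD_nonneg hd _ _)
  have hT := budget_nonneg (x := x) (r := r) hd hw
  have hT2 := budget2_nonneg (x := x) (r := r) hP hw hw1
  have hD0 := m_nonneg hd h.t1 r
  have hclaim : ∀ a, ∑ ω, w ω * P.Mc (P.claim2 σ a r v) (x ω (mv ω)) r ≤
      ∑ ω, w ω * (min (P.d (x ω (mv ω)) r) 1) ^ 2 := fun a =>
    sum_le_sum fun ω _ => mul_le_mul_of_nonneg_left (Mc_claim2 hP h lo hi hv.2 a r _) (hw ω)
  have e1 : (1 : ℝ) / P.G * k ≤ 10 ^ 5 * (k : ℝ) ^ 2 / P.G := by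
    rw [one_div_mul_eq_div]
    gcongr
    nlinarith
  have e2 : 80000 * (k : ℝ) ^ 2 / P.G ≤ 10 ^ 5 * (k : ℝ) ^ 2 / P.G := by
    gcongr
    norm_num
  have e3 : (0 : ℝ) ≤ 1 / P.G * k := by positivity
  have e4 : 0 ≤ (k + 1) * P.ε := by positivity
  simp only [mul_add (w _), sum_add_distrib]
  set A := ∑ ω, w ω * (min (P.d (x ω (mv ω)) r) 1) ^ 2
  set db := ∑ ω, w ω * P.d (x ω (mv ω)) r
  have b1 : 2 * A ≤ Lk k * A := by gcongr
  have b2 : 2 * (min db 1) ^ 2 ≤ Lk k * (min db 1) ^ 2 := by gcongr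
  have b3 : 0 ≤ (min db 1) ^ 2 := by positivity
  have b4 : 0 ≤ (budget P.d w x r + budget2 P.d w x r) * db := by positivity
  by_cases g1 : σ.t1.m P.d r ≤ 1 / 2 ∧ 12 * shellI P.d w x r (σ.t1.m P.d r / 3) ≤
      σ.t1.m P.d r / 3 * ballMass P.d w x r (σ.t1.m P.d r / 3)
  · obtain ⟨g1, g2⟩ := g1
    refine ⟨P.claim2 σ (σ.t1.arg P.d r) r v, claim2_inv hP h lo hi hv.2 _ _, fun u hu hf => ?_, ?_⟩
    · refine claim2_fresh ?_ hu hf r
      rintro rfl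
      have h1 := z_arg (d := P.d) σ.t1 r
      have h2 := isD_nonneg hd r (σ.t1.c (σ.t1.arg P.d r))
      have h3 := hf.1
      unfold Lv.St.z at h1
      linarith
    · have h1 := avg_split (d := P.d) (x := x) (r := r) hw (a := σ.t1.m P.d r / 3)
        (α := 1000 * σ.t1.m P.d r ^ 2 / 3) (β := 8000 * σ.t1.m P.d r) (γ := 1 / P.G) (by linarith)
        (fun y => P.Ec σ (P.claim2 σ (σ.t1.arg P.d r) r v) y)
        (fun y hy => EcA_near hP h lo hi hv.2 g1 hy) (fun y _ _ => EcA_mid hP h lo hi hv.2 g1 y)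
        (fun y hy => Ec_claim_far2 hP h lo hi hv.2 (Or.inl (by rw [z_arg]; exact g1)) hy)
      have h2 := hclaim (σ.t1.arg P.d r)
      have h3 := ballMass_nonneg (d := P.d) (x := x) (r := r) hw (σ.t1.m P.d r / 3)
      have h4 := ballMass_le (d := P.d) (x := x) (r := r) hw hw1 11
      have h5 : (1 : ℝ) / P.G * (ballMass P.d w x r 11 - ballMass P.d w x r (σ.t1.m P.d r / 3)) ≤
          1 / P.G * k := mul_le_mul_of_nonneg_left (by linarith) (by positivity)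
      have h6 : σ.t1.m P.d r * (12 * shellI P.d w x r (σ.t1.m P.d r / 3)) ≤
          σ.t1.m P.d r * (σ.t1.m P.d r / 3 * ballMass P.d w x r (σ.t1.m P.d r / 3)) :=
        mul_le_mul_of_nonneg_left g2 hD0
      have h7 : 0 ≤ σ.t1.m P.d r ^ 2 * ballMass P.d w x r (σ.t1.m P.d r / 3) := by positivity
      nlinarith
  by_cases g3 : 1 / 2 < σ.t1.m P.d r ∧ 23 * (ballMass P.d w x r 11 - ballMass P.d w x r (1 / 10)) ≤
      2 * ballMass P.d w x r (1 / 10)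
  · obtain ⟨g3, g4⟩ := g3
    refine ⟨P.claim2 σ v r v, claim2_inv hP h lo hi hv.2 _ _,
      fun u hu hf => claim2_fresh hu hu hf r, ?_⟩
    have h1 := avg_split (d := P.d) (x := x) (r := r) hw (a := 1 / 10)
      (α := 149) (β := 0) (γ := 1018) (by norm_num)
      (fun y => P.Ec σ (P.claim2 σ v r v) y)
      (fun y hy => EcB_near hP h lo hi hv.2 v g3 hy)
      (fun y _ _ => by simpa using Ec_claim_le hP h lo hi hv.2 v r y)
      (fun y hy => Ec_claim_far2 hP h lo hi hv.2 (Or.inr hv.1) hy)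
    have h2 := hclaim v
    have h3 := ballMass_nonneg (d := P.d) (x := x) (r := r) hw (1 / 10)
    linarith
  · obtain ⟨σ', i1, i2, i3, i4, i5, i6⟩ := noclaim hP h lo hi hv.2 hw hw1 x r mv
    refine ⟨σ', i1, i3, ?_⟩
    have h1 := unclaimed (x := x) (r := r) hd hw hw1 mv hD0 (fun a b => g1 ⟨a, b⟩)
      (fun a b => g3 ⟨a, b⟩)
    have h2 := Mc_avg hP i1 i5 hw hw1 mv i4 (by rw [i2]; exact h1)
    nlinarith

end Par

end Vale.Agent.P304.Sq
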