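import Vale.Agent.P304.Sq.LBasic

/-! P304 tight bound, LEVEL: insertion of tokens.

PLAN.  s' = P.ins s Jp y th v.  New indices (v,u), Jp u, had weight 0 (fr).  Every other index keeps its place and has weight tw or (1-th) tw.
By sep at most one u with Jp u has d x (y u) <= 4/5.  Write a = vec s x r, a' = vec s' x r, cov = exists u, Jp u and d x (y u) <= r.
ins_tinv: th >= w0 >= mu; ball: if cov (r = 4/5) every old token within 4/5 of x is within 8/5 of y u, so Om' <= (1-th) Om + th; otherwise Om' <= Om.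
ins_jac (r <= 4/5): sum |a - a'| <= th Om + th ind cov, sum max a a' = Om + th ind cov; so the quotient is <= th + ind cov * th/(Om + th).
ins_main, for each j (r = rho G j, lab2 differs only if win differs, smp.cut with vec_adm): if not cov: cut <= th + eps, ff' - ff <= -log(1-th) <= 2 th.
If cov: Om' + w0 >= (1-th)(Om + w0 + th), so ff' - ff <= 2 th - lg with lg = log(1 + th/(Om+w0)) >= th/(Om+w0+th) >= th/(2(Om+th)) (w0 <= th);
cut + 4(ff' - ff) <= 9 th + eps - 2 lg, lg >= 0, and lg >= log 9 >= 2 if 8 (Om + w0) <= th.  Average with nuw (nuw_sum).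
ins_wf: compare the terms of the infimum: unchanged place, (1 - (1-th) t)^+ <= (1 - t)^+ + th for t >= 0; if the old infimum is attained at a new index
the old term is >= 1.  ins_far: vec s' x r = vec s x r for r <= 3/5 (tokens within 3/5 of x are farther than 8/5 from every y u), so c2 = 0, U' = U;
in wf only tokens within 1/5 of x give terms below 1 and they are not aged.  ins_near: Om' >= 1/2 at all radii rho >= 2/5, log 2 <= 3/4. -/

set_option linter.unusedSectionVars false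

namespace Vale.Agent.P304.Sq

open Finset Lv

variable {ι X : Type} [Fintype ι] [LinearOrder ι] [Nonempty ι] {k : ℕ} {P : Par ι X k}
  {σ σ' : L2 ι X} {μ : ℝ}

namespace Par

variable {Jp : ι → Prop} {y : ι → X} {θ : ℝ} {v : ι}

theorem tok_cases (σ : L2 ι X) (Jp : ι → Prop) (y : ι → X) (θ : ℝ) (v : ι) (b : ι × ι) :
    ((b.1 = v ∧ Jp b.2) ∧ (P.ins σ Jp y θ v).tc b = y b.2 ∧ (P.ins σ Jp y θ v).tw b = θ) ∨
    (¬(b.1 = v ∧ Jp b.2) ∧ (P.ins σ Jp y θ v).tc b = σ.tc b ∧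
      (((∃ u, Jp u ∧ P.d (σ.tc b) (y u) ≤ 8 / 5) ∧ (P.ins σ Jp y θ v).tw b = (1 - θ) * σ.tw b) ∨
        ((¬∃ u, Jp u ∧ P.d (σ.tc b) (y u) ≤ 8 / 5) ∧ (P.ins σ Jp y θ v).tw b = σ.tw b))) := by
  by_cases h1 : b.1 = v ∧ Jp b.2
  · exact .inl ⟨h1, if_pos h1, if_pos h1⟩
  refine .inr ⟨h1, if_neg h1, ?_⟩
  by_cases h2 : ∃ u, Jp u ∧ P.d (σ.tc b) (y u) ≤ 8 / 5
  · exact .inl ⟨h2, (if_neg h1).trans (if_pos h2)⟩
  · exact .inr ⟨h2, (if_neg h1).trans (if_neg h2)⟩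

theorem tok_pos (h : P.InsOK μ σ Jp y θ v) : 0 < θ := (w0_pos h.ok.hk).trans_le h.lb

theorem tok_zero (h : P.InsOK μ σ Jp y θ v) {b : ι × ι} (hb : b.1 = v) : σ.tw b = 0 := by
  have := h.fr b.2
  rwa [← hb] at this

/-- weight of the new token `b` within distance `s` of `x` -/
noncomputable def tokN (P : Par ι X k) (Jp : ι → Prop) (y : ι → X) (θ : ℝ) (v : ι) (x : X) (s : ℝ)
    (b : ι × ι) : ℝ := θ * ind ((b.1 = v ∧ Jp b.2) ∧ P.d x (y b.2) ≤ s)

theorem tok_pt (h : P.InsOK μ σ Jp y θ v) (x : X) (s : ℝ) (b : ι × ι) : 0 ≤ P.vec σ x s b ∧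
    (1 - θ) * P.vec σ x s b + P.tokN Jp y θ v x s b ≤ P.vec (P.ins σ Jp y θ v) x s b ∧
    P.vec (P.ins σ Jp y θ v) x s b ≤ P.vec σ x s b + P.tokN Jp y θ v x s b ∧
    (P.tokN Jp y θ v x s b = 0 ∨ P.vec σ x s b = 0) := by
  have h0 := tw_nonneg h.ok h.inv b
  have h1 := mul_nonneg (tok_pos h).le h0
  unfold vec tokN
  rcases tok_cases (P := P) σ Jp y θ v b with ⟨n, e1, e⟩ | ⟨n, e1, ⟨-, e⟩ | ⟨-, e⟩⟩ <;> rw [e1, e]
  · rw [tok_zero h n.1, ite_self]
    split_ifs with h2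
    · simp [ind_pos (And.intro n h2)]
    · simp [ind_neg fun h' : _ ∧ _ => h2 h'.2]
  all_goals
    rw [ind_neg fun h' => n h'.1]
    split_ifs
    · exact ⟨h0, by linarith, by linarith, .inl (mul_zero _)⟩
    · simp

theorem tok_cov (h : P.InsOK μ σ Jp y θ v) (x : X) {s : ℝ} (hs : s ≤ 4 / 5)
    (hc : ∃ u, Jp u ∧ P.d x (y u) ≤ s) (b : ι × ι) :
    P.vec (P.ins σ Jp y θ v) x s b ≤ (1 - θ) * P.vec σ x s b + P.tokN Jp y θ v x s b := by
  rcases tok_cases (P := P) σ Jp y θ v b with ⟨n, -, -⟩ | ⟨n, e1, ⟨-, e⟩ | ⟨h1, -⟩⟩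
  · have := (tok_pt h x s b).2.2.1
    rwa [show P.vec σ x s b = 0 by simp [vec, tok_zero h n.1], ← mul_zero (1 - θ),
      ← show P.vec σ x s b = 0 by simp [vec, tok_zero h n.1]] at this
  · unfold vec tokN
    rw [e1, e, ind_neg fun h' => n h'.1]
    split_ifs <;> simp
  · unfold vec tokN
    obtain ⟨u, hu, hx⟩ := hc
    have h2 : ¬P.d x (σ.tc b) ≤ s := fun h2 => h1 ⟨u, hu, by
      linarith [h.ok.hd.tri (σ.tc b) x (y u), h.ok.hd.symm x (σ.tc b)]⟩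
    rw [e1, ind_neg fun h' => n h'.1, if_neg h2, if_neg h2]
    simp

theorem tok_N_nonneg (h : P.InsOK μ σ Jp y θ v) (x : X) (s : ℝ) (b : ι × ι) :
    0 ≤ P.tokN Jp y θ v x s b := mul_nonneg (tok_pos h).le (ind_nonneg _)

theorem tok_sum_ge (h : P.InsOK μ σ Jp y θ v) (x : X) (s : ℝ) :
    θ * ind (∃ u, Jp u ∧ P.d x (y u) ≤ s) ≤ ∑ b, P.tokN Jp y θ v x s b := by
  by_cases hc : ∃ u, Jp u ∧ P.d x (y u) ≤ s
  · obtain ⟨u, hu⟩ := id hc
    refine le_trans ?_ (single_le_sum (fun b _ => tok_N_nonneg h x s b) (mem_univ (v, u)))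
    rw [tokN, ind_pos hc, ind_pos ⟨⟨rfl, hu.1⟩, hu.2⟩]
  · rw [ind_neg hc, mul_zero]
    exact sum_nonneg fun b _ => tok_N_nonneg h x s b

theorem tok_sum_le (h : P.InsOK μ σ Jp y θ v) (x : X) {s : ℝ} (hs : s ≤ 4 / 5) :
    ∑ b, P.tokN Jp y θ v x s b ≤ θ * ind (∃ u, Jp u ∧ P.d x (y u) ≤ s) := by
  by_cases hc : ∃ u, Jp u ∧ P.d x (y u) ≤ s
  · obtain ⟨u, hu⟩ := id hc
    rw [sum_eq_single (v, u) (fun b _ hb => ?_) (by simp), tokN, ind_pos hc,
      ind_pos ⟨⟨rfl, hu.1⟩, hu.2⟩]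
    rw [tokN, ind_neg, mul_zero]
    rintro ⟨⟨h1, h2⟩, h3⟩
    have := h.sep _ _ h2 hu.1 fun e => hb (Prod.ext h1 e)
    linarith [h.ok.hd.tri (y b.2) x (y u), h.ok.hd.symm x (y b.2), hu.2]
  · rw [ind_neg hc, mul_zero]
    exact sum_nonpos fun b _ => by rw [tokN, ind_neg fun h' => hc ⟨_, h'.1.2, h'.2⟩, mul_zero]

theorem ins_tinv (h : P.InsOK μ σ Jp y θ v) : P.TInv (μ / 2) (P.ins σ Jp y θ v) := by
  have hμ := h.ok.hμ
  have h1 := h.lo
  have h2 := h.hi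
  have h3 := h.lb
  have h4 := h.ub
  refine ⟨fun b => ?_, fun x => ?_, h.lo⟩
  · rcases tok_cases (P := P) σ Jp y θ v b with ⟨-, -, e⟩ | ⟨-, -, ⟨-, e⟩ | ⟨-, e⟩⟩ <;> rw [e]
    · exact .inr ⟨by linarith, by linarith⟩
    · exact (h.inv.adm b).imp (fun e => by rw [e, mul_zero]) fun e => ⟨by nlinarith, by nlinarith⟩
    · exact (h.inv.adm b).imp_right fun e => ⟨by linarith, e.2⟩
  have h5 := h.inv.ball x
  have h6 := tok_sum_le h x (s := 4 / 5) le_rfl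
  by_cases hc : ∃ u, Jp u ∧ P.d x (y u) ≤ 4 / 5
  · have h7 := sum_le_sum fun b (_ : b ∈ univ) => tok_cov h x le_rfl hc b
    rw [sum_add_distrib, ← mul_sum] at h7
    rw [ind_pos hc] at h6
    unfold Om at *
    nlinarith
  · have h7 := sum_le_sum fun b (_ : b ∈ univ) => (tok_pt h x (4 / 5) b).2.2.1
    rw [sum_add_distrib] at h7
    rw [ind_neg hc] at h6
    unfold Om at *
    linarith

theorem ins_fresh {u : ι} (hu : u ≠ v) (h : ∀ u', σ.tw (u, u') = 0) (u' : ι) :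
    (P.ins σ Jp y θ v).tw (u, u') = 0 := by
  rcases tok_cases (P := P) σ Jp y θ v (u, u') with ⟨n, -⟩ | ⟨-, -, ⟨-, e⟩ | ⟨-, e⟩⟩
  · exact absurd n.1 hu
  · rw [e, h, mul_zero]
  · rw [e, h]

theorem ins_Om (h : P.InsOK μ σ Jp y θ v) (x : X) (s : ℝ) :
    (1 - θ) * P.Om σ x s + θ * ind (∃ u, Jp u ∧ P.d x (y u) ≤ s) ≤ P.Om (P.ins σ Jp y θ v) x s := by
  have h1 := sum_le_sum fun b (_ : b ∈ univ) => (tok_pt h x s b).2.1
  rw [sum_add_distrib, ← mul_sum] at h1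
  unfold Om
  linarith [tok_sum_ge h x s]

theorem ins_jac (h : P.InsOK μ σ Jp y θ v) (x : X) {s : ℝ} (hs : s ≤ 4 / 5) :
    (∑ b, |P.vec σ x s b - P.vec (P.ins σ Jp y θ v) x s b|) /
        (∑ b, max (P.vec σ x s b) (P.vec (P.ins σ Jp y θ v) x s b)) ≤
      θ + ind (∃ u, Jp u ∧ P.d x (y u) ≤ s) * (θ / (P.Om σ x s + θ)) := by
  have hθ := tok_pos h
  have h0 := Om_nonneg h.ok h.inv x s
  have h1 : ∑ b, |P.vec σ x s b - P.vec (P.ins σ Jp y θ v) x s b| ≤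
      θ * P.Om σ x s + ∑ b, P.tokN Jp y θ v x s b := by
    rw [Om, mul_sum, ← sum_add_distrib]
    refine sum_le_sum fun b _ => ?_
    obtain ⟨a1, a2, a3, -⟩ := tok_pt h x s b
    have := tok_N_nonneg h x s b
    have := mul_nonneg hθ.le a1
    rw [abs_le]
    constructor <;> linarith
  have h2 : P.Om σ x s + ∑ b, P.tokN Jp y θ v x s b ≤
      ∑ b, max (P.vec σ x s b) (P.vec (P.ins σ Jp y θ v) x s b) := by
    rw [Om, ← sum_add_distrib]
    refine sum_le_sum fun b _ => ?_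
    obtain ⟨-, a2, -, a4 | a4⟩ := tok_pt h x s b
    · rw [a4, add_zero]
      exact le_max_left _ _
    · rw [a4] at a2 ⊢
      exact le_max_of_le_right (by linarith)
  have h3 := le_antisymm (tok_sum_le h x hs) (tok_sum_ge h x s)
  rw [h3] at h1 h2
  have h4 : 0 ≤ ind (∃ u, Jp u ∧ P.d x (y u) ≤ s) := ind_nonneg _
  refine div_le_of_le_mul₀ (le_trans (by positivity) h2) (by positivity)
    (h1.trans (le_trans ?_ (mul_le_mul_of_nonneg_left h2 (by positivity))))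
  by_cases hc : ∃ u, Jp u ∧ P.d x (y u) ≤ s
  · rw [ind_pos hc, mul_one, one_mul, add_mul, div_mul_cancel₀ _ (by positivity)]
    nlinarith
  · simp [ind_neg hc]

theorem tok_ff (h : P.InsOK μ σ Jp y θ v) (x : X) (s : ℝ) :
    P.ff (P.ins σ Jp y θ v) x s - P.ff σ x s ≤ 2 * θ - Real.log
      ((P.Om σ x s + w0 k + θ * ind (∃ u, Jp u ∧ P.d x (y u) ≤ s)) / (P.Om σ x s + w0 k)) := by
  have hθ := tok_pos h
  have hw := w0_pos h.ok.hk
  have h0 := Om_nonneg h.ok h.inv x s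
  have h0' := Om_nonneg h.ok (ins_tinv h) x s
  have h1 := ins_Om h x s
  have hu := h.ub
  have h4 := mul_nonneg hθ.le (ind_nonneg (∃ u, Jp u ∧ P.d x (y u) ≤ s))
  generalize θ * ind (∃ u, Jp u ∧ P.d x (y u) ≤ s) = c at *
  have h5 : 0 < 1 - θ := by linarith
  have h2 := Real.log_le_log (by positivity) (show (1 - θ) * (P.Om σ x s + w0 k + c) ≤
    P.Om (P.ins σ Jp y θ v) x s + w0 k by nlinarith [mul_nonneg hθ.le (add_nonneg hw.le h4)])
  have h3 := Real.one_sub_inv_le_log_of_pos h5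
  have h6 : (1 - θ)⁻¹ ≤ 1 + 2 * θ := by
    rw [inv_le_iff_one_le_mul₀ h5]
    nlinarith
  rw [Real.log_mul h5.ne' (by positivity)] at h2
  rw [ff, ff, Real.log_div (by positivity) (by positivity),
    Real.log_div (by positivity) (by positivity), Real.log_div (by positivity) (by positivity)]
  linarith

theorem tok_rad (h : P.InsOK μ σ Jp y θ v) (x : X) (s : ℝ) :
    ind (∃ u, Jp u ∧ P.d x (y u) ≤ s) * (θ / (P.Om σ x s + θ)) +
      4 * (P.ff (P.ins σ Jp y θ v) x s - P.ff σ x s) +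
      4 * ind ((∃ u, Jp u ∧ P.d x (y u) ≤ s) ∧ 8 * (P.Om σ x s + w0 k) ≤ θ) ≤ 8 * θ := by
  have hθ := tok_pos h
  have hw := w0_pos h.ok.hk
  have h0 := Om_nonneg h.ok h.inv x s
  have h1 := tok_ff h x s
  by_cases hc : ∃ u, Jp u ∧ P.d x (y u) ≤ s
  swap
  · rw [ind_neg hc, mul_zero, add_zero, div_self (by positivity), Real.log_one] at h1
    rw [ind_neg hc, ind_neg fun h' => hc h'.1]
    linarith
  rw [ind_pos hc, mul_one] at h1
  rw [ind_pos hc, one_mul]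
  have h2 := Real.one_sub_inv_le_log_of_pos
    (show 0 < (P.Om σ x s + w0 k + θ) / (P.Om σ x s + w0 k) by positivity)
  have h3 : θ / (P.Om σ x s + θ) ≤
      2 * (1 - ((P.Om σ x s + w0 k + θ) / (P.Om σ x s + w0 k))⁻¹) := by
    rw [inv_div, one_sub_div (by positivity), add_sub_cancel_left, ← mul_div_assoc,
      div_le_div_iff₀ (by positivity) (by positivity)]
    nlinarith [mul_nonneg hθ.le h0, mul_le_mul_of_nonneg_left h.lb hθ.le]
  have h4 : 0 ≤ θ / (P.Om σ x s + θ) := by positivity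
  by_cases h5 : 8 * (P.Om σ x s + w0 k) ≤ θ
  · have h6 : Real.exp 2 ≤ (P.Om σ x s + w0 k + θ) / (P.Om σ x s + w0 k) := by
      have : Real.exp 2 ≤ 9 := by
        rw [show (2 : ℝ) = 1 + 1 by norm_num, Real.exp_add]
        nlinarith [Real.exp_one_lt_d9, Real.exp_pos 1]
      refine this.trans ?_
      rw [le_div_iff₀ (by positivity)]
      linarith
    have h7 := (Real.le_log_iff_exp_le (by positivity)).2 h6
    rw [ind_pos ⟨hc, h5⟩]
    linarith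
  · rw [ind_neg fun h' => h5 h'.2]
    linarith

theorem ins_main (h : P.InsOK μ σ Jp y θ v) (x : X) :
    P.c2 σ (P.ins σ Jp y θ v) x x + 4 * (P.U (P.ins σ Jp y θ v) x - P.U σ x) ≤ 9 * θ + P.ε -
      4 * ∑ j ∈ range P.G, nuw P.G j * ind ((∃ u, Jp u ∧ P.d x (y u) ≤ rho P.G j) ∧
        8 * (P.Om σ x (rho P.G j) + w0 k) ≤ θ) := by
  have hG : 0 < P.G := by linarith [h.ok.hG]
  have key : ∀ j : Fin P.G,
      (∑ ξ, ind (P.lab2 σ j ξ x ≠ P.lab2 (P.ins σ Jp y θ v) j ξ x)) / P.N +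
        4 * (P.ff (P.ins σ Jp y θ v) x (rho P.G j) - P.ff σ x (rho P.G j)) +
        4 * ind ((∃ u, Jp u ∧ P.d x (y u) ≤ rho P.G j) ∧ 8 * (P.Om σ x (rho P.G j) + w0 k) ≤ θ) ≤
        9 * θ + P.ε := fun j => by
    have h1 := h.ok.smp.cut _ _ (vec_adm h.inv x (rho P.G j)) (vec_adm (ins_tinv h) x (rho P.G j))
    have h2 := ins_jac h x (s := rho P.G j) (by linarith [rho_lt j.2])
    have h3 := tok_rad h x (rho P.G j)
    have h4 : (∑ ξ, ind (P.lab2 σ j ξ x ≠ P.lab2 (P.ins σ Jp y θ v) j ξ x)) / P.N ≤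
        (∑ ξ, ind (P.win ξ (P.vec σ x (rho P.G j)) ≠
          P.win ξ (P.vec (P.ins σ Jp y θ v) x (rho P.G j)))) / P.N :=
      div_le_div_of_nonneg_right (sum_le_sum fun ξ _ => ind_mono fun h1 h2 => h1 (by
        rw [lab2, lab2, h2])) (Nat.cast_nonneg _)
    linarith
  have h1 := sum_le_sum fun j (_ : j ∈ univ) =>
    mul_le_mul_of_nonneg_left (key j) (nuw_nonneg P.G j)
  rw [← sum_mul, ← sum_range (nuw P.G), nuw_sum hG, one_mul] at h1
  simp only [mul_add, mul_sub, mul_left_comm _ (4 : ℝ), sum_add_distrib, sum_sub_distrib,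
    ← mul_sum] at h1
  simp only [c2, U, sum_range, mul_add]
  linarith

theorem ins_U (h : P.InsOK μ σ Jp y θ v) (x : X) : P.U (P.ins σ Jp y θ v) x ≤ P.U σ x + 2 * θ := by
  have hG : 0 < P.G := by linarith [h.ok.hG]
  have hw := w0_pos h.ok.hk
  have key : ∀ s, P.ff (P.ins σ Jp y θ v) x s ≤ P.ff σ x s + 2 * θ := fun s => by
    have h0 := Om_nonneg h.ok h.inv x s
    have h4 := mul_nonneg (tok_pos h).le (ind_nonneg (∃ u, Jp u ∧ P.d x (y u) ≤ s))
    linarith [tok_ff h x s, Real.log_nonneg ((one_le_div (show 0 < P.Om σ x s + w0 k by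
      positivity)).2 (le_add_of_nonneg_right h4))]
  have h1 := sum_le_sum fun j (_ : j ∈ range P.G) =>
    mul_le_mul_of_nonneg_left (key (rho P.G j)) (nuw_nonneg P.G j)
  simp only [mul_add, sum_add_distrib] at h1
  rwa [← sum_mul, nuw_sum hG, one_mul] at h1

theorem tok_wf {x : X} {e : ℝ} (he : 0 ≤ e) (h : ∀ b,
    1 ≤ 10 * max (P.d x (σ.tc b) - 1 / 10) 0 + max (1 - σ.tw b / w0 k) 0 ∨
      10 * max (P.d x (σ'.tc b) - 1 / 10) 0 + max (1 - σ'.tw b / w0 k) 0 ≤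
        10 * max (P.d x (σ.tc b) - 1 / 10) 0 + max (1 - σ.tw b / w0 k) 0 + e) :
    P.wf σ' x ≤ P.wf σ x + e := by
  rw [← sub_le_iff_le_add]
  refine le_min (by linarith [(wf_bd (P := P) σ' x).2]) (le_inf' _ _ fun b _ => ?_)
  rcases h b with h | h
  · linarith [(wf_bd (P := P) σ' x).2]
  · have : P.wf σ' x ≤ _ := (min_le_right _ _).trans (inf'_le _ (mem_univ b))
    linarith

theorem tok_new (h : P.InsOK μ σ Jp y θ v) {b : ι × ι} (hb : b.1 = v) (x : X) :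
    1 ≤ 10 * max (P.d x (σ.tc b) - 1 / 10) 0 + max (1 - σ.tw b / w0 k) 0 := by
  rw [tok_zero h hb, zero_div, sub_zero]
  linarith [le_max_right (P.d x (σ.tc b) - 1 / 10) 0, le_max_left (1 : ℝ) 0]

theorem ins_wf (h : P.InsOK μ σ Jp y θ v) (x : X) : P.wf (P.ins σ Jp y θ v) x ≤ P.wf σ x + θ := by
  have hθ := tok_pos h
  refine tok_wf hθ.le fun b => ?_
  have h0 := div_nonneg (tw_nonneg h.ok h.inv b) (w0_pos h.ok.hk).le
  rcases tok_cases (P := P) σ Jp y θ v b with ⟨n, -, -⟩ | ⟨n, e1, ⟨-, e⟩ | ⟨h1, e⟩⟩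
  · exact .inl (tok_new h n.1 x)
  · right
    rw [e1, e, mul_div_assoc]
    generalize σ.tw b / w0 k = t at *
    have : max (1 - (1 - θ) * t) 0 ≤ max (1 - t) 0 + θ := by
      refine max_le ?_ (by positivity)
      rcases le_total t 1 with h1 | h1
      · nlinarith [le_max_left (1 - t) 0]
      · nlinarith [le_max_right (1 - t) 0, h.ub]
    linarith
  · right
    rw [e1, e]
    linarith

theorem ins_wf_zero (h : P.InsOK μ σ Jp y θ v) {x : X} {u : ι} (hu : Jp u) (hx : P.d x (y u) ≤ 1 / 10) :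
    P.wf (P.ins σ Jp y θ v) x = 0 := by
  refine le_antisymm ((min_le_right _ _).trans ((inf'_le _ (mem_univ (v, u))).trans ?_))
    (wf_bd _ _).1
  rcases tok_cases (P := P) σ Jp y θ v (v, u) with ⟨-, e1, e⟩ | ⟨n, -⟩
  · rw [e1, e, max_eq_right (by linarith),
      max_eq_right (sub_nonpos.2 ((one_le_div (w0_pos h.ok.hk)).2 h.lb))]
    simp
  · exact absurd ⟨rfl, hu⟩ n

theorem ins_far (h : P.InsOK μ σ Jp y θ v) {x : X} (hx : ∀ u, Jp u → 11 / 5 < P.d x (y u)) :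
    P.c2 σ (P.ins σ Jp y θ v) x x = 0 ∧ P.Pt (P.ins σ Jp y θ v) x ≤ P.Pt σ x := by
  have hage : ∀ b, P.d x (σ.tc b) ≤ 3 / 5 → ¬∃ u, Jp u ∧ P.d (σ.tc b) (y u) ≤ 8 / 5 := by
    rintro b hb ⟨u, hu, h1⟩
    linarith [hx u hu, h.ok.hd.tri x (σ.tc b) (y u)]
  have hv : ∀ j < P.G, P.vec (P.ins σ Jp y θ v) x (rho P.G j) = P.vec σ x (rho P.G j) := by
    intro j hj
    have hr := rho_lt hj
    funext b
    unfold vec
    rcases tok_cases (P := P) σ Jp y θ v b with ⟨n, e1, e⟩ | ⟨n, e1, ⟨h1, e⟩ | ⟨-, e⟩⟩ <;> rw [e1, e]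
    · rw [tok_zero h n.1, ite_self, if_neg (by linarith [hx _ n.2])]
    · have : ¬P.d x (σ.tc b) ≤ rho P.G j := fun h2 => hage b (by linarith) h1
      rw [if_neg this, if_neg this]
  refine ⟨sum_eq_zero fun j _ => ?_, ?_⟩
  · rw [sum_eq_zero fun ξ _ => ind_neg fun h1 => h1 (by rw [lab2, lab2, hv j j.2]), zero_div,
      mul_zero]
  have hU : P.U (P.ins σ Jp y θ v) x = P.U σ x :=
    sum_congr rfl fun j hj => by rw [ff, ff, Om, Om, hv j (mem_range.1 hj)]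
  have hw : P.wf (P.ins σ Jp y θ v) x ≤ P.wf σ x + 0 := tok_wf le_rfl fun b => by
    rcases tok_cases (P := P) σ Jp y θ v b with ⟨n, -, -⟩ | ⟨n, e1, ⟨h1, e⟩ | ⟨h1, e⟩⟩
    · exact .inl (tok_new h n.1 x)
    · have := not_le.1 fun h2 => hage b h2 h1
      left
      linarith [le_max_left (P.d x (σ.tc b) - 1 / 10) 0, le_max_right (1 - σ.tw b / w0 k) 0]
    · right
      rw [e1, e, add_zero]
  unfold Pt
  linarith

theorem ins_near (h : P.InsOK μ σ Jp y (1 / 2) v) {x : X} {u : ι} (hu : Jp u) (hx : P.d x (y u) ≤ 2 / 5) :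
    P.Pt (P.ins σ Jp y (1 / 2) v) x ≤ 4 := by
  have hG : 0 < P.G := by linarith [h.ok.hG]
  have hw := w0_pos h.ok.hk
  have key : ∀ j, P.ff (P.ins σ Jp y (1 / 2) v) x (rho P.G j) ≤ 3 / 4 := fun j => by
    have h0 := Om_nonneg h.ok h.inv x (rho P.G j)
    have h1 := ins_Om h x (rho P.G j)
    rw [ind_pos ⟨u, hu, hx.trans (rho_ge _ _)⟩] at h1
    have h2 : 0 < P.Om (P.ins σ Jp y (1 / 2) v) x (rho P.G j) + w0 k := by linarith
    refine (Real.log_le_log (y := 2) (by positivity) ?_).trans (by linarith [Real.log_two_lt_d9])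
    rw [div_le_iff₀ h2]
    linarith
  have h1 := sum_le_sum fun j (_ : j ∈ range P.G) =>
    mul_le_mul_of_nonneg_left (key j) (nuw_nonneg P.G j)
  rw [← sum_mul, nuw_sum hG, one_mul] at h1
  unfold Pt U
  linarith [(wf_bd (P := P) (P.ins σ Jp y (1 / 2) v) x).2]

theorem wf_ge (hP : P.OK) {r x : X} (h : ¬P.Tok σ r) (hx : P.d x r ≤ 1 / 20) : 1 / 2 ≤ P.wf σ x := by
  refine le_min (by norm_num) (le_inf' _ _ fun b _ => ?_)
  have h1 := le_max_left (P.d x (σ.tc b) - 1 / 10) 0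
  have h2 := le_max_right (P.d x (σ.tc b) - 1 / 10) 0
  have h3 := le_max_left (1 - σ.tw b / w0 k) 0
  have h4 := le_max_right (1 - σ.tw b / w0 k) 0
  by_cases h5 : w0 k / 2 ≤ σ.tw b
  · have := not_le.1 fun h6 => h ⟨b, h5, h6⟩
    linarith [hP.hd.tri r x (σ.tc b), hP.hd.symm r x]
  · have : σ.tw b / w0 k ≤ 1 / 2 := by
      rw [div_le_iff₀ (w0_pos hP.hk)]
      linarith
    linarith

end Par

end Vale.Agent.P304.Sq
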