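import Vale.Agent.P304.Sq.LStep
import Vale.Agent.P304.Sq.LSmp

/-! P304 tight bound, LEVEL: the state process, telescoping and the choice of the randomness. -/

set_option linter.unusedSectionVars false

namespace Vale.Agent.P304.Sq

open Finset Lv

section Aux

variable {ι X : Type} [Fintype ι] [LinearOrder ι] [Nonempty ι] {k : ℕ} {P : Par ι X k}

theorem Par.path_le (σ σ' : L2 ι X) (x : Fin k → X) (i : Fin k) (r : X) :
    ∑ l, P.chg σ σ' (x l) (Function.update x i r l) +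
      ∑ l, P.pot σ' (Function.update x i r l) - ∑ l, P.pot σ (x l) ≤
    ∑ l, P.Ec σ σ' (x l) + P.Mc σ' (x i) r := by
  have h1 : P.Mc σ' (x i) r = ∑ l, if l = i then P.Mc σ' (x i) r else 0 := by simp
  rw [h1, ← sum_add_distrib, ← sum_add_distrib, ← sum_sub_distrib]
  refine sum_le_sum fun l _ => ?_
  by_cases h : l = i
  · subst h
    rw [Function.update_self, if_pos rfl]
    have := Par.chg_tri (P := P) σ σ' (x l) r
    unfold Par.Ec Par.Mc
    linarith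
  · rw [Function.update_of_ne h, if_neg h]
    unfold Par.Ec
    linarith

end Aux

variable {Ω X : Type} [Fintype Ω] {F : FS Ω} {k : ℕ}

theorem level_avg2 {T : ℕ} {P : Par (Fin (T + 1)) X k} (hP : P.OK) (hμ : P.μ = w0 k / 2 ^ T)
    (S : Svc F X k) (l₀ : Fin k) :
    ∃ σ : ℕ → Ω → L2 (Fin (T + 1)) X, F.Adapted σ ∧ (∀ ω, σ 0 ω = L2.init 0 (S.s l₀)) ∧
      (∀ t ω, (σ t ω).t1.Inv P.d) ∧
      F.E (fun ω => ∑ t ∈ range T, ∑ l, P.chg (σ t ω) (σ (t + 1) ω) (S.x t ω l) (S.x (t + 1) ω l)) ≤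
        11 * 10 ^ 6 * F.E (fun ω => ∑ t ∈ range T, gain2 S P.d t ω) +
          600 * Lk k * ∑ l : Fin k, (min (P.d (S.s l) (S.s l₀)) 1) ^ 2 +
          T * (10 ^ 5 * (k : ℝ) ^ 2 / P.G + (k + 1) * P.ε) := by
  have hw0 := w0_pos hP.hk
  set err := 10 ^ 5 * (k : ℝ) ^ 2 / P.G + (k + 1) * P.ε with herr
  have hanti : ∀ {a b : ℕ}, a ≤ b → w0 k / 2 ^ b ≤ w0 k / 2 ^ a := fun h => by
    gcongr
    norm_num
  obtain ⟨σ, ad, s0, inv, upd⟩ := F.exists_adapted (L2.init (0 : Fin (T + 1)) (S.s l₀))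
    (fun t _ σ => P.Inv (w0 k / 2 ^ min t T) σ ∧ ∀ u : Fin (T + 1), t < u.val → Par.Fresh σ u)
    (fun t ω σ σ' => t < T →
      ∑ ω', F.cw (t + 1) ω ω' * (∑ l, P.Ec σ σ' (S.x t ω' l) +
          P.Mc σ' (S.x t ω' (S.mv (t + 1) ω')) (S.r (t + 1) ω)) ≤
        11 * 10 ^ 6 * (Lk k * ∑ ω', F.cw (t + 1) ω ω' *
            (min (P.d (S.x t ω' (S.mv (t + 1) ω')) (S.r (t + 1) ω)) 1) ^ 2 +
          Lk k * (min (∑ ω', F.cw (t + 1) ω ω' *
            P.d (S.x t ω' (S.mv (t + 1) ω')) (S.r (t + 1) ω)) 1) ^ 2 +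
          (budget P.d (F.cw (t + 1) ω) (S.x t) (S.r (t + 1) ω) +
            budget2 P.d (F.cw (t + 1) ω) (S.x t) (S.r (t + 1) ω)) *
            ∑ ω', F.cw (t + 1) ω ω' * P.d (S.x t ω' (S.mv (t + 1) ω')) (S.r (t + 1) ω)) + err)
    (fun _ _ _ _ _ h => h)
    (fun t ω ω' a b h => by rw [F.cw_congr h, S.r_ad _ _ _ h]; exact id)
    (fun ω => ⟨Par.init_inv2 hP (by rw [hμ]; exact hanti (min_le_right _ _)) _ _, fun u hu => by
      have : u ≠ 0 := by
        intro h; rw [h] at hu; simp at hu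
      exact ⟨by simp [L2.init, Lv.St.init, this], fun _ => rfl⟩⟩)
    (fun t ω a h => by
      by_cases ht : t < T
      · have e1 : min t T = t := min_eq_left ht.le
        have e2 : min (t + 1) T = t + 1 := min_eq_left ht
        have e3 : w0 k / 2 ^ t / 2 = w0 k / 2 ^ (t + 1) := by rw [pow_succ, div_div]
        obtain ⟨h1, h2⟩ := h
        rw [e1] at h1
        obtain ⟨b, i1, i2, i3⟩ := Par.step2 hP h1 (v := ⟨t + 1, by omega⟩)
          (by rw [e3, hμ]; exact hanti ht) (by simpa using hanti (Nat.zero_le t)) (h2 _ (by simp))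
          (F.cw_nonneg (t + 1) ω) (F.sum_cw _ _) (S.x t) (S.r (t + 1) ω) (S.mv (t + 1))
        refine ⟨b, ⟨by rw [e2, ← e3]; exact i1, fun u hu => i2 u ?_ (h2 u (by omega))⟩, fun _ => i3⟩
        intro he
        rw [he] at hu
        simp at hu
      · refine ⟨a, ⟨?_, fun u hu => h.2 u (by omega)⟩, fun h' => absurd h' ht⟩
        rw [min_eq_right (by omega)]
        have := h.1
        rwa [min_eq_right (by omega)] at this)
  refine ⟨σ, ad, s0, fun t ω => (inv t ω).1.t1, ?_⟩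
  have key := F.telescope T
    (fun t ω => ∑ l, P.chg (σ t ω) (σ (t + 1) ω) (S.x t ω l) (S.x (t + 1) ω l))
    (fun t ω => 11 * 10 ^ 6 * gain2 S P.d t ω + err)
    (fun t ω => ∑ l, P.pot (σ t ω) (S.x t ω l)) ?_ ?_
  · have h1 : F.E (fun ω => ∑ t ∈ range T, (11 * 10 ^ 6 * gain2 S P.d t ω + err)) =
        11 * 10 ^ 6 * F.E (fun ω => ∑ t ∈ range T, gain2 S P.d t ω) + T * err := by
      rw [← F.E_mul, ← F.E_const (T * err), ← F.E_add]
      congr 1
      funext ω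
      rw [sum_add_distrib, mul_sum]
      simp
    have h2 : F.E (fun ω => ∑ l, P.pot (σ 0 ω) (S.x 0 ω l)) ≤
        600 * Lk k * ∑ l : Fin k, (min (P.d (S.s l) (S.s l₀)) 1) ^ 2 := by
      rw [← F.E_const (600 * Lk k * ∑ l : Fin k, (min (P.d (S.s l) (S.s l₀)) 1) ^ 2)]
      refine F.E_mono fun ω => ?_
      rw [s0, S.x_zero, mul_sum]
      exact sum_le_sum fun l _ => Par.pot_init hP _ _ _
    linarith
  · intro t ht ω
    have hs := upd t ω ht
    have hdb : ∑ ω', F.cw (t + 1) ω ω' * S.step P.d t ω' =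
        ∑ ω', F.cw (t + 1) ω ω' * P.d (S.x t ω' (S.mv (t + 1) ω')) (S.r (t + 1) ω) :=
      F.ce_congr fun ω' h => by unfold Svc.step; rw [S.r_ad _ _ _ h]
    set db := ∑ ω', F.cw (t + 1) ω ω' * P.d (S.x t ω' (S.mv (t + 1) ω')) (S.r (t + 1) ω) with hdbdef
    set bd := budget P.d (F.cw (t + 1) ω) (S.x t) (S.r (t + 1) ω) +
      budget2 P.d (F.cw (t + 1) ω) (S.x t) (S.r (t + 1) ω) with hbd
    set c0 := -(11 * 10 ^ 6 * (Lk k * (min db 1) ^ 2 + bd * db)) - err with hc0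
    have h3 := F.ce_mono (t := t + 1) (ω := ω)
      (f := fun ω' => ∑ l, P.chg (σ t ω') (σ (t + 1) ω') (S.x t ω' l) (S.x (t + 1) ω' l) +
        ∑ l, P.pot (σ (t + 1) ω') (S.x (t + 1) ω' l) - ∑ l, P.pot (σ t ω') (S.x t ω' l) -
        (11 * 10 ^ 6 * gain2 S P.d t ω' + err))
      (g := fun ω' => (∑ l, P.Ec (σ t ω) (σ (t + 1) ω) (S.x t ω' l) +
        P.Mc (σ (t + 1) ω) (S.x t ω' (S.mv (t + 1) ω')) (S.r (t + 1) ω)) +
        (-(11 * 10 ^ 6 * Lk k)) * (min (P.d (S.x t ω' (S.mv (t + 1) ω')) (S.r (t + 1) ω)) 1) ^ 2 + c0) ?_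
    · refine h3.trans ?_
      simp only [mul_add (F.cw (t + 1) ω _), sum_add_distrib] at hs ⊢
      rw [F.ce_const]
      have : ∑ ω', F.cw (t + 1) ω ω' * (-(11 * 10 ^ 6 * Lk k) *
          (min (P.d (S.x t ω' (S.mv (t + 1) ω')) (S.r (t + 1) ω)) 1) ^ 2) =
          -(11 * 10 ^ 6 * Lk k) * ∑ ω', F.cw (t + 1) ω ω' *
            (min (P.d (S.x t ω' (S.mv (t + 1) ω')) (S.r (t + 1) ω)) 1) ^ 2 := by
        rw [mul_sum]; exact sum_congr rfl fun _ _ => by ring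
      rw [this]
      linarith
    · intro ω' h
      have e1 : σ (t + 1) ω' = σ (t + 1) ω := (ad _ _ _ h).symm
      have e2 : σ t ω' = σ t ω := (ad _ _ _ (F.anti t _ _ h)).symm
      have e3 : S.r (t + 1) ω' = S.r (t + 1) ω := (S.r_ad _ _ _ h).symm
      have e4 : F.cw (t + 1) ω' = F.cw (t + 1) ω := (F.cw_congr h).symm
      have e5 := Par.path_le (P := P) (σ t ω) (σ (t + 1) ω) (S.x t ω') (S.mv (t + 1) ω') (S.r (t + 1) ω)
      have e6 : gain2 S P.d t ω' =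
          Lk k * (min (P.d (S.x t ω' (S.mv (t + 1) ω')) (S.r (t + 1) ω)) 1) ^ 2 +
          Lk k * (min db 1) ^ 2 + bd * db := by
        unfold gain2
        rw [e4, hdb, e3]
        unfold Svc.step
        rw [e3]
      rw [e1, e2, S.x_succ, e3, e6]
      linarith
  · intro ω
    refine sum_nonneg fun ω' _ => mul_nonneg (F.cw_nonneg _ _ _) ?_
    exact sum_nonneg fun l _ => Par.pot_nonneg hP (inv T ω').1 _

theorem level2 : LevelStmt2 := by
  refine ⟨11 * 10 ^ 6, by norm_num, ?_⟩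
  intro k hk Ω _ F X _ d hd S T l₀ ε hε
  have hw0 := w0_pos hk
  have hL := two_le_Lk (k := k) (by omega)
  obtain ⟨G₀, hG₀⟩ := exists_nat_gt (T * (10 ^ 5 * (k : ℝ) ^ 2) / (ε / 2))
  have hε' : 0 < ε / (2 * (T + 1) * (k + 1)) := by positivity
  obtain ⟨N, hN, win, hwin⟩ := exists_smp (Fin (T + 1) × Fin (T + 1))
    (μ := w0 k / 2 ^ T) (by positivity) hε'
  let P : Par (Fin (T + 1)) X k := ⟨d, G₀ + 2, N, win, w0 k / 2 ^ T, ε / (2 * (T + 1) * (k + 1))⟩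
  have hP : P.OK := ⟨hd, hk, by simp [P], hN, by simp only [P]; positivity, hε'.le, hwin⟩
  obtain ⟨σ, ad, s0, inv, key⟩ := level_avg2 hP rfl S l₀
  have herr : T * (10 ^ 5 * (k : ℝ) ^ 2 / P.G + (k + 1) * P.ε) ≤ ε := by
    have h1 : T * (10 ^ 5 * (k : ℝ) ^ 2 / P.G) ≤ ε / 2 := by
      rw [div_lt_iff₀ (by positivity)] at hG₀
      have : (P.G : ℝ) = G₀ + 2 := by simp [P]
      rw [← mul_div_assoc, this, div_le_iff₀ (by positivity)]
      nlinarith
    have h2 : T * ((k + 1) * P.ε) ≤ ε / 2 := by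
      have : (T + 1) * ((k + 1) * P.ε) = ε / 2 := by
        simp only [P]
        field_simp
      have h3 : 0 ≤ (k + 1) * P.ε := by have := hP.hε; positivity
      nlinarith
    linarith
  obtain ⟨R, hR⟩ := Par.exists_le_EX hP fun R =>
    F.E fun ω => ∑ t ∈ range T, ∑ l,
      ind (P.lab (σ t ω) R (S.x t ω l) ≠ P.lab (σ (t + 1) ω) R (S.x (t + 1) ω l))
  have hswap : P.EX (fun R => F.E fun ω => ∑ t ∈ range T, ∑ l,
      ind (P.lab (σ t ω) R (S.x t ω l) ≠ P.lab (σ (t + 1) ω) R (S.x (t + 1) ω l))) =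
      F.E (fun ω => ∑ t ∈ range T, ∑ l, P.chg (σ t ω) (σ (t + 1) ω) (S.x t ω l)
        (S.x (t + 1) ω l)) := by
    unfold FS.E
    rw [Par.EX_sum]
    refine sum_congr rfl fun ω _ => ?_
    rw [Par.EX_mul, Par.EX_sum]
    congr 1
    refine sum_congr rfl fun t _ => ?_
    rw [Par.EX_sum]
    rfl
  refine ⟨fun t ω y => P.lab (σ t ω) R y, ?_, fun ω ω' => by simp only [s0], ?_, ?_, ?_⟩
  · intro t ω ω' h
    simp only [ad t ω ω' h]
  · intro t ω a b h
    exact Par.lab_diam2 hP (inv t ω) h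
  · intro ω l h
    have e : ∀ y, (σ 0 ω).t1.z P.d y 0 = d y (S.s l₀) := fun y => by
      simp [s0, L2.init, Lv.St.init, Lv.St.z, P]
    show P.lab (σ 0 ω) R (S.s l) = P.lab (σ 0 ω) R (S.s l₀)
    rw [Par.lab_eq hP (inv 0 ω) R (u := 0) (by rw [e]; exact h),
      Par.lab_eq hP (inv 0 ω) R (u := 0) (by rw [e, hd.refl]; norm_num)]
  · have h1 : 0 ≤ Lk k * ∑ l : Fin k, (min (d (S.s l) (S.s l₀)) 1) ^ 2 :=
      mul_nonneg (by linarith) (sum_nonneg fun _ _ => by positivity)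
    have key' : F.E (fun ω => ∑ t ∈ range T, ∑ l, P.chg (σ t ω) (σ (t + 1) ω) (S.x t ω l)
        (S.x (t + 1) ω l)) ≤ 11 * 10 ^ 6 * F.E (fun ω => ∑ t ∈ range T, gain2 S d t ω) +
          600 * Lk k * ∑ l : Fin k, (min (d (S.s l) (S.s l₀)) 1) ^ 2 +
          T * (10 ^ 5 * (k : ℝ) ^ 2 / P.G + (k + 1) * P.ε) := key
    refine le_trans (le_of_eq ?_) (hR.trans (by rw [hswap]; nlinarith))
    congr 1
    funext ω
    refine sum_congr rfl fun t _ => sum_congr rfl fun l _ => ?_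
    split_ifs with h
    · exact (ind_neg fun h' => h' h).symm
    · exact (ind_pos h).symm

end Vale.Agent.P304.Sq
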