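import Vale.Agent.P304.Sq.Defs
import Vale.Agent.P304.TRank

/-! P304, tight bound, part TREE: definitions (see notes/P304_sq.md, section TREE). -/

namespace Vale.Agent.P304.Sq

open Finset

/-! ### scalar functions -/

/-- the barrier family -/
noncomputable def ell (lam y : ℝ) : ℝ := (1 - lam) * y ^ 2 + lam * y ^ 3
/-- its derivative in `y` -/
noncomputable def ell' (lam y : ℝ) : ℝ := (1 - lam) * (2 * y) + lam * (3 * y ^ 2)
/-- the claim of one slot -/
noncomputable def tau (s : ℝ) : ℝ := min 1 (2 * s ^ 2)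
/-- coarse closeness -/
def Near (a b : ℝ) : Prop := a ≤ 5 / 4 * b ∧ b ≤ 5 / 4 * a
/-- tracking rate of a light child of rank `r` below effective rank `e` -/
noncomputable def et (k e r : ℕ) : ℝ := ((e : ℝ) - r) / (100 * Sk k)
/-- additive shift of a light child of rank `r` below effective rank `e` -/
noncomputable def dd (e r : ℕ) : ℝ := th (2 * r) / (6 * ((e : ℝ) - r) * th (2 * e))
/-- fine closeness -/
def Cl (η δ a b : ℝ) : Prop := a + δ ≤ (1 + η) * (b + δ) ∧ b + δ ≤ (1 + η) * (a + δ)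
/-- share of the deficit -/
noncomputable def gg (η δ ph : ℝ) : ℝ := max 0 ((1 + η) ^ 2 * (ph + δ) - (1 + η) ^ 3 * δ)
/-- coefficient of the own slack in the tracking potential -/
noncomputable def cD (η δ ph : ℝ) : ℝ := Real.log ((1 + δ) / (ph + δ)) / η
/-- coefficient of the total slack in the tracking potential -/
noncomputable def cS (η δ ph : ℝ) : ℝ := (ph + δ) / η + δ * cD η δ ph

variable {Lab : Type} [Fintype Lab] [DecidableEq Lab] {k : ℕ} {X : Type} [MetricSpace X]
  {Ω : Type} [Fintype Ω]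

noncomputable def sq2 (y : Fin k → ℝ) : ℝ := ∑ i, y i ^ 2
noncomputable def LB (lam : ℝ) (y : Fin k → ℝ) : ℝ := ∑ i, ell lam (y i)
noncomputable def clm (s : Fin k → ℝ) : ℝ := ∑ i, tau (s i)

/-- indicator that the subtree of `v` contains at least `i + 1` servers -/
noncomputable def cc (p : Fin k → List Lab) (v : List Lab) (i : Fin k) : ℝ := 1 - bb p v i

/-- posterior probability that the subtree of `v` contains at least `i + 1` servers -/
noncomputable def yy (A : Pic Ω Lab X k) (v : List Lab) (i : Fin k) : ℝ :=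
  ∑ ω, A.w ω * cc (A.P ω) v i

/-! ### the fractional part of the state -/

structure Fr (Lab : Type) (k : ℕ) where
  yt : List Lab → Fin k → ℝ
  rk : List Lab → ℕ
  ph : List Lab → ℝ

/-- the child `a :: v` is active (heavy or light) -/
def Act (rk : List Lab → ℕ) (a : Lab) (v : List Lab) : Prop := 0 < er rk (a :: v)

/-- no rank changed on the path from the root to `v` -/
def Clean (rk rk' : List Lab → ℕ) (v : List Lab) : Prop := ∀ z, z <:+ v → rk z = rk' z

namespace Fr

variable (f : Fr Lab k)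

noncomputable def η (a : Lab) (v : List Lab) : ℝ := et k (er f.rk v) (f.rk (a :: v))
noncomputable def δ (a : Lab) (v : List Lab) : ℝ := dd (er f.rk v) (f.rk (a :: v))
/-- increment of the barrier parameter along a heavy edge -/
noncomputable def inc (v : List Lab) : ℝ := 36 * ∑ b, I1 (Light f.rk b v) * (f.η b v * f.δ b v)

open Classical in
/-- barrier parameter -/
noncomputable def lam : List Lab → ℝ
  | [] => ((Sk k : ℝ) - er f.rk []) / Sk k
  | a :: v => if Heavy f.rk a v then lam v + f.inc v else ((Sk k : ℝ) - er f.rk (a :: v)) / Sk k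

/-- slack of a child -/
noncomputable def D (y : List Lab → Fin k → ℝ) (a : Lab) (v : List Lab) : ℝ :=
  clm (f.yt (a :: v)) - LB (f.lam v) (y (a :: v))
/-- total slack of the active children -/
noncomputable def S (y : List Lab → Fin k → ℝ) (v : List Lab) : ℝ :=
  ∑ a, I1 (Act f.rk a v) * f.D y a v
/-- relative slack -/
noncomputable def phi (y : List Lab → Fin k → ℝ) (a : Lab) (v : List Lab) : ℝ := f.D y a v / f.S y v
/-- total claim of the active children -/
noncomputable def C (v : List Lab) : ℝ := ∑ a, I1 (Act f.rk a v) * clm (f.yt (a :: v))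
/-- share of the deficit of a child -/
noncomputable def g (a : Lab) (v : List Lab) : ℝ := gg (f.η a v) (f.δ a v) (f.ph (a :: v))

open Classical in
/-- fractional mass of a subtree -/
noncomputable def Y : List Lab → ℝ
  | [] => k
  | a :: v => if Heavy f.rk a v then
        Y v - ∑ b, I1 (Light f.rk b v) * (clm (f.yt (b :: v)) - max (f.C v - Y v) 0 * f.g b v)
      else I1 (Light f.rk a v) * (clm (f.yt (a :: v)) - max (f.C v - Y v) 0 * f.g a v)

/-- deficit -/
noncomputable def R (v : List Lab) : ℝ := max (f.C v - f.Y v) 0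

open Classical in
/-- number of particle servers in a subtree -/
noncomputable def YI (M : ℕ) : List Lab → ℤ
  | [] => M * k
  | a :: v => if Heavy f.rk a v then YI M v - ∑ b, if Light f.rk b v then ⌊M * f.Y (b :: v)⌋ else 0
      else if Light f.rk a v then ⌊M * f.Y (a :: v)⌋ else 0

/-- slack of a child, linearized at `y` and evaluated at `z` -/
noncomputable def Dt (y z : List Lab → Fin k → ℝ) (a : Lab) (v : List Lab) : ℝ :=
  clm (f.yt (a :: v)) - ∑ i, (ell (f.lam v) (y (a :: v) i) +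
    ell' (f.lam v) (y (a :: v) i) * (z (a :: v) i - y (a :: v) i))

/-- the tracking potential of the node `v` as a function of the slacks `E` of its children -/
noncomputable def G (v : List Lab) (E : Lab → ℝ) : ℝ :=
  ∑ a, I1 (Light f.rk a v) * (cS (f.η a v) (f.δ a v) (f.ph (a :: v)) * ∑ b, I1 (Act f.rk b v) * E b +
    cD (f.η a v) (f.δ a v) (f.ph (a :: v)) * E a)

/-- the invariants of snapshots and ranks with respect to the slot probabilities `y` -/
structure OK0 (J : ℕ) (y : List Lab → Fin k → ℝ) : Prop where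
  hk : 2 ≤ k
  y0 : ∀ v i, 0 ≤ y v i
  y1 : ∀ v i, y v i ≤ 1
  nu : NuOK k J fun v => sq2 (y v)
  sup : ∀ lam, 0 ≤ lam → lam ≤ 1 → ∀ v, ∑ a, LB lam (y (a :: v)) ≤ LB lam (y v)
  near : ∀ v i, Near (y v i) (f.yt v i)
  t0 : ∀ v i, 0 ≤ f.yt v i
  t1 : ∀ v i, f.yt v i ≤ 1
  r : ∀ v, RkV (sq2 (y v)) (f.rk v)

/-- all invariants of the fractional state -/
structure OK (J : ℕ) (y : List Lab → Fin k → ℝ) : Prop extends f.OK0 J y where
  p0 : ∀ v, 0 ≤ f.ph v
  p1 : ∀ v, f.ph v ≤ 1
  cl : ∀ a v, Light f.rk a v → Cl (f.η a v) (f.δ a v) (f.phi y a v) (f.ph (a :: v))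

/-- lazy update of the fractional state; `y` are the new slot probabilities -/
structure Upd (y : List Lab → Fin k → ℝ) (f' : Fr Lab k) : Prop where
  t : ∀ v i, f'.yt v i = f.yt v i ∨ (f'.yt v i = y v i ∧ ¬Near (y v i) (f.yt v i))
  p : ∀ a v, Light f'.rk a v → f'.ph (a :: v) = f.ph (a :: v) ∨ (f'.ph (a :: v) = f'.phi y a v ∧
    ¬Cl (f'.η a v) (f'.δ a v) (f'.phi y a v) (f.ph (a :: v)))

end Fr

/-- squared change of the coarse snapshots -/
noncomputable def DT (W : ℝ) (J : ℕ) (f f' : Fr Lab k) : ℝ :=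
  TS W J fun v => ∑ i, (f.yt v i - f'.yt v i) ^ 2

/-- mass of the nodes whose rank changed -/
noncomputable def DZ2 (W : ℝ) (J : ℕ) (y y' : List Lab → Fin k → ℝ) (f f' : Fr Lab k) : ℝ :=
  TS W J fun v => I1 (f.rk v ≠ f'.rk v) * (sq2 (y v) + sq2 (y' v))

/-- mass of the children of `v` whose rank changed -/
noncomputable def EZ (y y' : List Lab → Fin k → ℝ) (f f' : Fr Lab k) (v : List Lab) : ℝ :=
  ∑ a, I1 (f.rk (a :: v) ≠ f'.rk (a :: v)) * (sq2 (y (a :: v)) + sq2 (y' (a :: v)))

/-- change of the tracked shares at the node `v` -/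
noncomputable def EF (y' : List Lab → Fin k → ℝ) (f f' : Fr Lab k) (v : List Lab) : ℝ :=
  f'.S y' v *
    ∑ a, I1 (Clean f.rk f'.rk (a :: v) ∧ Light f.rk a v) * |f.ph (a :: v) - f'.ph (a :: v)|

/-- change of the tracked shares -/
noncomputable def DF (W : ℝ) (J : ℕ) (y' : List Lab → Fin k → ℝ) (f f' : Fr Lab k) : ℝ :=
  TS W J (EF y' f f')

/-! ### the whole state -/

structure St2 (Lab X : Type) (k M : ℕ) extends Fr Lab k where
  yb : List Lab → Fin k → ℝ
  an : List Lab → X
  cfg : Fin M → Fin k → List Lab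

variable {M : ℕ}

structure Valid2 (W : ℝ) (J : ℕ) (A : Pic Ω Lab X k) (S : St2 Lab X k M) : Prop where
  ok : S.toFr.OK J (yy A)
  n : ∀ v, NhV k (S.rk v) (sq2 (S.yb v))
  b0 : ∀ v i, 0 ≤ S.yb v i
  b1 : ∀ v i, S.yb v i ≤ 1
  a : ∀ v y, Flag S.rk v → A.Mem v y → dist (S.an v) y ≤ 24 * wt W v.length
  c : CfgOK J (S.toFr.YI M) S.cfg

structure Upd2 (W : ℝ) (J : ℕ) (A' : Pic Ω Lab X k) (S S' : St2 Lab X k M) : Prop where
  f : S.toFr.Upd (yy A') S'.toFr
  r : ∀ v, (S'.rk v = S.rk v ∧ S'.yb v = S.yb v) ∨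
    (S'.yb v = yy A' v ∧ ¬RkV (sq2 (yy A' v)) (S.rk v))
  a : ∀ v, Flag S'.rk v → (Flag S.rk v ∧ S'.an v = S.an v) ∨ (A'.Mem v (S'.an v) ∧
    (Flag S.rk v → ∃ y, A'.Mem v y ∧ 24 * wt W v.length < dist (S.an v) y))
  c : ∑ j, ∑ l, td W J (S.cfg j l) (S'.cfg j l) ≤
    10 * TS W J fun v => |((S.toFr.YI M v - S'.toFr.YI M v : ℤ) : ℝ)|

/-- all hypotheses of one step -/
structure Step2 (W : ℝ) (J : ℕ) (A A' : Pic Ω Lab X k) (S S' : St2 Lab X k M) : Prop where
  hM : 0 < M
  hW : 0 < W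
  s : Snap W J A
  s' : Snap W J A'
  m : Move W A A'
  v : Valid2 W J A S
  v' : Valid2 W J A' S'
  u : Upd2 W J A' S S'

noncomputable def DA2 (J : ℕ) (A' : Pic Ω Lab X k) (S S' : St2 Lab X k M) : ℝ :=
  ∑ v ∈ allN Lab J, I1 (Flag S.rk v ∧ Flag S'.rk v) * (sq2 (yy A' v) * dist (S.an v) (S'.an v))

/-- tracking potential -/
noncomputable def PhiF (W : ℝ) (J : ℕ) (y : List Lab → Fin k → ℝ) (f : Fr Lab k)
    (p : Fin k → List Lab) : ℝ :=
  TS W J fun v => f.G v fun a => f.Dt y (cc p) a v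

/-- quadratic snapshot potential (used for `yt` and for `yb`) -/
noncomputable def PhiS (W : ℝ) (J : ℕ) (s : List Lab → Fin k → ℝ) (p : Fin k → List Lab) : ℝ :=
  TS W J fun v => ∑ i, (s v i - cc p v i) ^ 2

/-- weight of one member of the subtree of `v` -/
noncomputable def mw (s : List Lab → Fin k → ℝ) (p : Fin k → List Lab) (v : List Lab) : ℝ :=
  (∑ i, s v i * cc p v i) / Nn p v

/-- anchor potential -/
noncomputable def PhiA2 (J : ℕ) (S : St2 Lab X k M) (p : Fin k → List Lab) (x : Fin k → X) : ℝ :=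
  ∑ v ∈ allN Lab J, I1 (Flag S.rk v) * (mw S.yt p v * ∑ l, I1 (v <:+ p l) * dist (x l) (S.an v))

/-- rounding error of one step -/
noncomputable def Err (Lab : Type) [Fintype Lab] [DecidableEq Lab] (W : ℝ) (J : ℕ) : ℝ :=
  2 * (Fintype.card Lab + 1) * J * TS W J fun _ : List Lab => 1

end Vale.Agent.P304.Sq
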