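import Vale.Agent.P304.Sq.TY

/-! P304 tight bound, TREE: integer particle numbers.

PLAN.  floor is superadditive (Int.le_floor_add, finite sums by induction).  floor_le: induction; heavy a:
M Y v = M Y(a::v) + sum_light M Y(b::v) (Y_heavy) so floor(M Y v) >= floor(M Y(a::v)) + sum floors; inactive: Y_off.
YI_err: induction; heavy: error <= error v + card Lab; light: < 1.
yOK: nonneg from floor_le and Y_nonneg; sub: a heavy child a exists (unique: heavy_unique): equality; no heavy child:
sum_b YI(b::v) = sum_light floors <= floor(M sum_light Y) <= floor (M Y v) <= YI v (sum_light); deep: rk_deep, so neither heavy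
nor light (v = a::u with rk = 0; a heavy child has rk >= er > 0).  flagI: if er v = 0 then YI v = 0 (root is active;
a::u with er = 0 is neither heavy nor light) and all children are 0; with a heavy child equality holds.
YI_le: YI v <= 4 M th(2 er v + 4) by induction as Y_le_th (heavy: the subtracted floors are >= 0), then th_add_four, le_nu;
inactive: YI = 0.  YI_move: triangle inequality with YI_err, lengths <= J (TS_mono, TS_add, TS_mul). -/

set_option linter.unusedSectionVars false

namespace Vale.Agent.P304.Sq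

open Finset

variable {Lab : Type} [Fintype Lab] [DecidableEq Lab] {k : ℕ} {W : ℝ} {J : ℕ}
  {f f' : Fr Lab k} {y y' : List Lab → Fin k → ℝ} {a : Lab} {v : List Lab}

open Classical in
theorem tint_sum (f : Fr Lab k) (M : ℕ) (v : List Lab) :
    ((∑ b, if Light f.rk b v then ⌊M * f.Y (b :: v)⌋ else 0 : ℤ) : ℝ) ≤
      M * ∑ b, I1 (Light f.rk b v) * f.Y (b :: v) ∧
    M * ∑ b, I1 (Light f.rk b v) * f.Y (b :: v) ≤
      ((∑ b, if Light f.rk b v then ⌊M * f.Y (b :: v)⌋ else 0 : ℤ) : ℝ) + Fintype.card Lab := by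
  rw [Int.cast_sum, mul_sum, ← card_univ, card_eq_sum_ones, Nat.cast_sum, ← sum_add_distrib]
  refine ⟨sum_le_sum fun b _ => ?_, sum_le_sum fun b _ => ?_⟩ <;> by_cases hl : Light f.rk b v
  · rw [if_pos hl, I1_of hl, one_mul]
    exact Int.floor_le _
  · rw [if_neg hl, I1_of_not hl]
    simp
  · rw [if_pos hl, I1_of hl, one_mul, Nat.cast_one]
    exact (Int.lt_floor_add_one _).le
  · rw [if_neg hl, I1_of_not hl]
    simp

theorem tint_off {M : ℕ} (hh : ¬Heavy f.rk a v) : f.YI M (a :: v) = ⌊M * f.Y (a :: v)⌋ := by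
  rw [Fr.YI, if_neg hh]
  split_ifs with hl
  · rfl
  · rw [Fr.Y_off fun k => (active_iff.1 k).elim hh hl, mul_zero, Int.floor_zero]

theorem tint_zero (h : f.OK J y) (M : ℕ) (hv : er f.rk v = 0) : f.YI M v = 0 := by
  cases v with
  | nil => exact absurd hv h.root_pos.ne'
  | cons a v =>
    rw [tint_off fun k => (active_iff.2 (Or.inl k)).ne' hv, h.inactive hv, mul_zero, Int.floor_zero]

theorem tint_heavy (h : f.OK J y) (M : ℕ) (ha : Heavy f.rk a v) :
    ∑ b, f.YI M (b :: v) = f.YI M v := by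
  rw [← add_sum_erase _ _ (mem_univ a), Fr.YI, if_pos ha, ← add_sum_erase _ _ (mem_univ a),
    if_neg ha.not_light, zero_add, sub_add_eq_add_sub, sub_eq_iff_eq_add]
  refine congrArg _ (sum_congr rfl fun b hb => ?_)
  rw [Fr.YI, if_neg fun k => (mem_erase.1 hb).1 (heavy_unique h.nu h.r k ha)]

namespace Fr.OK

theorem floor_le (h : f.OK J y) (M : ℕ) (v : List Lab) : ⌊M * f.Y v⌋ ≤ f.YI M v := by
  induction v with
  | nil => exact Int.floor_le_iff.2 (by rw [Fr.Y, Fr.YI]; push_cast; linarith)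
  | cons a v ih =>
    by_cases hh : Heavy f.rk a v
    · rw [Fr.YI, if_pos hh, le_sub_iff_add_le]
      refine le_trans (Int.le_floor.2 ?_) ih
      have h1 := Int.floor_le (M * f.Y (a :: v))
      have h2 := (tint_sum f M v).1
      rw [Fr.Y_heavy hh, mul_sub] at h1
      rw [Int.cast_add, Fr.Y_heavy hh, mul_sub]
      linarith
    · rw [tint_off hh]

theorem _root_.Vale.Agent.P304.Sq.tint_nonneg (h : f.OK J y) (M : ℕ) (v : List Lab) :
    0 ≤ f.YI M v :=
  (Int.floor_nonneg.2 (mul_nonneg (Nat.cast_nonneg M) (h.Y_nonneg v))).trans (h.floor_le M v)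

theorem YI_err (h : f.OK J y) (M : ℕ) (v : List Lab) :
    |(f.YI M v : ℝ) - M * f.Y v| ≤ (Fintype.card Lab + 1) * v.length := by
  induction v with
  | nil => simp [Fr.Y, Fr.YI]
  | cons a v ih =>
    have h0 : (0 : ℝ) ≤ Fintype.card Lab := Nat.cast_nonneg _
    have h1 : (0 : ℝ) ≤ (Fintype.card Lab + 1) * v.length := by positivity
    rw [List.length_cons, Nat.cast_succ, mul_add, mul_one, abs_le]
    by_cases hh : Heavy f.rk a v
    · obtain ⟨h2, h3⟩ := tint_sum f M v
      obtain ⟨h4, h5⟩ := abs_le.1 ih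
      rw [Fr.YI, if_pos hh, Fr.Y_heavy hh, Int.cast_sub, mul_sub]
      constructor <;> linarith
    · have h2 := Int.floor_le (M * f.Y (a :: v))
      have h3 := Int.lt_floor_add_one (M * f.Y (a :: v))
      rw [tint_off hh]
      constructor <;> linarith

theorem yOK (h : f.OK J y) (M : ℕ) : YOK M k J (f.YI M) := by
  refine ⟨rfl, tint_nonneg h M, fun v => ?_, fun v hv =>
    tint_zero h M (Nat.eq_zero_of_le_zero (rk_deep h.nu h.r hv ▸ er_le_rk f.rk v))⟩
  by_cases c : ∃ a, Heavy f.rk a v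
  · exact (tint_heavy h M c.choose_spec).le
  refine le_trans (Int.le_floor.2 ?_) (h.floor_le M v)
  rw [Int.cast_sum]
  refine le_trans (sum_le_sum fun b _ => ?_) ((mul_sum _ _ _).symm.trans_le
    (mul_le_mul_of_nonneg_left (h.sum_Y v) (Nat.cast_nonneg M)))
  rw [tint_off fun k => c ⟨b, k⟩]
  exact Int.floor_le _

theorem flagI (h : f.OK J y) {M : ℕ} (hv : ∑ a, f.YI M (a :: v) < f.YI M v) : Flag f.rk v := by
  refine ⟨Nat.pos_of_ne_zero fun z => hv.ne ?_, fun a ha => hv.ne (tint_heavy h M ha)⟩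
  rw [tint_zero h M z]
  exact sum_eq_zero fun b _ =>
    tint_zero h M (Nat.eq_zero_of_le_zero (z ▸ er_anti f.rk (List.suffix_cons b v)))

theorem YI_le (h : f.OK J y) (M : ℕ) (v : List Lab) : (f.YI M v : ℝ) ≤ 8 * M * sq2 (y v) := by
  have hM : (0 : ℝ) ≤ M := Nat.cast_nonneg M
  have key : ∀ v, (f.YI M v : ℝ) ≤ M * (4 * th (2 * er f.rk v + 4)) := fun v => by
    induction v with
    | nil =>
      refine le_trans (le_of_eq ?_) (mul_le_mul_of_nonneg_left (h.Y_le_th []) hM)
      rw [Fr.Y, Fr.YI]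
      push_cast
      rfl
    | cons a v ih =>
      by_cases hh : Heavy f.rk a v
      · rw [hh.er_eq]
        refine le_trans (Int.cast_le.2 ?_) ih
        exact (single_le_sum (f := fun b => f.YI M (b :: v)) (fun b _ => tint_nonneg h M _)
          (mem_univ a)).trans (tint_heavy h M hh).le
      · rw [tint_off hh]
        exact (Int.floor_le _).trans (mul_le_mul_of_nonneg_left (h.Y_le_th _) hM)
  rcases (er f.rk v).eq_zero_or_pos with z | z
  · rw [tint_zero h M z, Int.cast_zero]
    exact mul_nonneg (by positivity) (h.nu.nonneg v)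
  · refine (key v).trans ?_
    rw [mul_comm (8 : ℝ), mul_assoc]
    exact mul_le_mul_of_nonneg_left
      (by linarith [th_add_four (2 * er f.rk v), le_nu h.r z]) hM

theorem occI (h : f.OK J y) (M : ℕ) {i : Fin k} (hv : y v i = 1) : (M : ℤ) ≤ f.YI M v := by
  refine le_trans (Int.le_floor.2 ?_) (h.floor_le M v)
  exact le_mul_of_one_le_right (Nat.cast_nonneg M) (h.occupied hv)

end Fr.OK

theorem YI_move (hW : 0 < W) (h : f.OK J y) (h' : f'.OK J y') (M : ℕ) :
    TS W J (fun v => |((f.YI M v - f'.YI M v : ℤ) : ℝ)|) ≤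
      M * TS W J (fun v => |f.Y v - f'.Y v|) + Err Lab W J := by
  rw [Err, ← TS_mul, ← TS_mul, ← TS_add]
  refine TS_mono hW fun v hv => ?_
  have h1 := h.YI_err M v
  have h2 := h'.YI_err M v
  have h3 : ((Fintype.card Lab : ℝ) + 1) * v.length ≤ (Fintype.card Lab + 1) * J :=
    mul_le_mul_of_nonneg_left (Nat.cast_le.2 hv) (by positivity)
  have h4 := abs_sub_le ((f.YI M v : ℝ)) (M * f.Y v) (f'.YI M v)
  have h5 := abs_sub_le (M * f.Y v) (M * f'.Y v) (f'.YI M v)
  rw [← mul_sub, abs_mul, Nat.abs_cast, abs_sub_comm (M * f'.Y v)] at h5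
  rw [Int.cast_sub]
  linarith

end Vale.Agent.P304.Sq
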