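import Vale.Agent.P304.Sq.TDefs

/-! P304 tight bound, TREE: slot probabilities, superadditivity of their power sums.

PLAN.  cc p v i = I1 (i+1 <= Nn p v) (bb = I1 (Nn < i+1)); ttree_cnt / sum_bb (TTree) give the sums.
sum_pow_sup: for n >= 1, (yy A v i)^n = prod_{j : Fin n} sum_w ... = sum_{g : Fin n -> Omega} (prod_j w (g j)) * prod_j cc (P (g j)) v i
(Finset.prod_univ_sum / Fintype.piFinset, or sum_pow').  For fixed g let m v = sum_i prod_j cc (P (g j)) v i.  Then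
m v <= sum_i cc (P (g j)) v i = Nn (P (g j)) v for every j (factors in {0,1}), and for j0 minimizing Nn (P (g j)) v,
m v = Nn (P (g j0)) v.  So sum_a m (a::v) <= sum_a Nn (P (g j0)) (a::v) <= Nn (P (g j0)) v = m v by Nn_split.
NuOK: root yy = 1 (Nn_nil), deep yy = 0 (Nn_deep).  LB lam y = (1-lam) sum y^2 + lam sum y^3.
TS_kids: TS_child. -/

set_option linter.unusedSectionVars false

namespace Vale.Agent.P304.Sq

open Finset

variable {Lab : Type} [Fintype Lab] [DecidableEq Lab] {k : ℕ} {X : Type} [MetricSpace X]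
  {Ω : Type} [Fintype Ω] {W : ℝ} {J : ℕ} {A : Pic Ω Lab X k}

theorem TS_kids (hW : 0 < W) {g : List Lab → ℝ} (h0 : ∀ v, 0 ≤ g v) (hd : ∀ v, J < v.length → g v = 0) :
    TS W J (fun v => ∑ a, g (a :: v)) ≤ 2 * TS W J g := by
  have h1 := TS_child W hd
  have h2 := mul_nonneg hW.le (h0 [])
  linarith

theorem cc_eq (p : Fin k → List Lab) (v : List Lab) (i : Fin k) :
    cc p v i = I1 ((i : ℕ) + 1 ≤ Nn p v) := by
  unfold cc bb
  by_cases h : (i : ℕ) + 1 ≤ Nn p v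
  · rw [I1_of h, I1_of_not (not_lt.2 h), sub_zero]
  · rw [I1_of_not h, I1_of (not_le.1 h), sub_self]

theorem cc_01 (p : Fin k → List Lab) (v : List Lab) (i : Fin k) : cc p v i = 0 ∨ cc p v i = 1 := by
  rw [cc_eq]
  by_cases h : (i : ℕ) + 1 ≤ Nn p v
  · exact Or.inr (I1_of h)
  · exact Or.inl (I1_of_not h)

theorem cc_nonneg (p : Fin k → List Lab) (v : List Lab) (i : Fin k) : 0 ≤ cc p v i := by
  rw [cc_eq]
  exact I1_nonneg _

theorem cc_le_one (p : Fin k → List Lab) (v : List Lab) (i : Fin k) : cc p v i ≤ 1 := by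
  rw [cc_eq]
  exact I1_le_one _

theorem sum_cc (p : Fin k → List Lab) (v : List Lab) : ∑ i, cc p v i = Nn p v := by
  unfold cc bb
  rw [sum_sub_distrib, ttree_cnt (Nn_le p v), sum_const, card_univ, Fintype.card_fin, nsmul_eq_mul,
    mul_one, sub_sub_cancel]

theorem sq2_cc (p : Fin k → List Lab) (v : List Lab) : sq2 (cc p v) = Nn p v := by
  rw [← sum_cc]
  refine sum_congr rfl fun i _ => ?_
  rcases cc_01 p v i with h | h <;> rw [h] <;> norm_num

theorem sum_cc_sub (p p' : Fin k → List Lab) (v : List Lab) :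
    ∑ i, |cc p v i - cc p' v i| = |(Nn p v : ℝ) - Nn p' v| := by
  rw [← sum_bb]
  refine sum_congr rfl fun i _ => ?_
  unfold cc
  rw [sub_sub_sub_cancel_left, abs_sub_comm]

theorem sq2_nonneg (y : Fin k → ℝ) : 0 ≤ sq2 y := by
  exact sum_nonneg fun _ _ => sq_nonneg _

theorem yy_nonneg (h : Snap W J A) (v : List Lab) (i : Fin k) : 0 ≤ yy A v i := by
  exact sum_nonneg fun ω _ => mul_nonneg (h.nonneg ω) (cc_nonneg _ _ _)

theorem yy_le_one (h : Snap W J A) (v : List Lab) (i : Fin k) : yy A v i ≤ 1 := by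
  rw [← h.sum]
  exact sum_le_sum fun ω _ => mul_le_of_le_one_right (h.nonneg ω) (cc_le_one _ _ _)

theorem yy_const (h : Snap W J A) {p : Fin k → List Lab} (hp : A.P = fun _ => p) : yy A = cc p := by
  funext v i
  unfold yy
  rw [hp, ← sum_mul, h.sum, one_mul]

theorem tsup_min {n : ℕ} (hn : 1 ≤ n) (p : Fin n → Fin k → List Lab) (v : List Lab) :
    ∑ a, ∑ i, ∏ j, cc (p j) (a :: v) i ≤ ∑ i, ∏ j, cc (p j) v i := by
  obtain ⟨j₀, -, hj⟩ := exists_min_image univ (fun j => Nn (p j) v) ⟨⟨0, hn⟩, mem_univ _⟩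
  have h1 : ∀ u i, ∏ j, cc (p j) u i ≤ cc (p j₀) u i := fun u i => by
    rcases cc_01 (p j₀) u i with h | h
    · rw [prod_eq_zero (mem_univ j₀) h, h]
    · rw [h]
      exact prod_le_one (fun j _ => cc_nonneg _ _ _) fun j _ => cc_le_one _ _ _
  have h2 : ∀ i, cc (p j₀) v i ≤ ∏ j, cc (p j) v i := fun i => by
    by_cases h : (i : ℕ) + 1 ≤ Nn (p j₀) v
    · rw [prod_eq_one fun j _ => (cc_eq _ _ _).trans (I1_of (h.trans (hj j (mem_univ j))))]
      exact cc_le_one _ _ _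
    · rw [cc_eq, I1_of_not h]
      exact prod_nonneg fun j _ => cc_nonneg _ _ _
  refine (sum_le_sum fun a _ => sum_le_sum fun i _ => h1 (a :: v) i).trans
    (le_trans ?_ (sum_le_sum fun i _ => h2 i))
  simp only [sum_cc]
  exact_mod_cast (Nat.le_add_left _ _).trans (Nn_split (p j₀) v).ge

theorem tsup_one (h : Snap W J A) {v : List Lab} {i : Fin k}
    (hv : ∀ ω, 0 < A.w ω → (i : ℕ) + 1 ≤ Nn (A.P ω) v) : yy A v i = 1 := by
  rw [← h.sum]
  refine sum_congr rfl fun ω _ => ?_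
  rcases (h.nonneg ω).eq_or_lt with h0 | h0
  · rw [← h0, zero_mul]
  · rw [cc_eq, I1_of (hv ω h0), mul_one]

theorem sum_pow_sup (h : Snap W J A) {n : ℕ} (hn : 1 ≤ n) (v : List Lab) :
    ∑ a, ∑ i, yy A (a :: v) i ^ n ≤ ∑ i, yy A v i ^ n := by
  have key : ∀ u, ∑ i, yy A u i ^ n =
      ∑ g : Fin n → Ω, (∏ j, A.w (g j)) * ∑ i, ∏ j, cc (A.P (g j)) u i := fun u => by
    unfold yy
    simp only [Fintype.sum_pow, prod_mul_distrib, mul_sum]
    exact sum_comm
  simp only [key]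
  rw [sum_comm]
  refine sum_le_sum fun g _ => ?_
  rw [← mul_sum]
  exact mul_le_mul_of_nonneg_left (tsup_min hn (fun j => A.P (g j)) v)
    (prod_nonneg fun j _ => h.nonneg _)

theorem snap_nuOK (h : Snap W J A) : NuOK k J fun v => sq2 (yy A v) := by
  refine ⟨?_, fun v => sq2_nonneg _, fun v => sum_pow_sup h one_le_two v, fun v hv => ?_⟩
  · have h1 : ∀ i, yy A [] i = 1 := fun i => tsup_one h fun ω _ => by
      rw [Nn_nil]
      exact i.2
    unfold sq2
    simp only [h1, one_pow, sum_const, card_univ, Fintype.card_fin, nsmul_eq_mul, mul_one]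
  · refine sum_eq_zero fun i _ => ?_
    have h1 : yy A v i = 0 := sum_eq_zero fun ω _ => by
      rw [cc_eq, Nn_deep (h.len ω) hv, I1_of_not (Nat.not_succ_le_zero _), mul_zero]
    rw [h1, zero_pow two_ne_zero]

theorem snap_LB_sup (h : Snap W J A) {lam : ℝ} (h0 : 0 ≤ lam) (h1 : lam ≤ 1) (v : List Lab) :
    ∑ a, LB lam (yy A (a :: v)) ≤ LB lam (yy A v) := by
  have key : ∀ y : Fin k → ℝ, LB lam y = (1 - lam) * ∑ i, y i ^ 2 + lam * ∑ i, y i ^ 3 := fun y => by
    unfold LB ell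
    rw [sum_add_distrib, mul_sum, mul_sum]
  simp only [key]
  rw [sum_add_distrib, ← mul_sum, ← mul_sum]
  exact add_le_add (mul_le_mul_of_nonneg_left (sum_pow_sup h (by norm_num) v) (sub_nonneg.2 h1))
    (mul_le_mul_of_nonneg_left (sum_pow_sup h (by norm_num) v) h0)

theorem snap_exists_mem (h : Snap W J A) {v : List Lab} (hv : 0 < sq2 (yy A v)) : ∃ y, A.Mem v y := by
  obtain ⟨i, -, hi⟩ := exists_ne_zero_of_sum_ne_zero hv.ne'
  obtain ⟨ω, -, hω⟩ := exists_ne_zero_of_sum_ne_zero (s := univ)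
    (f := fun ω => A.w ω * cc (A.P ω) v i) (ne_zero_pow two_ne_zero hi)
  have h1 : (i : ℕ) + 1 ≤ Nn (A.P ω) v := by
    by_contra h2
    exact right_ne_zero_of_mul hω ((cc_eq _ _ _).trans (I1_of_not h2))
  obtain ⟨l, hl⟩ := Nn_pos.1 (Nat.lt_of_lt_of_le (Nat.succ_pos _) h1)
  exact ⟨A.x ω l, ω, l, (h.nonneg ω).lt_of_ne' (left_ne_zero_of_mul hω), hl, rfl⟩

/-- a surely occupied node -/
theorem snap_occupied (hk : 2 ≤ k) (h : Snap W J A) {v : List Lab}
    (hv : ∀ ω, 0 < A.w ω → ∃ l, v <:+ A.P ω l) : yy A v ⟨0, by omega⟩ = 1 := by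
  exact tsup_one h fun ω hω => Nn_pos.2 (hv ω hω)

end Vale.Agent.P304.Sq
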