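import Vale.Agent.P304.Sq.TScal
import Vale.Agent.P304.Sq.TSup

/-! P304 tight bound, TREE: barrier parameter, slacks, coefficients.

PLAN.  Write L v = sq2 (y v).  TRank applies with nu := fun v => sq2 (y v) (h.nu, h.r): nu_lt (L v < th(2 er v+4)),
le_nu, rk_le_Sk, er_le_rk, Light.er_eq, Heavy.er_eq, active_iff, heavy_unique; th_add_four: th(m+4) < 2 th m.
A light child b has th(2 rk b) <= L(b::v) (RkV, rk >= 1).
* sum_th: sum over light b of th(2 rk b) <= sum_b L(b::v) <= L v < 2 th(2 er v).  sum_ηδ, sum_δ from et_mul_dd, dd_le.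
* lam_bd: induction on v.  Root and light heads: L v < th(2er+4).  Heavy a: lam(a::v) = lam v + inc v, er equal,
  inc v = 36 sum th(2 rk b)/(600 Sk th(2er)) <= (L v - L(a::v))/(2 Sk th(2er+4)) because L v - L(a::v) >= sum over light b
  of L(b::v) (a is not light, nu.sub) and th(2er+4) < 2 th(2er).  For er v = 0: v is the root or not heavy, lam v = 1.
* lam_light: lam(a::v) - lam v >= (er v - rk)/Sk - 1/(2Sk) >= (er v - rk)/(2 Sk) = 50 eta.
* D facts termwise from tau_ge/ell_le_sq, tau_le, tau_slack.  phi in [0,1] (division by 0 is 0), sum over light phi <= 1.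
* sum_ph: ph + d <= (1+eta)(phi + d); sum_g: gg_le, (101/100)^3 <= 104/100; sum_cS: 1/eta <= 100 Sk, cD <= 400 Sk.
* G is linear in E with coefficients >= 0; Light implies Act.
* lam_move: e v = I1 (Clean v) |lam v - lam' v|.  e [] = 0.  If a::v is clean then v is clean, er v = er' v, heaviness agrees;
  not heavy: e(a::v) = 0; heavy: e(a::v) <= e v + |inc v - inc' v|, and |inc - inc'| <= 36 sum over b with rk changed of
  (L(b::v) + L'(b::v))/(600 Sk th(2er v)) (terms of b with the same rank cancel), and L' v < 2 th(2 er v).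
  So sum_a e(a::v) L'(a::v) <= e v L' v + (12/100)/Sk * EZ v; TS_le_child gives TS(e L') <= TS of the last term; EZ_sum. -/

set_option linter.unusedSectionVars false

namespace Vale.Agent.P304.Sq

open Finset

variable {Lab : Type} [Fintype Lab] [DecidableEq Lab] {k : ℕ} {W : ℝ} {J : ℕ}
  {f f' : Fr Lab k} {y y' : List Lab → Fin k → ℝ} {a : Lab} {v : List Lab}

theorem act_of_light {rk : List Lab → ℕ} (h : Light rk a v) : Act rk a v := active_iff.2 (Or.inr h)

theorem Clean.tail {rk rk' : List Lab → ℕ} (h : Clean rk rk' (a :: v)) : Clean rk rk' v :=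
  fun z hz => h z (hz.trans (List.suffix_cons a v))

theorem Clean.cons {rk rk' : List Lab → ℕ} (h : Clean rk rk' v) (ha : rk (a :: v) = rk' (a :: v)) :
    Clean rk rk' (a :: v) := fun z hz => by
  rcases List.suffix_cons_iff.1 hz with rfl | hz
  · exact ha
  · exact h z hz

theorem Clean.er_eq {rk rk' : List Lab → ℕ} (h : Clean rk rk' v) : er rk v = er rk' v := er_congr h

theorem tl_I1_le {P : Prop} {s t : ℝ} (h : P → s ≤ t) : I1 P * s ≤ I1 P * t := by
  by_cases hp : P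
  · rw [I1_of hp, one_mul, one_mul]; exact h hp
  · rw [I1_of_not hp, zero_mul, zero_mul]

theorem tl_I1_le' {P : Prop} {s t : ℝ} (h : P → s ≤ t) (ht : 0 ≤ t) : I1 P * s ≤ t := by
  by_cases hp : P
  · rw [I1_of hp, one_mul]; exact h hp
  · rw [I1_of_not hp, zero_mul]; exact ht

theorem tl_I1_nonneg {P : Prop} {s : ℝ} (h : P → 0 ≤ s) : 0 ≤ I1 P * s := by
  simpa using tl_I1_le (s := 0) h

theorem tl_I1_imp {P Q : Prop} {s : ℝ} (h : P → Q) (hs : 0 ≤ s) : I1 P * s ≤ I1 Q * s := by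
  by_cases hp : P
  · rw [I1_of hp, I1_of (h hp)]
  · rw [I1_of_not hp, zero_mul]; exact mul_nonneg (I1_nonneg _) hs

theorem tl_S_pos (hk : 2 ≤ k) : (0 : ℝ) < Sk k := by exact_mod_cast Sk_pos hk

theorem tl_lam_heavy (h : Heavy f.rk a v) : f.lam (a :: v) = f.lam v + f.inc v := by
  rw [Fr.lam, if_pos h]

theorem tl_lam_not (h : ¬Heavy f.rk a v) :
    f.lam (a :: v) = ((Sk k : ℝ) - er f.rk (a :: v)) / Sk k := by
  rw [Fr.lam, if_neg h]

theorem tl_sum_ηδ (hk : 2 ≤ k) (f : Fr Lab k) (v : List Lab) :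
    ∑ b, I1 (Light f.rk b v) * (f.η b v * f.δ b v) =
      (∑ b, I1 (Light f.rk b v) * th (2 * f.rk (b :: v))) / (600 * Sk k * th (2 * er f.rk v)) := by
  rw [sum_div]
  refine sum_congr rfl fun b _ => ?_
  by_cases hb : Light f.rk b v
  · rw [Fr.η, Fr.δ, et_mul_dd hk hb.2, mul_div_assoc]
  · rw [I1_of_not hb, zero_mul, zero_mul, zero_div]

theorem Fr.lam_congr (h : f.rk = f'.rk) : f.lam = f'.lam := by
  funext v
  induction v with
  | nil => simp only [Fr.lam, h]
  | cons a v ih =>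
    by_cases hh : Heavy f.rk a v
    · rw [tl_lam_heavy hh, tl_lam_heavy (h ▸ hh), ih]
      simp only [Fr.inc, Fr.η, Fr.δ, h]
    · rw [tl_lam_not hh, tl_lam_not (h ▸ hh), h]

namespace Fr.OK0

theorem er_le (h : f.OK0 J y) (v : List Lab) : er f.rk v ≤ Sk k := by
  exact (er_le_rk _ _).trans (rk_le_Sk h.hk h.nu h.r v)

theorem root_pos (h : f.OK0 J y) : 0 < er f.rk [] := by
  refine rk_pos (h.r []) ?_
  have h1 : sq2 (y []) = k := h.nu.root
  have h2 : (2 : ℝ) ≤ k := by exact_mod_cast h.hk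
  linarith

theorem deep (h : f.OK0 J y) (hv : J < v.length) (i : Fin k) : y v i = 0 ∧ f.yt v i = 0 := by
  have h1 : ∑ i, y v i ^ 2 = 0 := h.nu.deep v hv
  have h2 : y v i = 0 :=
    pow_eq_zero_iff two_ne_zero |>.1
      ((sum_eq_zero_iff_of_nonneg fun i _ => sq_nonneg (y v i)).1 h1 i (mem_univ i))
  have h3 := (h.near v i).2
  rw [h2, mul_zero] at h3
  exact ⟨h2, le_antisymm h3 (h.t0 v i)⟩

theorem η_ge (h : f.OK0 J y) (hl : Light f.rk a v) : 1 / (100 * (Sk k : ℝ)) ≤ f.η a v := by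
  exact et_ge h.hk hl.2

theorem η_pos (h : f.OK0 J y) (hl : Light f.rk a v) : 0 < f.η a v := by
  have := tl_S_pos h.hk
  exact lt_of_lt_of_le (by positivity) (h.η_ge hl)

theorem η_le (h : f.OK0 J y) (a : Lab) (v : List Lab) : f.η a v ≤ 1 / 100 := by
  exact et_le h.hk (h.er_le v) _

theorem δ_pos (_h : f.OK0 J y) (hl : Light f.rk a v) : 0 < f.δ a v := by
  exact dd_pos hl.2

theorem tl_th_le (h : f.OK0 J y) (hl : Light f.rk a v) :
    th (2 * f.rk (a :: v)) ≤ sq2 (y (a :: v)) := (h.r _).2 hl.1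

theorem tl_lt (h : f.OK0 J y) (v : List Lab) : sq2 (y v) < 2 * th (2 * er f.rk v) :=
  (nu_lt h.nu h.r v).trans (th_add_four _)

theorem tl_sub (h : f.OK0 J y) (v : List Lab) : ∑ a, sq2 (y (a :: v)) ≤ sq2 (y v) := h.nu.sub v

theorem tl_sum_th (h : f.OK0 J y) (ha : ¬Light f.rk a v) :
    ∑ b, I1 (Light f.rk b v) * th (2 * f.rk (b :: v)) ≤ sq2 (y v) - sq2 (y (a :: v)) := by
  have h1 := h.tl_sub v
  rw [← add_sum_erase _ _ (mem_univ a)] at h1 ⊢
  rw [I1_of_not ha, zero_mul, zero_add]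
  have h2 : ∑ b ∈ univ.erase a, I1 (Light f.rk b v) * th (2 * f.rk (b :: v)) ≤
      ∑ b ∈ univ.erase a, sq2 (y (b :: v)) :=
    sum_le_sum fun b _ => tl_I1_le' h.tl_th_le (sq2_nonneg _)
  linarith

theorem sum_th (h : f.OK0 J y) (v : List Lab) :
    ∑ b, I1 (Light f.rk b v) * th (2 * f.rk (b :: v)) ≤ 2 * th (2 * er f.rk v) := by
  exact ((sum_le_sum fun b _ => tl_I1_le' h.tl_th_le (sq2_nonneg _)).trans (h.tl_sub v)).trans
    (h.tl_lt v).le

theorem sum_ηδ (h : f.OK0 J y) (v : List Lab) :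
    ∑ b, I1 (Light f.rk b v) * (f.η b v * f.δ b v) ≤ 1 / (300 * (Sk k : ℝ)) := by
  have h1 := tl_S_pos h.hk
  have h2 := th_pos (2 * er f.rk v)
  rw [tl_sum_ηδ h.hk, div_le_div_iff₀ (by positivity) (by positivity)]
  nlinarith [h.sum_th v]

theorem sum_δ (h : f.OK0 J y) (v : List Lab) : ∑ b, I1 (Light f.rk b v) * f.δ b v ≤ 1 / 3 := by
  have h2 := th_pos (2 * er f.rk v)
  have h1 : ∑ b, I1 (Light f.rk b v) * f.δ b v ≤
      (∑ b, I1 (Light f.rk b v) * th (2 * f.rk (b :: v))) / (6 * th (2 * er f.rk v)) := by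
    rw [sum_div]
    refine sum_le_sum fun b _ => ?_
    rw [mul_div_assoc]
    exact tl_I1_le fun hb => dd_le hb.2
  refine h1.trans ?_
  rw [div_le_div_iff₀ (by positivity) (by positivity)]
  linarith [h.sum_th v]

theorem tl_head (h : f.OK0 J y) (v : List Lab) :
    0 ≤ (1 - sq2 (y v) / th (2 * er f.rk v + 4)) / (2 * Sk k) := by
  have h1 := tl_S_pos h.hk
  have h2 : sq2 (y v) / th (2 * er f.rk v + 4) ≤ 1 :=
    (div_le_one (th_pos _)).2 (nu_lt h.nu h.r v).le
  exact div_nonneg (by linarith) (by positivity)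

theorem tl_head_le (h : f.OK0 J y) (v : List Lab) :
    (1 - sq2 (y v) / th (2 * er f.rk v + 4)) / (2 * Sk k) ≤ 1 / (2 * Sk k) := by
  have h1 := tl_S_pos h.hk
  have h2 : 0 ≤ sq2 (y v) / th (2 * er f.rk v + 4) := div_nonneg (sq2_nonneg _) (th_pos _).le
  exact div_le_div_of_nonneg_right (by linarith) (by positivity)

theorem lam_bd (h : f.OK0 J y) (hv : 0 < er f.rk v) :
    ((Sk k : ℝ) - er f.rk v) / Sk k ≤ f.lam v ∧ f.lam v ≤ ((Sk k : ℝ) - er f.rk v) / Sk k +
      (1 - sq2 (y v) / th (2 * er f.rk v + 4)) / (2 * Sk k) := by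
  induction v with
  | nil => exact ⟨le_rfl, le_add_of_nonneg_right (h.tl_head _)⟩
  | cons a v ih =>
    by_cases hh : Heavy f.rk a v
    · obtain ⟨i1, i2⟩ := ih hh.1
      have hS := tl_S_pos h.hk
      have h1 := h.tl_sum_th hh.not_light
      have h2 : 0 ≤ ∑ b, I1 (Light f.rk b v) * th (2 * f.rk (b :: v)) :=
        sum_nonneg fun b _ => mul_nonneg (I1_nonneg _) (th_pos _).le
      have h3 := th_pos (2 * er f.rk v)
      have h4 := th_pos (2 * er f.rk v + 4)
      have h5 := th_add_four (2 * er f.rk v)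
      rw [tl_lam_heavy hh, hh.er_eq, Fr.inc, tl_sum_ηδ h.hk]
      generalize ∑ b, I1 (Light f.rk b v) * th (2 * f.rk (b :: v)) = s at h1 h2 ⊢
      refine ⟨i1.trans (le_add_of_nonneg_right (by positivity)), ?_⟩
      have h6 : 36 * (s / (600 * Sk k * th (2 * er f.rk v))) ≤
          (sq2 (y v) - sq2 (y (a :: v))) / th (2 * er f.rk v + 4) / (2 * Sk k) := by
        rw [div_div, ← mul_div_assoc, div_le_div_iff₀ (by positivity) (by positivity)]
        have h7 : s * th (2 * er f.rk v + 4) ≤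
            (sq2 (y v) - sq2 (y (a :: v))) * (2 * th (2 * er f.rk v)) :=
          mul_le_mul h1 h5.le h4.le (h2.trans h1)
        have h8 : 0 ≤ (sq2 (y v) - sq2 (y (a :: v))) * th (2 * er f.rk v) :=
          mul_nonneg (h2.trans h1) h3.le
        nlinarith [mul_le_mul_of_nonneg_left h7 hS.le, mul_nonneg hS.le h8]
      have h7 : (1 - sq2 (y (a :: v)) / th (2 * er f.rk v + 4)) / (2 * Sk k) =
          (1 - sq2 (y v) / th (2 * er f.rk v + 4)) / (2 * Sk k) +
          (sq2 (y v) - sq2 (y (a :: v))) / th (2 * er f.rk v + 4) / (2 * Sk k) := by ring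
      linarith
    · rw [tl_lam_not hh]
      exact ⟨le_rfl, le_add_of_nonneg_right (h.tl_head _)⟩

theorem tl_lam_zero (h : f.OK0 J y) (hv : er f.rk v = 0) : f.lam v = 1 := by
  have hS := tl_S_pos h.hk
  cases v with
  | nil => exact absurd hv h.root_pos.ne'
  | cons a v =>
    rw [tl_lam_not fun hh => absurd (hh.er_eq.symm.trans hv) hh.1.ne', hv, Nat.cast_zero, sub_zero,
      div_self hS.ne']

theorem lam_nonneg (h : f.OK0 J y) (v : List Lab) : 0 ≤ f.lam v := by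
  rcases Nat.eq_zero_or_pos (er f.rk v) with h0 | h0
  · rw [h.tl_lam_zero h0]; exact zero_le_one
  · have h1 : (er f.rk v : ℝ) ≤ Sk k := by exact_mod_cast h.er_le v
    exact (div_nonneg (by linarith) (tl_S_pos h.hk).le).trans (h.lam_bd h0).1

theorem lam_le_one (h : f.OK0 J y) (v : List Lab) : f.lam v ≤ 1 := by
  rcases Nat.eq_zero_or_pos (er f.rk v) with h0 | h0
  · exact (h.tl_lam_zero h0).le
  · have h1 : (1 : ℝ) ≤ er f.rk v := by exact_mod_cast h0
    have hS := tl_S_pos h.hk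
    refine (h.lam_bd h0).2.trans ((add_le_add le_rfl (h.tl_head_le v)).trans ?_)
    rw [div_add_div _ _ hS.ne' (by positivity), div_le_one (by positivity)]
    nlinarith

theorem lam_light (h : f.OK0 J y) (hl : Light f.rk a v) : f.lam v + 50 * f.η a v ≤ f.lam (a :: v) := by
  have hS := tl_S_pos h.hk
  have h1 : (f.rk (a :: v) : ℝ) + 1 ≤ er f.rk v := by exact_mod_cast hl.2
  have h2 := ((h.lam_bd (hl.1.trans hl.2)).2.trans (add_le_add le_rfl (h.tl_head_le v)))
  rw [tl_lam_not fun hh => hh.not_light hl, hl.er_eq, Fr.η, et]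
  have h3 : ((Sk k : ℝ) - f.rk (a :: v)) / Sk k - (((Sk k : ℝ) - er f.rk v) / Sk k + 1 / (2 * Sk k)) -
      50 * (((er f.rk v : ℝ) - f.rk (a :: v)) / (100 * Sk k)) =
      ((er f.rk v : ℝ) - f.rk (a :: v) - 1) / (2 * Sk k) := by
    field_simp
    ring
  have h4 : 0 ≤ ((er f.rk v : ℝ) - f.rk (a :: v) - 1) / (2 * Sk k) :=
    div_nonneg (by linarith) (by positivity)
  linarith

theorem clm_nonneg (_h : f.OK0 J y) (v : List Lab) : 0 ≤ clm (f.yt v) := by
  exact sum_nonneg fun i _ => tau_nonneg _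

theorem clm_le (h : f.OK0 J y) (v : List Lab) : clm (f.yt v) ≤ 4 * sq2 (y v) := by
  rw [sq2, mul_sum]
  exact sum_le_sum fun i _ => tau_le (h.near v i) (h.t0 v i)

theorem LB_bd (h : f.OK0 J y) {lam : ℝ} (h0 : 0 ≤ lam) (h1 : lam ≤ 1) (v : List Lab) :
    0 ≤ LB lam (y v) ∧ LB lam (y v) ≤ sq2 (y v) ∧ sq2 (y v) ≤ clm (f.yt v) := by
  exact ⟨sum_nonneg fun i _ => ell_nonneg h0 h1 (h.y0 v i),
    sum_le_sum fun i _ => ell_le_sq h0 (h.y0 v i) (h.y1 v i),
    sum_le_sum fun i _ => tau_ge (h.near v i) (h.y0 v i) (h.y1 v i)⟩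

theorem D_nonneg (h : f.OK0 J y) (a : Lab) (v : List Lab) : 0 ≤ f.D y a v := by
  obtain ⟨-, h1, h2⟩ := h.LB_bd (h.lam_nonneg v) (h.lam_le_one v) (a :: v)
  exact sub_nonneg.2 (h1.trans h2)

theorem D_le_sq (h : f.OK0 J y) (a : Lab) (v : List Lab) : f.D y a v ≤ 4 * sq2 (y (a :: v)) := by
  obtain ⟨h1, -, -⟩ := h.LB_bd (h.lam_nonneg v) (h.lam_le_one v) (a :: v)
  have h2 := h.clm_le (a :: v)
  rw [Fr.D]
  linarith

/-- raising the barrier parameter by `12 t` lowers the barrier by `t` times the slack -/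
theorem LB_shift (h : f.OK0 J y) (a : Lab) (v : List Lab) {t mu : ℝ} (ht : 0 ≤ t)
    (hmu : f.lam v + 12 * t ≤ mu) :
    LB mu (y (a :: v)) ≤ LB (f.lam v) (y (a :: v)) - t * f.D y a v := by
  rw [Fr.D, clm, LB, LB, ← sum_sub_distrib, mul_sum, ← sum_sub_distrib]
  refine sum_le_sum fun i _ => ?_
  have h1 := ell_sub (f.lam v) mu (y (a :: v) i)
  have h2 := tau_slack (h.near (a :: v) i) (h.t0 _ i) (h.y0 _ i) (h.y1 _ i) (h.lam_nonneg v)
    (h.lam_le_one v)
  have h3 : 0 ≤ y (a :: v) i ^ 2 * (1 - y (a :: v) i) :=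
    mul_nonneg (sq_nonneg _) (sub_nonneg.2 (h.y1 _ i))
  have h4 := mul_le_mul_of_nonneg_left h2 ht
  have h5 := mul_le_mul_of_nonneg_right (by linarith : 12 * t ≤ mu - f.lam v) h3
  linarith

theorem S_nonneg (h : f.OK0 J y) (v : List Lab) : 0 ≤ f.S y v := by
  exact sum_nonneg fun a _ => mul_nonneg (I1_nonneg _) (h.D_nonneg a v)

theorem C_le (h : f.OK0 J y) (v : List Lab) : f.C v ≤ 4 * sq2 (y v) := by
  refine (sum_le_sum fun a _ => tl_I1_le' (fun _ => h.clm_le (a :: v))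
    (mul_nonneg (by norm_num) (sq2_nonneg _))).trans ?_
  rw [← mul_sum]
  linarith [h.tl_sub v]

theorem S_le (h : f.OK0 J y) (v : List Lab) : f.S y v ≤ 4 * sq2 (y v) := by
  refine (sum_le_sum fun a _ => tl_I1_le' (fun _ => h.D_le_sq a v)
    (mul_nonneg (by norm_num) (sq2_nonneg _))).trans ?_
  rw [← mul_sum]
  linarith [h.tl_sub v]

theorem D_le_S (h : f.OK0 J y) (ha : Act f.rk a v) : f.D y a v ≤ f.S y v := by
  have := single_le_sum (f := fun a => I1 (Act f.rk a v) * f.D y a v)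
    (fun a _ => mul_nonneg (I1_nonneg _) (h.D_nonneg a v)) (mem_univ a)
  rwa [I1_of ha, one_mul] at this

theorem phi_bd (h : f.OK0 J y) (ha : Act f.rk a v) : 0 ≤ f.phi y a v ∧ f.phi y a v ≤ 1 := by
  exact ⟨div_nonneg (h.D_nonneg a v) (h.S_nonneg v),
    div_le_one_of_le₀ (h.D_le_S ha) (h.S_nonneg v)⟩

theorem sum_phi (h : f.OK0 J y) (v : List Lab) : ∑ b, I1 (Light f.rk b v) * f.phi y b v ≤ 1 := by
  refine le_trans ?_ (div_self_le_one (f.S y v))
  conv_rhs => rw [Fr.S, sum_div]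
  refine sum_le_sum fun b _ => ?_
  rw [mul_div_assoc]
  exact tl_I1_imp act_of_light (div_nonneg (h.D_nonneg b v) (h.S_nonneg v))

/-- the additive shift times the total slack is comparable with the mass of the child -/
theorem δ_mul_S (h : f.OK0 J y) (hl : Light f.rk a v) :
    f.δ a v * f.S y v ≤ 4 / 3 * sq2 (y (a :: v)) := by
  have h1 : f.δ a v ≤ th (2 * f.rk (a :: v)) / (6 * th (2 * er f.rk v)) := dd_le hl.2
  have h2 := th_pos (2 * er f.rk v)
  have h3 := h.tl_th_le hl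
  have h4 : f.S y v ≤ 8 * th (2 * er f.rk v) := by linarith [h.S_le v, h.tl_lt v]
  have h5 := th_pos (2 * f.rk (a :: v))
  refine (mul_le_mul h1 h4 (h.S_nonneg v) (by positivity)).trans ?_
  have e : th (2 * f.rk (a :: v)) / (6 * th (2 * er f.rk v)) * (8 * th (2 * er f.rk v)) =
      4 / 3 * th (2 * f.rk (a :: v)) := by
    field_simp
    ring
  linarith

end Fr.OK0

namespace Fr.OK

theorem sum_ph (h : f.OK J y) (v : List Lab) :
    ∑ b, I1 (Light f.rk b v) * (f.ph (b :: v) + f.δ b v) ≤ 27 / 20 := by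
  have h0 := h.toOK0
  have h1 : ∑ b, I1 (Light f.rk b v) * (f.ph (b :: v) + f.δ b v) ≤
      ∑ b, I1 (Light f.rk b v) * (101 / 100 * (f.phi y b v + f.δ b v)) := by
    refine sum_le_sum fun b _ => tl_I1_le fun hb => (h.cl b v hb).2.trans ?_
    exact mul_le_mul_of_nonneg_right (by linarith [h0.η_le b v])
      (add_nonneg (h0.phi_bd (act_of_light hb)).1 (h0.δ_pos hb).le)
  have h2 : ∑ b, I1 (Light f.rk b v) * (101 / 100 * (f.phi y b v + f.δ b v)) = 101 / 100 *
      (∑ b, I1 (Light f.rk b v) * f.phi y b v + ∑ b, I1 (Light f.rk b v) * f.δ b v) := by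
    rw [← sum_add_distrib, mul_sum]
    exact sum_congr rfl fun b _ => by ring
  linarith [h0.sum_phi v, h0.sum_δ v]

theorem sum_g (h : f.OK J y) (v : List Lab) : ∑ b, I1 (Light f.rk b v) * f.g b v ≤ 104 / 100 := by
  have h0 := h.toOK0
  have h1 : ∑ b, I1 (Light f.rk b v) * f.g b v ≤
      ∑ b, I1 (Light f.rk b v) * (104 / 100 * f.phi y b v) := by
    refine sum_le_sum fun b _ => tl_I1_le fun hb => ?_
    have h2 := (h0.phi_bd (act_of_light hb)).1
    have h3 := (h0.η_pos hb).le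
    refine (gg_le h3 h2 (h.cl b v hb)).trans (mul_le_mul_of_nonneg_right ?_ h2)
    exact (pow_le_pow_left₀ (by linarith) (by linarith [h0.η_le b v] : _ ≤ (101 / 100 : ℝ)) 3).trans
      (by norm_num)
  have h2 : ∑ b, I1 (Light f.rk b v) * (104 / 100 * f.phi y b v) =
      104 / 100 * ∑ b, I1 (Light f.rk b v) * f.phi y b v := by
    rw [mul_sum]
    exact sum_congr rfl fun b _ => by ring
  linarith [h0.sum_phi v]

theorem cD_bd (h : f.OK J y) (hl : Light f.rk a v) :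
    0 ≤ cD (f.η a v) (f.δ a v) (f.ph (a :: v)) ∧ cD (f.η a v) (f.δ a v) (f.ph (a :: v)) ≤ 400 * Sk k := by
  exact ⟨cD_nonneg (h.toOK0.η_pos hl) (h.toOK0.δ_pos hl) (h.p0 _) (h.p1 _),
    cD_le h.hk hl.2 (h.p0 _)⟩

theorem cS_nonneg (h : f.OK J y) (hl : Light f.rk a v) :
    0 ≤ cS (f.η a v) (f.δ a v) (f.ph (a :: v)) := by
  exact Sq.cS_nonneg (h.toOK0.η_pos hl) (h.toOK0.δ_pos hl) (h.p0 _) (h.p1 _)

theorem sum_cS (h : f.OK J y) (v : List Lab) :
    ∑ b, I1 (Light f.rk b v) * cS (f.η b v) (f.δ b v) (f.ph (b :: v)) ≤ 270 * Sk k := by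
  have h0 := h.toOK0
  have hS := tl_S_pos h.hk
  have h1 : ∑ b, I1 (Light f.rk b v) * cS (f.η b v) (f.δ b v) (f.ph (b :: v)) ≤
      ∑ b, I1 (Light f.rk b v) *
        (100 * Sk k * (f.ph (b :: v) + f.δ b v) + 400 * Sk k * f.δ b v) := by
    refine sum_le_sum fun b _ => tl_I1_le fun hb => add_le_add ?_ ?_
    · have h2 := h0.η_ge hb
      have h3 := add_nonneg (h.p0 (b :: v)) (h0.δ_pos hb).le
      rw [div_le_iff₀ (by positivity)] at h2
      rw [div_le_iff₀ (h0.η_pos hb)]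
      nlinarith
    · rw [mul_comm]
      exact mul_le_mul_of_nonneg_right (h.cD_bd hb).2 (h0.δ_pos hb).le
  have h2 : ∑ b, I1 (Light f.rk b v) *
      (100 * Sk k * (f.ph (b :: v) + f.δ b v) + 400 * Sk k * f.δ b v) =
      100 * Sk k * ∑ b, I1 (Light f.rk b v) * (f.ph (b :: v) + f.δ b v) +
        400 * Sk k * ∑ b, I1 (Light f.rk b v) * f.δ b v := by
    rw [mul_sum, mul_sum, ← sum_add_distrib]
    exact sum_congr rfl fun b _ => by ring
  nlinarith [h.sum_ph v, h0.sum_δ v]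

theorem G_mono (h : f.OK J y) (v : List Lab) {E E' : Lab → ℝ} (hE : ∀ a, E a ≤ E' a) :
    f.G v E ≤ f.G v E' := by
  refine sum_le_sum fun a _ => tl_I1_le fun ha => add_le_add ?_ ?_
  · exact mul_le_mul_of_nonneg_left
      (sum_le_sum fun b _ => mul_le_mul_of_nonneg_left (hE b) (I1_nonneg _)) (h.cS_nonneg ha)
  · exact mul_le_mul_of_nonneg_left (hE a) (h.cD_bd ha).1

theorem G_le (h : f.OK J y) (v : List Lab) (E E' : Lab → ℝ) :
    f.G v E' - f.G v E ≤ 670 * Sk k * ∑ a, I1 (Act f.rk a v) * |E' a - E a| := by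
  have hS := tl_S_pos h.hk
  set Z := ∑ a, I1 (Act f.rk a v) * |E' a - E a| with hZ
  have hZ0 : 0 ≤ Z := sum_nonneg fun a _ => mul_nonneg (I1_nonneg _) (abs_nonneg _)
  have h1 : ∑ b, I1 (Act f.rk b v) * E' b - ∑ b, I1 (Act f.rk b v) * E b ≤ Z := by
    rw [← sum_sub_distrib]
    refine sum_le_sum fun b _ => ?_
    rw [← mul_sub]
    exact mul_le_mul_of_nonneg_left (le_abs_self _) (I1_nonneg _)
  have h2 : f.G v E' - f.G v E ≤ ∑ a, I1 (Light f.rk a v) *
      (cS (f.η a v) (f.δ a v) (f.ph (a :: v)) * Z + 400 * Sk k * |E' a - E a|) := by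
    rw [Fr.G, Fr.G, ← sum_sub_distrib]
    refine sum_le_sum fun a _ => ?_
    rw [← mul_sub]
    refine tl_I1_le fun ha => ?_
    have h3 := mul_le_mul_of_nonneg_left h1 (h.cS_nonneg ha)
    have h4 := mul_le_mul_of_nonneg_left (le_abs_self (E' a - E a)) (h.cD_bd ha).1
    have h5 := mul_le_mul_of_nonneg_right (h.cD_bd ha).2 (abs_nonneg (E' a - E a))
    linarith
  have h3 : ∑ a, I1 (Light f.rk a v) *
      (cS (f.η a v) (f.δ a v) (f.ph (a :: v)) * Z + 400 * Sk k * |E' a - E a|) =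
      (∑ a, I1 (Light f.rk a v) * cS (f.η a v) (f.δ a v) (f.ph (a :: v))) * Z +
        400 * Sk k * ∑ a, I1 (Light f.rk a v) * |E' a - E a| := by
    rw [sum_mul, mul_sum, ← sum_add_distrib]
    exact sum_congr rfl fun b _ => by ring
  have h4 : ∑ a, I1 (Light f.rk a v) * |E' a - E a| ≤ Z :=
    sum_le_sum fun a _ => tl_I1_imp act_of_light (abs_nonneg _)
  have h5 := mul_le_mul_of_nonneg_right (h.sum_cS v) hZ0
  have h6 := mul_le_mul_of_nonneg_left h4 (by positivity : (0 : ℝ) ≤ 400 * Sk k)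
  linarith

end Fr.OK

theorem Fr.G_zero (f : Fr Lab k) (v : List Lab) : f.G v (fun _ => 0) = 0 := by
  simp [Fr.G]

theorem EZ_nonneg (y y' : List Lab → Fin k → ℝ) (f f' : Fr Lab k) (v : List Lab) : 0 ≤ EZ y y' f f' v := by
  exact sum_nonneg fun a _ => mul_nonneg (I1_nonneg _) (add_nonneg (sq2_nonneg _) (sq2_nonneg _))

theorem EZ_sum (hW : 0 < W) (h : f.OK0 J y) (h' : f'.OK0 J y') :
    TS W J (EZ y y' f f') ≤ 2 * DZ2 W J y y' f f' := by
  refine TS_kids hW (g := fun v => I1 (f.rk v ≠ f'.rk v) * (sq2 (y v) + sq2 (y' v)))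
    (fun v => mul_nonneg (I1_nonneg _) (add_nonneg (sq2_nonneg _) (sq2_nonneg _))) fun v hv => ?_
  have h1 : sq2 (y v) = 0 := h.nu.deep v hv
  have h2 : sq2 (y' v) = 0 := h'.nu.deep v hv
  simp only [h1, h2, add_zero, mul_zero]

theorem tl_inc_move (h : f.OK0 J y) (h' : f'.OK0 J y') (he : er f.rk v = er f'.rk v) :
    |f.inc v - f'.inc v| * sq2 (y' v) ≤ 12 / 100 / Sk k * EZ y y' f f' v := by
  have hS := tl_S_pos h.hk
  have ht := th_pos (2 * er f'.rk v)
  have h1 : |∑ b, I1 (Light f.rk b v) * th (2 * f.rk (b :: v)) -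
      ∑ b, I1 (Light f'.rk b v) * th (2 * f'.rk (b :: v))| ≤ EZ y y' f f' v := by
    rw [← sum_sub_distrib]
    refine (abs_sum_le_sum_abs _ _).trans (sum_le_sum fun b _ => ?_)
    by_cases hb : f.rk (b :: v) = f'.rk (b :: v)
    · have e : Light f.rk b v = Light f'.rk b v := by rw [Light, Light, hb, he]
      rw [e, hb, sub_self, abs_zero, I1_of_not (not_not.2 rfl), zero_mul]
    · have g1 := tl_I1_le' (h.tl_th_le (a := b) (v := v)) (sq2_nonneg _)
      have g2 := tl_I1_le' (h'.tl_th_le (a := b) (v := v)) (sq2_nonneg _)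
      have g3 := mul_nonneg (I1_nonneg (Light f.rk b v)) (th_pos (2 * f.rk (b :: v))).le
      have g4 := mul_nonneg (I1_nonneg (Light f'.rk b v)) (th_pos (2 * f'.rk (b :: v))).le
      rw [I1_of (P := f.rk (b :: v) ≠ f'.rk (b :: v)) hb, one_mul, abs_le]
      constructor <;> linarith
  rw [Fr.inc, Fr.inc, tl_sum_ηδ h.hk, tl_sum_ηδ h.hk, he, ← mul_sub, ← sub_div, abs_mul, abs_div,
    abs_of_pos (by norm_num : (0 : ℝ) < 36),
    abs_of_pos (by positivity : (0 : ℝ) < 600 * Sk k * th (2 * er f'.rk v))]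
  have h2 := EZ_nonneg y y' f f' v
  calc _ ≤ 36 * (EZ y y' f f' v / (600 * Sk k * th (2 * er f'.rk v))) *
        (2 * th (2 * er f'.rk v)) :=
        mul_le_mul (by gcongr) (h'.tl_lt v).le (sq2_nonneg _) (by positivity)
    _ = _ := by
        field_simp
        ring

theorem tl_local (h : f.OK0 J y) (h' : f'.OK0 J y') (v : List Lab) :
    ∑ a, I1 (Clean f.rk f'.rk (a :: v)) * (|f.lam (a :: v) - f'.lam (a :: v)| * sq2 (y' (a :: v))) ≤
      I1 (Clean f.rk f'.rk v) * (|f.lam v - f'.lam v| * sq2 (y' v)) +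
        12 / 100 / Sk k * EZ y y' f f' v := by
  have hS := tl_S_pos h.hk
  have hE := EZ_nonneg y y' f f' v
  by_cases hc : Clean f.rk f'.rk v
  · have he := hc.er_eq
    have h1 : ∀ a, I1 (Clean f.rk f'.rk (a :: v)) *
        (|f.lam (a :: v) - f'.lam (a :: v)| * sq2 (y' (a :: v))) ≤
        (|f.lam v - f'.lam v| + |f.inc v - f'.inc v|) * sq2 (y' (a :: v)) := by
      intro a
      refine tl_I1_le' (fun ha => mul_le_mul_of_nonneg_right ?_ (sq2_nonneg _))
        (mul_nonneg (by positivity) (sq2_nonneg _))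
      have e : Heavy f.rk a v ↔ Heavy f'.rk a v := by
        rw [Heavy, Heavy, he, ha _ (List.suffix_refl _)]
      by_cases hh : Heavy f.rk a v
      · rw [tl_lam_heavy hh, tl_lam_heavy (e.1 hh), add_sub_add_comm]
        exact abs_add_le _ _
      · rw [tl_lam_not hh, tl_lam_not fun h2 => hh (e.2 h2), ha.er_eq, sub_self, abs_zero]
        positivity
    refine (sum_le_sum fun a _ => h1 a).trans ?_
    rw [← mul_sum, I1_of hc, one_mul]
    refine (mul_le_mul_of_nonneg_left (h'.tl_sub v) (by positivity)).trans ?_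
    rw [add_mul]
    exact add_le_add le_rfl (tl_inc_move h h' he)
  · rw [I1_of_not hc, zero_mul, zero_add,
      sum_eq_zero fun a _ => by rw [I1_of_not fun ha => hc ha.tail, zero_mul]]
    positivity

theorem lam_move (hW : 0 < W) (h : f.OK0 J y) (h' : f'.OK0 J y') :
    TS W J (fun v => I1 (Clean f.rk f'.rk v) * (|f.lam v - f'.lam v| * sq2 (y' v))) ≤
      DZ2 W J y y' f f' / Sk k := by
  have hS := tl_S_pos h.hk
  have h1 := TS_le_child (J := J) hW
    (f := fun v => I1 (Clean f.rk f'.rk v) * (|f.lam v - f'.lam v| * sq2 (y' v)))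
    fun v => mul_nonneg (I1_nonneg _) (mul_nonneg (abs_nonneg _) (sq2_nonneg _))
  have h2 : I1 (Clean f.rk f'.rk []) * (|f.lam [] - f'.lam []| * sq2 (y' [])) = 0 := by
    by_cases hc : Clean f.rk f'.rk []
    · rw [Fr.lam, Fr.lam, hc.er_eq, sub_self, abs_zero, zero_mul, mul_zero]
    · rw [I1_of_not hc, zero_mul]
  have h3 := TS_mono (J := J) hW fun v _ => tl_local h h' v
  rw [TS_add, TS_mul] at h3
  have h4 := mul_le_mul_of_nonneg_left (EZ_sum hW h h') (by positivity : (0 : ℝ) ≤ 12 / 100 / Sk k)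
  have h5 : 0 ≤ DZ2 W J y y' f f' / Sk k :=
    div_nonneg (TS_nonneg hW fun v =>
      mul_nonneg (I1_nonneg _) (add_nonneg (sq2_nonneg _) (sq2_nonneg _))) hS.le
  have h6 : 12 / 100 / Sk k * (2 * DZ2 W J y y' f f') = 24 / 100 * (DZ2 W J y y' f f' / Sk k) := by
    ring
  simp only [h2] at h1
  linarith

end Vale.Agent.P304.Sq
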