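import Vale.Agent.P304.Sq.TY

/-! P304 tight bound, TREE: movement of the fractional masses.

PLAN.  clm_move: termwise, not_near (a refreshed slot has f'.yt = y').  kids_clm: TS_kids (deep: OK0.deep), clm_move.
move_node (v clean; if er v = 0 all children are inactive in both states, Y_off).  Let Z = children whose rank changed; for a not in Z
the node a::v is clean (Clean.cons), Light/Heavy/Act, eta, delta agree in both states.
 a in Z: |Y - Y'| <= 8 (L + L') (Y_nonneg, Y_le).  a not in Z, light: Y - Y' = (clm - clm') - (R - R') g - R' (g - g'),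
 R' <= S' (R_le), |g - g'| <= 1.03 |ph - ph'| (gg_lip).  G := sum over light a not in Z of g a v <= 104/100 (sum_g).
 |C - C'| <= sum_a |clm - clm'| + 4 EZ (clm_le).
 If some h is heavy in both states: Y_h - Y'_h = (Y v - Y' v) - sum_{b <> h} (Y_b - Y'_b) (Y_heavy, heavy_unique, Y_off), so
 |Y_h - Y'_h| <= |(Y v - Y' v) + (R - R') G| + sum|clm - clm'| + 1.03 EF + 8 EZ; add the others and use deficit_ineq
 (R = max (C - Y) 0).  If no child is heavy in both states, every child outside Z is light in both or inactive in both, and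
 |R - R'| G <= the left side of deficit_ineq.
move_Y2: TS_le_child for |Y - Y'| (root: 0); clean v: move_node; not clean (there is z <:+ v with rk z <> rk' z):
 sum_a |..| <= Y v + Y' v <= 8 (L v + L' v) (sum_Y), dirty_le with nu := L + L'.  So DY <= 1/2 (1.1 DY + 500 DT + 2.1 DF + 56 DZ + 16 DZ). -/

set_option linter.unusedSectionVars false

namespace Vale.Agent.P304.Sq

open Finset

variable {Lab : Type} [Fintype Lab] [DecidableEq Lab] {k : ℕ} {W : ℝ} {J : ℕ}
  {f f' : Fr Lab k} {y y' : List Lab → Fin k → ℝ} {a : Lab} {v : List Lab}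

theorem clm_move (h : f.OK0 J y) (h' : f'.OK0 J y') (u : f.Upd y' f') (v : List Lab) :
    |clm (f.yt v) - clm (f'.yt v)| ≤ 50 * ∑ i, (f.yt v i - f'.yt v i) ^ 2 := by
  rw [clm, clm, ← sum_sub_distrib, mul_sum]
  refine (abs_sum_le_sum_abs _ _).trans (sum_le_sum fun i _ => ?_)
  rcases u.t v i with e | ⟨e, n⟩ <;> rw [e]
  · simp
  · exact (not_near (h'.y0 v i) (h.t0 v i) n).2

theorem kids_clm (hW : 0 < W) (h : f.OK0 J y) (h' : f'.OK0 J y') (u : f.Upd y' f') :
    TS W J (fun v => ∑ a, |clm (f.yt (a :: v)) - clm (f'.yt (a :: v))|) ≤ 100 * DT W J f f' := by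
  have h1 := TS_kids (J := J) hW (g := fun v => ∑ i, (f.yt v i - f'.yt v i) ^ 2)
    (fun v => by positivity) fun v hv => sum_eq_zero fun i _ => by
      rw [(h.deep hv i).2, (h'.deep hv i).2]
      simp
  have h2 := TS_mono (J := J) hW fun v _ => (sum_le_sum fun a (_ : a ∈ univ) =>
    clm_move h h' u (a :: v)).trans (mul_sum _ _ _).ge
  rw [TS_mul] at h2
  unfold DT
  linarith

theorem EF_nonneg (h' : f'.OK0 J y') (f : Fr Lab k) (v : List Lab) : 0 ≤ EF y' f f' v := by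
  exact mul_nonneg (h'.S_nonneg v) (sum_nonneg fun a _ => mul_nonneg (I1_nonneg _) (abs_nonneg _))

theorem tmove_heavy (h : f.OK J y) (ha : Heavy f.rk a v) : ∑ b, f.Y (b :: v) = f.Y v := by
  have e : ∑ b, f.Y (b :: v) = ∑ b, I1 (Act f.rk b v) * f.Y (b :: v) := sum_congr rfl fun b _ => by
    by_cases hb : Act f.rk b v
    · rw [I1_of hb, one_mul]
    · rw [Fr.Y_off hb, mul_zero]
  rw [e, ty_heavy h.toOK0 ha fun b => f.Y (b :: v), Fr.Y_heavy ha, sub_add_cancel]

theorem tmove_C (h : f.OK0 J y) (h' : f'.OK0 J y') (hv : Clean f.rk f'.rk v) :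
    |f.C v - f'.C v| ≤ ∑ a, |clm (f.yt (a :: v)) - clm (f'.yt (a :: v))| + 4 * EZ y y' f f' v := by
  rw [Fr.C, Fr.C, EZ, ← sum_sub_distrib, mul_sum, ← sum_add_distrib]
  refine (abs_sum_le_sum_abs _ _).trans (sum_le_sum fun a _ => ?_)
  by_cases c : f.rk (a :: v) = f'.rk (a :: v)
  · rw [I1_of_not (not_not.2 c), zero_mul, mul_zero, add_zero, Act, Act, (hv.cons c).er_eq,
      ← mul_sub, abs_mul, abs_of_nonneg (I1_nonneg _)]
    exact mul_le_of_le_one_left (abs_nonneg _) (I1_le_one _)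
  · refine le_trans ?_ (le_add_of_nonneg_left (abs_nonneg _))
    have h1 := mul_nonneg (I1_nonneg (Act f.rk a v)) (h.clm_nonneg (a :: v))
    have h2 := mul_nonneg (I1_nonneg (Act f'.rk a v)) (h'.clm_nonneg (a :: v))
    have h3 := mul_le_of_le_one_left (h.clm_nonneg (a :: v)) (I1_le_one (Act f.rk a v))
    have h4 := mul_le_of_le_one_left (h'.clm_nonneg (a :: v)) (I1_le_one (Act f'.rk a v))
    rw [I1_of c, one_mul, abs_le]
    constructor <;> linarith [h.clm_le (a :: v), h'.clm_le (a :: v)]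

theorem tmove_one (h : f.OK J y) (h' : f'.OK J y') (hv : Clean f.rk f'.rk v)
    (hh : ¬(Heavy f.rk a v ∧ Heavy f'.rk a v)) :
    |f.Y (a :: v) - f'.Y (a :: v) + (f.R v - f'.R v) *
        (I1 (Clean f.rk f'.rk (a :: v) ∧ Light f.rk a v) * f.g a v)| ≤
      |clm (f.yt (a :: v)) - clm (f'.yt (a :: v))| + 103 / 100 * (f'.S y' v *
        (I1 (Clean f.rk f'.rk (a :: v) ∧ Light f.rk a v) * |f.ph (a :: v) - f'.ph (a :: v)|)) +
      8 * (I1 (f.rk (a :: v) ≠ f'.rk (a :: v)) * (sq2 (y (a :: v)) + sq2 (y' (a :: v)))) := by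
  by_cases c : f.rk (a :: v) = f'.rk (a :: v)
  · have e3 : Heavy f.rk a v ↔ Heavy f'.rk a v := by rw [Heavy, Heavy, c, hv.er_eq]
    have e4 : Light f.rk a v ↔ Light f'.rk a v := by rw [Light, Light, c, hv.er_eq]
    rw [I1_of_not (not_not.2 c), zero_mul, mul_zero, add_zero]
    by_cases l : Light f.rk a v
    · have l' := e4.1 l
      have e5 : f'.g a v = gg (f.η a v) (f.δ a v) (f'.ph (a :: v)) := by
        rw [Fr.g, Fr.η, Fr.δ, Fr.η, Fr.δ, c, hv.er_eq]
      rw [I1_of ⟨hv.cons c, l⟩, one_mul, one_mul, Fr.Y_light l, Fr.Y_light l',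
        show clm (f.yt (a :: v)) - f.R v * f.g a v - (clm (f'.yt (a :: v)) - f'.R v * f'.g a v) +
          (f.R v - f'.R v) * f.g a v = clm (f.yt (a :: v)) - clm (f'.yt (a :: v)) -
          f'.R v * (f.g a v - f'.g a v) by ring]
      refine (abs_sub _ _).trans (add_le_add le_rfl ?_)
      rw [abs_mul, abs_of_nonneg (show 0 ≤ f'.R v from le_max_right _ _), mul_left_comm, e5]
      exact mul_le_mul (h'.R_le (l'.1.trans l'.2)) (gg_lip (h.η_pos l).le (h.η_le a v) _ _ _)
        (abs_nonneg _) (h'.S_nonneg v)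
    · rw [I1_of_not fun k : _ ∧ _ => l k.2,
        Fr.Y_off fun k => (active_iff.1 k).elim (fun k => hh ⟨k, e3.1 k⟩) l,
        Fr.Y_off fun k => (active_iff.1 k).elim (fun k => hh ⟨e3.2 k, k⟩) fun k => l (e4.2 k)]
      simp
  · rw [I1_of_not fun k : Clean _ _ _ ∧ _ => c (k.1 _ List.suffix_rfl), I1_of c]
    simp only [zero_mul, mul_zero, add_zero, one_mul]
    refine le_trans ?_ (le_add_of_nonneg_left (abs_nonneg _))
    rw [abs_le]
    constructor <;> linarith [h.Y_le (a :: v), h'.Y_le (a :: v), h.Y_nonneg (a :: v),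
      h'.Y_nonneg (a :: v), h.nu.nonneg (a :: v), h'.nu.nonneg (a :: v)]

theorem move_node (h : f.OK J y) (h' : f'.OK J y') (hv : Clean f.rk f'.rk v) :
    ∑ a, |f.Y (a :: v) - f'.Y (a :: v)| ≤ 11 / 10 * |f.Y v - f'.Y v| +
      5 * ∑ a, |clm (f.yt (a :: v)) - clm (f'.yt (a :: v))| + 21 / 10 * EF y' f f' v +
      28 * EZ y y' f f' v := by
  have g0 : ∀ a, 0 ≤ I1 (Clean f.rk f'.rk (a :: v) ∧ Light f.rk a v) * f.g a v := fun a =>
    mul_nonneg (I1_nonneg _) (gg_nonneg _ _ _)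
  have hG : ∑ a, I1 (Clean f.rk f'.rk (a :: v) ∧ Light f.rk a v) * f.g a v ≤ 104 / 100 := by
    refine (sum_le_sum fun a _ => mul_le_mul_of_nonneg_right ?_ (gg_nonneg _ _ _)).trans (h.sum_g v)
    by_cases c : Clean f.rk f'.rk (a :: v) ∧ Light f.rk a v
    · rw [I1_of c, I1_of c.2]
    · rw [I1_of_not c]
      exact I1_nonneg _
  have hd : |(f.Y v - f'.Y v) + (f.R v - f'.R v) * _| + |f.R v - f'.R v| * _ ≤ _ :=
    deficit_ineq (sum_nonneg fun a _ => g0 a) hG (f.Y v) (f'.Y v) (f.C v) (f'.C v)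
  have hC := tmove_C h.toOK0 h'.toOK0 hv
  have hE := EF_nonneg h'.toOK0 f v
  have hZ := EZ_nonneg y y' f f' v
  have hc : 0 ≤ ∑ a, |clm (f.yt (a :: v)) - clm (f'.yt (a :: v))| := by positivity
  have hU : ∀ T : Finset Lab, (∀ a ∈ T, ¬(Heavy f.rk a v ∧ Heavy f'.rk a v)) →
      ∑ a ∈ T, |f.Y (a :: v) - f'.Y (a :: v) + (f.R v - f'.R v) *
        (I1 (Clean f.rk f'.rk (a :: v) ∧ Light f.rk a v) * f.g a v)| ≤
      ∑ a, |clm (f.yt (a :: v)) - clm (f'.yt (a :: v))| + 103 / 100 * EF y' f f' v +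
        8 * EZ y y' f f' v := fun T hT => by
    rw [EF, EZ, mul_sum, mul_sum, mul_sum, ← sum_add_distrib, ← sum_add_distrib]
    refine (sum_le_sum fun a ha => tmove_one h h' hv (hT a ha)).trans
      (sum_le_sum_of_subset_of_nonneg (subset_univ T) fun a _ _ => ?_)
    have := mul_nonneg (h'.S_nonneg v) (mul_nonneg (I1_nonneg
      (Clean f.rk f'.rk (a :: v) ∧ Light f.rk a v)) (abs_nonneg (f.ph (a :: v) - f'.ph (a :: v))))
    have := mul_nonneg (I1_nonneg (f.rk (a :: v) ≠ f'.rk (a :: v)))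
      (add_nonneg (h.nu.nonneg (a :: v)) (h'.nu.nonneg (a :: v)))
    positivity
  have hT : ∀ T : Finset Lab, ∑ a ∈ T, |f.Y (a :: v) - f'.Y (a :: v)| ≤
      ∑ a ∈ T, |f.Y (a :: v) - f'.Y (a :: v) + (f.R v - f'.R v) *
        (I1 (Clean f.rk f'.rk (a :: v) ∧ Light f.rk a v) * f.g a v)| +
      |f.R v - f'.R v| * ∑ a, I1 (Clean f.rk f'.rk (a :: v) ∧ Light f.rk a v) * f.g a v := fun T => by
    refine le_trans ?_ (add_le_add le_rfl (mul_le_mul_of_nonneg_left
      (sum_le_sum_of_subset_of_nonneg (subset_univ T) fun a _ _ => g0 a) (abs_nonneg _)))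
    rw [mul_sum, ← sum_add_distrib]
    refine sum_le_sum fun a _ => ?_
    rw [← abs_of_nonneg (g0 a), ← abs_mul, abs_of_nonneg (g0 a)]
    exact le_trans (by rw [add_sub_cancel_right]) (abs_sub _ _)
  by_cases c : ∃ a, Heavy f.rk a v ∧ Heavy f'.rk a v
  · obtain ⟨a, ha, ha'⟩ := c
    have h1 := hU (univ.erase a) fun b hb k => (mem_erase.1 hb).1 (heavy_unique h.nu h.r k.1 ha)
    have h2 := hT (univ.erase a)
    have h3 := tmove_heavy h ha
    have h4 := tmove_heavy h' ha'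
    have h5 : f.Y (a :: v) - f'.Y (a :: v) = (f.Y v - f'.Y v + (f.R v - f'.R v) *
        ∑ b, I1 (Clean f.rk f'.rk (b :: v) ∧ Light f.rk b v) * f.g b v) -
        ∑ b ∈ univ.erase a, (f.Y (b :: v) - f'.Y (b :: v) + (f.R v - f'.R v) *
          (I1 (Clean f.rk f'.rk (b :: v) ∧ Light f.rk b v) * f.g b v)) := by
      rw [← add_sum_erase _ _ (mem_univ a)] at h3 h4 ⊢
      rw [I1_of_not fun k : _ ∧ _ => ha.not_light k.2, sum_add_distrib, sum_sub_distrib, ← mul_sum]
      linarith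
    have h6 := (abs_sub _ _).trans (add_le_add le_rfl ((abs_sum_le_sum_abs _ _).trans h1)) |>
      (congrArg abs h5).trans_le
    rw [← add_sum_erase _ _ (mem_univ a)]
    linarith
  · have h1 := hU univ fun b _ k => c ⟨b, k⟩
    have h2 := hT univ
    have h3 := abs_nonneg (f.Y v - f'.Y v + (f.R v - f'.R v) *
        ∑ b, I1 (Clean f.rk f'.rk (b :: v) ∧ Light f.rk b v) * f.g b v)
    linarith

theorem move_Y2 (hW : 0 < W) (h : f.OK J y) (h' : f'.OK J y') (u : f.Upd y' f') :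
    TS W J (fun v => |f.Y v - f'.Y v|) ≤
      600 * DT W J f f' + 3 * DF W J y' f f' + 100 * DZ2 W J y y' f f' := by
  have n0 : ∀ v, 0 ≤ sq2 (y v) + sq2 (y' v) := fun v => add_nonneg (h.nu.nonneg v) (h'.nu.nonneg v)
  have h1 := TS_le_child (J := J) hW (f := fun v => |f.Y v - f'.Y v|) fun v => abs_nonneg _
  have h2 := TS_mono (J := J) hW (f := fun v => ∑ a, |f.Y (a :: v) - f'.Y (a :: v)|)
    (g := fun v => 11 / 10 * |f.Y v - f'.Y v| +
      5 * ∑ a, |clm (f.yt (a :: v)) - clm (f'.yt (a :: v))| + 21 / 10 * EF y' f f' v +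
      28 * EZ y y' f f' v + 8 * (I1 (∃ z, z <:+ v ∧ f.rk z ≠ f'.rk z) * (sq2 (y v) + sq2 (y' v))))
    fun v _ => by
      by_cases c : Clean f.rk f'.rk v
      · exact (move_node h h' c).trans (le_add_of_nonneg_right
          (mul_nonneg (by norm_num) (mul_nonneg (I1_nonneg _) (n0 v))))
      · have hE := EF_nonneg h'.toOK0 f v
        have hZ := EZ_nonneg y y' f f' v
        refine le_trans ?_ (le_add_of_nonneg_left (by positivity))
        rw [I1_of (by simpa only [Clean, not_forall, exists_prop] using c), one_mul]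
        refine (sum_le_sum fun a _ => (abs_sub _ _).trans (add_le_add
          (abs_of_nonneg (h.Y_nonneg _)).le (abs_of_nonneg (h'.Y_nonneg _)).le)).trans ?_
        rw [sum_add_distrib]
        linarith [h.sum_Y v, h'.sum_Y v, h.Y_le v, h'.Y_le v]
  rw [TS_add, TS_add, TS_add, TS_add, TS_mul, TS_mul, TS_mul, TS_mul, TS_mul] at h2
  have h3 := kids_clm hW h.toOK0 h'.toOK0 u
  have h4 := EZ_sum hW h.toOK0 h'.toOK0
  have h5 : _ ≤ 2 * DZ2 W J y y' f f' := dirty_le (J := J) hW n0 (fun v => by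
    rw [sum_add_distrib]
    exact add_le_add (h.nu.sub v) (h'.nu.sub v)) fun z => f.rk z ≠ f'.rk z
  have h6 : 0 ≤ DT W J f f' := TS_nonneg hW fun v => by positivity
  have h7 : 0 ≤ DF W J y' f f' := TS_nonneg hW (EF_nonneg h'.toOK0 f)
  have h8 : 0 ≤ DZ2 W J y y' f f' := TS_nonneg hW fun v => mul_nonneg (I1_nonneg _) (n0 v)
  have h9 : TS W J (fun v => EF y' f f' v) = DF W J y' f f' := rfl
  rw [show f.Y [] - f'.Y [] = 0 from sub_self _, abs_zero, mul_zero, zero_add] at h1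
  linarith

end Vale.Agent.P304.Sq
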