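import Vale.Agent.P304.Sq.TPhys

/-! P304 tight bound, TREE: the anchor potential (compare Vale/Agent/P304/TPotA.lean).

PLAN.  mw in [0,1] (sum_cc; division by 0 is 0) and mw * N = sum_i s cc.
mw_sub: with m = sum_i s cc p, m' = sum_i s cc p', n' <= n: |m/n - m'/n'| n' <= |m - m'| + m (n - n')/n <= 2 (n - n') (sum_cc_sub; n' = 0 trivial).
PhiA2_init, first part of PhiA2_lip: flag_chain (at most Sk flagged nodes on a chain), mw <= 1.
PhiA2_lip, node v flagged, B, B' the sets of members before and after.  Up step (B' inside B): the new term is at most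
 sum_{B'} dist moved + mw' sum_{B'} d(x, an) and mw' sum_{B'} d <= mw sum_B d + |mw' - mw| n' 24 wt (old members are within 24 wt, 0 < A.w).
 Down step (B inside B', no physical move): new members are within 31 wt of an (Valid2.mem, Step2.cross), so the increase is
 <= 31 wt (n' - n) + |mw' - mw| n 24 wt <= 79 wt (n' - n).  Sum with TS_Nn_le.
tpota2_node, y' = yy A' v, L' = sq2 y'.  E[mw' N] = sum yt' y' in [4/5 L', 5/4 L'] (Near).
 flagged before and after: term = E[mw' sum (d(x,an') - d(x,an))] + E[(mw' - mw) sum d(x,an)]; second <= 31 wt sum_i |yt - yt'| y'_i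
 <= 155 wt sum (yt - yt')^2 (not_near); first = 0 if an' = an, otherwise Dl = dist an an' >= 18 wt, each difference <= 12 wt - Dl <= - Dl/3,
 so first <= -(4/15) L' Dl.  Flagged only after: <= 24 wt * 5/4 L' = 30 wt L'; either a rank changed on the path to v, or v is clean,
 had a heavy child a that is not heavy now, so rk(a::v) changed and L' < 2 th(2 er) <= 2 sq2 (yy A (a::v)).  Flagged only before: <= 0.
PhiA2_upd: sum, dirty_le, EZ_sum. -/

set_option linter.unusedSectionVars false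

namespace Vale.Agent.P304.Sq

open Finset

variable {Lab : Type} [Fintype Lab] [DecidableEq Lab] {k M : ℕ} {X : Type} [MetricSpace X]
  {Ω : Type} [Fintype Ω] {W : ℝ} {J : ℕ} {A A' : Pic Ω Lab X k} {S S' : St2 Lab X k M}

theorem mw_bd {s : List Lab → Fin k → ℝ} (h0 : ∀ v i, 0 ≤ s v i) (h1 : ∀ v i, s v i ≤ 1)
    (p : Fin k → List Lab) (v : List Lab) : 0 ≤ mw s p v ∧ mw s p v ≤ 1 := by
  refine ⟨div_nonneg (sum_nonneg fun i _ => mul_nonneg (h0 v i) (cc_nonneg p v i)) (Nat.cast_nonneg _),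
    div_le_one_of_le₀ ?_ (Nat.cast_nonneg _)⟩
  rw [← sum_cc]
  exact sum_le_sum fun i _ => mul_le_of_le_one_left (cc_nonneg p v i) (h1 v i)

theorem mw_mul (s : List Lab → Fin k → ℝ) (p : Fin k → List Lab) (v : List Lab) :
    mw s p v * Nn p v = ∑ i, s v i * cc p v i := by
  rcases Nat.eq_zero_or_pos (Nn p v) with z | z
  · rw [z, Nat.cast_zero, mul_zero]
    refine (sum_eq_zero fun i _ => ?_).symm
    rw [cc_eq, z, I1_of_not (by omega), mul_zero]
  · exact div_mul_cancel₀ _ (by exact_mod_cast z.ne')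

theorem mw_sub {s : List Lab → Fin k → ℝ} (h0 : ∀ v i, 0 ≤ s v i) (h1 : ∀ v i, s v i ≤ 1)
    {p p' : Fin k → List Lab} {v : List Lab} (h : Nn p' v ≤ Nn p v) :
    |mw s p v - mw s p' v| * Nn p' v ≤ 2 * ((Nn p v : ℝ) - Nn p' v) := by
  have hn : (0 : ℝ) ≤ (Nn p v : ℝ) - Nn p' v := sub_nonneg.2 (by exact_mod_cast h)
  have h2 : |mw s p v * Nn p v - mw s p' v * Nn p' v| ≤ (Nn p v : ℝ) - Nn p' v := by
    rw [mw_mul, mw_mul, ← sum_sub_distrib, ← abs_of_nonneg hn, ← sum_cc_sub]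
    refine (abs_sum_le_sum_abs _ _).trans (sum_le_sum fun i _ => ?_)
    rw [← mul_sub, abs_mul, abs_of_nonneg (h0 v i)]
    exact mul_le_of_le_one_left (abs_nonneg _) (h1 v i)
  obtain ⟨a0, a1⟩ := mw_bd h0 h1 p v
  have h3 := mul_nonneg a0 hn
  have h4 := mul_le_of_le_one_left hn a1
  have e : |mw s p v - mw s p' v| * Nn p' v = |(mw s p v - mw s p' v) * Nn p' v| := by
    rw [abs_mul, Nat.abs_cast]
  rw [abs_le] at h2
  rw [e, abs_le]
  constructor <;> nlinarith [h2.1, h2.2]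

theorem PhiA2_nonneg (h : Valid2 W J A S) (p : Fin k → List Lab) (x : Fin k → X) :
    0 ≤ PhiA2 J S p x :=
  sum_nonneg fun v _ => mul_nonneg (I1_nonneg _) (mul_nonneg (mw_bd h.ok.t0 h.ok.t1 p v).1
    (sum_nonneg fun _ _ => mul_nonneg (I1_nonneg _) dist_nonneg))

theorem tpa_chain (h : Valid2 W J A S) (p : Fin k → List Lab) {d : Fin k → ℝ} (hd : ∀ l, 0 ≤ d l) :
    ∑ v ∈ allN Lab J, I1 (Flag S.rk v) * ∑ l, I1 (v <:+ p l) * d l ≤ Sk k * ∑ l, d l := by
  simp only [mul_sum]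
  rw [sum_comm]
  refine sum_le_sum fun l _ => ?_
  simp only [← mul_assoc, ← sum_mul]
  exact mul_le_mul_of_nonneg_right (flag_chain h.ok.hk h.ok.nu h.ok.r _) (hd l)

theorem PhiA2_init (h : Valid2 W J A S) (p : Fin k → List Lab) {x : Fin k → X}
    {D : ℝ} (hD : ∀ l v, dist (x l) (S.an v) ≤ D) : PhiA2 J S p x ≤ Sk k * k * D := by
  have hk := h.ok.hk
  have hD0 : 0 ≤ D := dist_nonneg.trans (hD ⟨0, by omega⟩ [])
  refine le_trans (sum_le_sum fun v _ => mul_le_mul_of_nonneg_left ((mul_le_of_le_one_left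
    (sum_nonneg fun _ _ => mul_nonneg (I1_nonneg _) dist_nonneg) (mw_bd h.ok.t0 h.ok.t1 p v).2).trans
    (sum_le_sum fun l _ => mul_le_mul_of_nonneg_left (hD l v) (I1_nonneg _))) (I1_nonneg _))
    ((tpa_chain h p fun _ => hD0).trans (le_of_eq ?_))
  simp [mul_assoc]

/-- bounded summands over the members -/
theorem tpa_sum_le {p : Fin k → List Lab} {v : List Lab} {g : Fin k → ℝ} {c : ℝ}
    (hg : ∀ l, v <:+ p l → g l ≤ c) : ∑ l, I1 (v <:+ p l) * g l ≤ Nn p v * c := by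
  rw [Nn_eq, sum_mul]
  refine sum_le_sum fun l _ => ?_
  by_cases c : v <:+ p l
  · rw [I1_of c, one_mul, one_mul]
    exact hg l c
  · rw [I1_of_not c, zero_mul, zero_mul]

theorem tpa_near (h : Step2 W J A A' S S') {v : List Lab} (f : Flag S.rk v) {y : X} (hy : A'.Mem v y) :
    dist y (S.an v) ≤ 31 * wt W v.length := by
  obtain ⟨z, hz⟩ := h.v.mem h.s f
  have g1 := h.v.a v z f hz
  have g2 := h.cross hz hy
  linarith [dist_triangle_left y (S.an v) z, dist_comm z (S.an v)]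

theorem tpa_Nn_mono {p p' : Fin k → List Lab} (hp : ∀ l, p' l <:+ p l) (v : List Lab) :
    Nn p' v ≤ Nn p v := by
  unfold Nn
  exact card_le_card fun l hl => mem_filter.2 ⟨mem_univ _, (mem_filter.1 hl).2.trans (hp l)⟩

theorem tpa_lip_node (h : Step2 W J A A' S S') {ω : Ω} (hω : 0 < A'.w ω) {v : List Lab}
    (f : Flag S.rk v) :
    mw S.yt (A'.P ω) v * ∑ l, I1 (v <:+ A'.P ω l) * dist (A'.x ω l) (S.an v) -
      mw S.yt (A.P ω) v * ∑ l, I1 (v <:+ A.P ω l) * dist (A.x ω l) (S.an v) ≤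
    ∑ l, I1 (v <:+ A'.P ω l) * dist (A.x ω l) (A'.x ω l) +
      80 * (wt W v.length * |(Nn (A.P ω) v : ℝ) - Nn (A'.P ω) v|) := by
  have hw := wt_pos h.hW v.length
  have hω0 := h.m.supp ω hω
  obtain ⟨a0, a1⟩ := mw_bd h.v.ok.t0 h.v.ok.t1 (A.P ω) v
  obtain ⟨b0, b1⟩ := mw_bd h.v.ok.t0 h.v.ok.t1 (A'.P ω) v
  have old : ∀ l, v <:+ A.P ω l → dist (A.x ω l) (S.an v) ≤ 24 * wt W v.length := fun l c => by
    rw [dist_comm]
    exact h.v.a v _ f ⟨ω, l, hω0, c, rfl⟩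
  have E0 : 0 ≤ ∑ l, I1 (v <:+ A'.P ω l) * dist (A.x ω l) (A'.x ω l) :=
    sum_nonneg fun _ _ => mul_nonneg (I1_nonneg _) dist_nonneg
  rcases h.m.dir with up | ⟨-, dn⟩
  · have hn := tpa_Nn_mono (fun l => (up ω l).1) v
    have hn' : (0 : ℝ) ≤ (Nn (A.P ω) v : ℝ) - Nn (A'.P ω) v := sub_nonneg.2 (by exact_mod_cast hn)
    have s1 := mw_sub h.v.ok.t0 h.v.ok.t1 hn
    rw [abs_of_nonneg hn']
    set T1 := ∑ l, I1 (v <:+ A'.P ω l) * dist (A.x ω l) (S.an v) with hT1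
    have t0 : 0 ≤ T1 := sum_nonneg fun _ _ => mul_nonneg (I1_nonneg _) dist_nonneg
    have t1 : T1 ≤ Nn (A'.P ω) v * (24 * wt W v.length) :=
      tpa_sum_le fun l c => old l (c.trans (up ω l).1)
    have t2 : T1 ≤ ∑ l, I1 (v <:+ A.P ω l) * dist (A.x ω l) (S.an v) := by
      refine sum_le_sum fun l _ => mul_le_mul_of_nonneg_right ?_ dist_nonneg
      by_cases c : v <:+ A'.P ω l
      · rw [I1_of c, I1_of (c.trans (up ω l).1)]
      · rw [I1_of_not c]
        exact I1_nonneg _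
    have t3 : ∑ l, I1 (v <:+ A'.P ω l) * dist (A'.x ω l) (S.an v) ≤
        T1 + ∑ l, I1 (v <:+ A'.P ω l) * dist (A.x ω l) (A'.x ω l) := by
      rw [hT1, ← sum_add_distrib]
      refine sum_le_sum fun l _ => ?_
      rw [← mul_add]
      refine mul_le_mul_of_nonneg_left ?_ (I1_nonneg _)
      linarith [dist_triangle_left (A'.x ω l) (S.an v) (A.x ω l)]
    have u1 := mul_le_mul_of_nonneg_left t3 b0
    have u2 := mul_le_mul_of_nonneg_left t2 a0
    have u3 := mul_le_of_le_one_left E0 b1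
    have u4 : (mw S.yt (A'.P ω) v - mw S.yt (A.P ω) v) * T1 ≤
        |mw S.yt (A.P ω) v - mw S.yt (A'.P ω) v| * (Nn (A'.P ω) v * (24 * wt W v.length)) :=
      mul_le_mul (by rw [abs_sub_comm]; exact le_abs_self _) t1 t0 (abs_nonneg _)
    have u5 := mul_le_mul_of_nonneg_right s1 (show 0 ≤ 24 * wt W v.length by positivity)
    have u6 := mul_nonneg hw.le hn'
    nlinarith
  · have hn := tpa_Nn_mono (fun l => (dn ω l).1) v
    have hn' : (0 : ℝ) ≤ (Nn (A'.P ω) v : ℝ) - Nn (A.P ω) v := sub_nonneg.2 (by exact_mod_cast hn)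
    have s1 := mw_sub h.v.ok.t0 h.v.ok.t1 hn
    rw [abs_sub_comm, abs_of_nonneg hn']
    set T := ∑ l, I1 (v <:+ A.P ω l) * dist (A.x ω l) (S.an v) with hT
    have t0 : 0 ≤ T := sum_nonneg fun _ _ => mul_nonneg (I1_nonneg _) dist_nonneg
    have t1 : T ≤ Nn (A.P ω) v * (24 * wt W v.length) := tpa_sum_le old
    have t3 : ∑ l, I1 (v <:+ A'.P ω l) * dist (A'.x ω l) (S.an v) ≤
        T + ((Nn (A'.P ω) v : ℝ) - Nn (A.P ω) v) * (31 * wt W v.length) := by
      rw [hT, Nn_eq, Nn_eq, ← sum_sub_distrib, sum_mul, ← sum_add_distrib]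
      refine sum_le_sum fun l _ => ?_
      by_cases c : v <:+ A.P ω l
      · rw [I1_of c, I1_of (c.trans (dn ω l).1), (dn ω l).2]
        simp
      by_cases c' : v <:+ A'.P ω l
      · rw [I1_of_not c, I1_of c']
        have := tpa_near h f ⟨ω, l, hω, c', rfl⟩
        linarith
      · rw [I1_of_not c, I1_of_not c']
        simp
    have u0 : 0 ≤ ((Nn (A'.P ω) v : ℝ) - Nn (A.P ω) v) * (31 * wt W v.length) := by positivity
    have u1 := mul_le_mul_of_nonneg_left t3 b0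
    have u3 := mul_le_of_le_one_left u0 b1
    have u4 : (mw S.yt (A'.P ω) v - mw S.yt (A.P ω) v) * T ≤
        |mw S.yt (A'.P ω) v - mw S.yt (A.P ω) v| * (Nn (A.P ω) v * (24 * wt W v.length)) :=
      mul_le_mul (le_abs_self _) t1 t0 (abs_nonneg _)
    have u5 := mul_le_mul_of_nonneg_right s1 (show 0 ≤ 24 * wt W v.length by positivity)
    have u6 := mul_nonneg hw.le hn'
    nlinarith

theorem Step2.PhiA_lip (h : Step2 W J A A' S S') {ω : Ω} (hω : 0 < A'.w ω) :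
    PhiA2 J S (A'.P ω) (A'.x ω) - PhiA2 J S (A.P ω) (A.x ω) ≤
      Sk k * ∑ l, dist (A.x ω l) (A'.x ω l) + 80 * ∑ l, td W J (A.P ω l) (A'.P ω l) := by
  unfold PhiA2
  rw [← sum_sub_distrib]
  have a1 := tpa_chain h.v (A'.P ω) (d := fun l => dist (A.x ω l) (A'.x ω l)) fun _ => dist_nonneg
  have a2 := TS_Nn_le (J := J) h.hW (A.P ω) (A'.P ω)
  refine le_trans ?_ (add_le_add a1 (mul_le_mul_of_nonneg_left a2 (by norm_num : (0 : ℝ) ≤ 80)))
  unfold TS
  rw [mul_sum, ← sum_add_distrib]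
  refine sum_le_sum fun v _ => ?_
  have hw := wt_pos h.hW v.length
  by_cases f : Flag S.rk v
  · rw [I1_of f, one_mul, one_mul, one_mul]
    exact tpa_lip_node h hω f
  · rw [I1_of_not f, zero_mul, zero_mul, zero_mul, sub_zero, zero_add]
    positivity

theorem tpa_E (A : Pic Ω Lab X k) (s : Fin k → ℝ) (v : List Lab) :
    ∑ ω, A.w ω * ∑ i, s i * cc (A.P ω) v i = ∑ i, s i * yy A v i := by
  simp only [yy, mul_sum]
  rw [sum_comm]
  exact sum_congr rfl fun i _ => sum_congr rfl fun ω _ => by ring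

theorem tpa_mean (hs : Snap W J A) {s : List Lab → Fin k → ℝ} (h0 : ∀ v i, 0 ≤ s v i)
    (h1 : ∀ v i, s v i ≤ 1) {v : List Lab} {g : X → ℝ} {c : ℝ} (hg : ∀ y, A.Mem v y → g y ≤ c) :
    ∑ ω, A.w ω * (mw s (A.P ω) v * ∑ l, I1 (v <:+ A.P ω l) * g (A.x ω l)) ≤
      (∑ i, s v i * yy A v i) * c := by
  rw [← tpa_E, sum_mul]
  refine sum_le_sum fun ω _ => ?_
  rcases (hs.nonneg ω).eq_or_lt with z | z
  · simp [← z]
  rw [mul_assoc, ← mw_mul, mul_assoc]
  exact mul_le_mul_of_nonneg_left (mul_le_mul_of_nonneg_left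
    (tpa_sum_le fun l c => hg _ ⟨ω, l, z, c, rfl⟩) (mw_bd h0 h1 _ v).1) z.le

theorem tpa_second (h : Step2 W J A A' S S') {v : List Lab} (f : Flag S.rk v) :
    ∑ ω, A'.w ω * ((mw S'.yt (A'.P ω) v - mw S.yt (A'.P ω) v) *
      ∑ l, I1 (v <:+ A'.P ω l) * dist (A'.x ω l) (S.an v)) ≤
      155 * (wt W v.length * ∑ i, (S.yt v i - S'.yt v i) ^ 2) := by
  have hw := wt_pos h.hW v.length
  have a1 : ∑ ω, A'.w ω * ((mw S'.yt (A'.P ω) v - mw S.yt (A'.P ω) v) *
      ∑ l, I1 (v <:+ A'.P ω l) * dist (A'.x ω l) (S.an v)) ≤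
      (∑ i, |S.yt v i - S'.yt v i| * yy A' v i) * (31 * wt W v.length) := by
    rw [← tpa_E, sum_mul]
    refine sum_le_sum fun ω _ => ?_
    rcases (h.s'.nonneg ω).eq_or_lt with z | z
    · simp [← z]
    rw [mul_assoc]
    refine mul_le_mul_of_nonneg_left ?_ z.le
    have t0 : 0 ≤ ∑ l, I1 (v <:+ A'.P ω l) * dist (A'.x ω l) (S.an v) :=
      sum_nonneg fun _ _ => mul_nonneg (I1_nonneg _) dist_nonneg
    have t1 : ∑ l, I1 (v <:+ A'.P ω l) * dist (A'.x ω l) (S.an v) ≤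
        Nn (A'.P ω) v * (31 * wt W v.length) :=
      tpa_sum_le fun l c => tpa_near h f ⟨ω, l, z, c, rfl⟩
    refine (mul_le_mul (le_abs_self _) t1 t0 (abs_nonneg _)).trans ?_
    rw [← mul_assoc]
    refine mul_le_mul_of_nonneg_right ?_ (by positivity)
    rw [← abs_of_nonneg (Nat.cast_nonneg (α := ℝ) (Nn (A'.P ω) v)), ← abs_mul, sub_mul, mw_mul, mw_mul,
      ← sum_sub_distrib]
    refine (abs_sum_le_sum_abs _ _).trans (sum_le_sum fun i _ => ?_)
    rw [← sub_mul, abs_mul, abs_sub_comm, abs_of_nonneg (cc_nonneg _ _ _)]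
  have a2 : ∑ i, |S.yt v i - S'.yt v i| * yy A' v i ≤ 5 * ∑ i, (S.yt v i - S'.yt v i) ^ 2 := by
    rw [mul_sum]
    refine sum_le_sum fun i _ => ?_
    rcases h.u.f.t v i with e | ⟨e, n⟩
    · rw [e]
      simp
    · have := (not_near (h.v'.ok.y0 v i) (h.v.ok.t0 v i) n).1
      rw [e, ← sq_abs]
      nlinarith [abs_nonneg (S.yt v i - yy A' v i)]
  have a3 := mul_le_mul_of_nonneg_right a2 (show 0 ≤ 31 * wt W v.length by positivity)
  linarith

theorem tpa_sq (h : Valid2 W J A S) (v : List Lab) :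
    4 / 5 * sq2 (yy A v) ≤ ∑ i, S.yt v i * yy A v i ∧
      ∑ i, S.yt v i * yy A v i ≤ 5 / 4 * sq2 (yy A v) := by
  unfold sq2
  rw [mul_sum, mul_sum]
  constructor <;> refine sum_le_sum fun i _ => ?_
  · nlinarith [(h.ok.near v i).1, h.ok.y0 v i]
  · nlinarith [(h.ok.near v i).2, h.ok.y0 v i]

theorem tpota2_node (h : Step2 W J A A' S S') (v : List Lab) :
    ∑ ω, A'.w ω *
      (I1 (Flag S'.rk v) * (mw S'.yt (A'.P ω) v * ∑ l, I1 (v <:+ A'.P ω l) * dist (A'.x ω l) (S'.an v)) -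
        I1 (Flag S.rk v) * (mw S.yt (A'.P ω) v * ∑ l, I1 (v <:+ A'.P ω l) * dist (A'.x ω l) (S.an v))) ≤
    -(I1 (Flag S.rk v ∧ Flag S'.rk v) * (sq2 (yy A' v) * dist (S.an v) (S'.an v)) / 4) +
      155 * (wt W v.length * ∑ i, (S.yt v i - S'.yt v i) ^ 2) +
      30 * (wt W v.length * (I1 (∃ z, z <:+ v ∧ S.rk z ≠ S'.rk z) * sq2 (yy A' v))) +
      60 * (wt W v.length * EZ (yy A) (yy A') S.toFr S'.toFr v) := by
  have hw := wt_pos h.hW v.length
  have L0 := sq2_nonneg (yy A' v)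
  have p1 : 0 ≤ I1 (∃ z, z <:+ v ∧ S.rk z ≠ S'.rk z) * sq2 (yy A' v) := mul_nonneg (I1_nonneg _) L0
  have p2 := EZ_nonneg (yy A) (yy A') S.toFr S'.toFr v
  have p3 := mul_nonneg hw.le p1
  have p4 := mul_nonneg hw.le p2
  have p5 : 0 ≤ wt W v.length * ∑ i, (S.yt v i - S'.yt v i) ^ 2 :=
    mul_nonneg hw.le (sum_nonneg fun _ _ => sq_nonneg _)
  obtain ⟨q1, q2⟩ := tpa_sq h.v' v
  by_cases f' : Flag S'.rk v
  swap
  · have : ∑ ω, A'.w ω * (I1 (Flag S'.rk v) *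
        (mw S'.yt (A'.P ω) v * ∑ l, I1 (v <:+ A'.P ω l) * dist (A'.x ω l) (S'.an v)) -
        I1 (Flag S.rk v) * (mw S.yt (A'.P ω) v *
          ∑ l, I1 (v <:+ A'.P ω l) * dist (A'.x ω l) (S.an v))) ≤ 0 := by
      refine sum_nonpos fun ω _ => mul_nonpos_of_nonneg_of_nonpos (h.s'.nonneg ω) ?_
      rw [I1_of_not f', zero_mul, zero_sub, neg_nonpos]
      exact mul_nonneg (I1_nonneg _) (mul_nonneg (mw_bd h.v.ok.t0 h.v.ok.t1 _ v).1
        (sum_nonneg fun _ _ => mul_nonneg (I1_nonneg _) dist_nonneg))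
    rw [I1_of_not fun k : Flag S.rk v ∧ Flag S'.rk v => f' k.2]
    linarith
  by_cases f : Flag S.rk v
  · have m1 := tpa_mean h.s' h.v'.ok.t0 h.v'.ok.t1 (v := v) (c := -(dist (S.an v) (S'.an v) / 3))
      (g := fun y => dist y (S'.an v) - dist y (S.an v)) fun y hy => by
        rcases h.u.a v f' with ⟨-, e⟩ | ⟨m, e⟩
        · simp [e]
        · obtain ⟨y0, m0, e0⟩ := e f
          have g1 := h.s'.geo v _ _ m m0
          have g2 := h.s'.geo v _ _ hy m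
          linarith [dist_triangle (S.an v) (S'.an v) y0, dist_triangle_left (S.an v) (S'.an v) y]
    have m2 := tpa_second h f
    have e : ∑ ω, A'.w ω * (I1 (Flag S'.rk v) *
        (mw S'.yt (A'.P ω) v * ∑ l, I1 (v <:+ A'.P ω l) * dist (A'.x ω l) (S'.an v)) -
        I1 (Flag S.rk v) * (mw S.yt (A'.P ω) v *
          ∑ l, I1 (v <:+ A'.P ω l) * dist (A'.x ω l) (S.an v))) =
        ∑ ω, A'.w ω * (mw S'.yt (A'.P ω) v * ∑ l, I1 (v <:+ A'.P ω l) *
          (dist (A'.x ω l) (S'.an v) - dist (A'.x ω l) (S.an v))) +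
        ∑ ω, A'.w ω * ((mw S'.yt (A'.P ω) v - mw S.yt (A'.P ω) v) *
          ∑ l, I1 (v <:+ A'.P ω l) * dist (A'.x ω l) (S.an v)) := by
      rw [← sum_add_distrib]
      refine sum_congr rfl fun ω _ => ?_
      simp only [mul_sub, sum_sub_distrib, I1_of f, I1_of f']
      ring
    rw [e, I1_of (⟨f, f'⟩ : Flag S.rk v ∧ Flag S'.rk v)]
    have d0 : 0 ≤ dist (S.an v) (S'.an v) := dist_nonneg
    have m3 := mul_le_mul_of_nonneg_right q1 d0
    have m4 := mul_nonneg L0 d0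
    linarith
  have m : A'.Mem v (S'.an v) := ((h.u.a v f').resolve_left fun k => f k.1).1
  have m1 := tpa_mean h.s' h.v'.ok.t0 h.v'.ok.t1 (v := v) (c := 6 * wt W v.length)
    (g := fun y => dist y (S'.an v)) fun y hy => h.s'.geo v _ _ hy m
  have m2 := mul_le_mul_of_nonneg_right q2 hw.le
  have m3 := mul_nonneg L0 hw.le
  simp only [I1_of_not f, I1_of f', one_mul, zero_mul, sub_zero]
  rw [I1_of_not fun k : Flag S.rk v ∧ Flag S'.rk v => f k.1]
  by_cases d : ∃ z, z <:+ v ∧ S.rk z ≠ S'.rk z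
  · rw [I1_of d]
    linarith
  have e : er S.rk v = er S'.rk v := er_congr fun u hu => by
    by_contra k
    exact d ⟨u, hu, k⟩
  obtain ⟨a, ha⟩ : ∃ a, Heavy S.rk a v := by
    by_contra k
    exact f ⟨e ▸ f'.1, fun a ha => k ⟨a, ha⟩⟩
  have ne : S.rk (a :: v) ≠ S'.rk (a :: v) := fun k => f'.2 a ⟨f'.1, e ▸ k ▸ ha.2⟩
  have b1 : sq2 (yy A' v) < _ := nu_lt h.v'.ok.nu h.v'.ok.r v
  have b2 := th_add_four (2 * er S'.rk v)
  have b3 : th (2 * er S'.rk v) ≤ sq2 (yy A (a :: v)) :=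
    (th_strictMono.monotone (by have := ha.2; omega)).trans
      ((h.v.ok.r (a :: v)).2 (ha.1.trans_le ha.2))
  have b4 : I1 (S.rk (a :: v) ≠ S'.rk (a :: v)) * (sq2 (yy A (a :: v)) + sq2 (yy A' (a :: v))) ≤
      EZ (yy A) (yy A') S.toFr S'.toFr v :=
    single_le_sum (f := fun a => I1 (S.rk (a :: v) ≠ S'.rk (a :: v)) *
      (sq2 (yy A (a :: v)) + sq2 (yy A' (a :: v))))
      (fun a _ => mul_nonneg (I1_nonneg _) (add_nonneg (sq2_nonneg _) (sq2_nonneg _))) (mem_univ a)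
  rw [I1_of ne, one_mul] at b4
  have b5 := sq2_nonneg (yy A' (a :: v))
  have b6 := mul_le_mul_of_nonneg_left
    (show sq2 (yy A' v) ≤ 2 * EZ (yy A) (yy A') S.toFr S'.toFr v by linarith) hw.le
  linarith

theorem Step2.PhiA_upd (h : Step2 W J A A' S S') :
    ∑ ω, A'.w ω * (PhiA2 J S' (A'.P ω) (A'.x ω) - PhiA2 J S (A'.P ω) (A'.x ω)) ≤
      -(DA2 J A' S S' / 4) + 155 * DT W J S.toFr S'.toFr +
        180 * DZ2 W J (yy A) (yy A') S.toFr S'.toFr := by
  have n' := h.v'.ok.nu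
  unfold PhiA2
  simp only [← sum_sub_distrib]
  rw [show ∀ F : Ω → List Lab → ℝ, ∑ ω, A'.w ω * ∑ v ∈ allN Lab J, F ω v =
    ∑ v ∈ allN Lab J, ∑ ω, A'.w ω * F ω v from fun F => by simp only [mul_sum]; exact sum_comm]
  refine (sum_le_sum fun v _ => tpota2_node h v).trans ?_
  rw [sum_add_distrib, sum_add_distrib, sum_add_distrib, sum_neg_distrib, ← sum_div, ← mul_sum,
    ← mul_sum, ← mul_sum]
  have a1 := dirty_le (J := J) h.hW n'.nonneg n'.sub fun z => S.rk z ≠ S'.rk z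
  have a2 : TS W J (fun z => I1 (S.rk z ≠ S'.rk z) * sq2 (yy A' z)) ≤
      DZ2 W J (yy A) (yy A') S.toFr S'.toFr :=
    TS_mono h.hW fun v _ =>
      mul_le_mul_of_nonneg_left (le_add_of_nonneg_left (sq2_nonneg _)) (I1_nonneg _)
  have a3 := EZ_sum h.hW h.v.ok.toOK0 h.v'.ok.toOK0
  unfold DA2 DT
  unfold TS at a1 a2 a3 ⊢
  linarith

end Vale.Agent.P304.Sq
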