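import Vale.Agent.P304.Sq.TPotG

/-! P304 tight bound, TREE: the tracking potential PhiF and the quadratic potentials PhiS.

PLAN.  PhiF_mean: G is linear in E, Dt is affine in z, sum w = 1 (TS_sum, TS_mul or unfold TS).
PhiF_nonneg: mean, Dt_self, G_mono against 0.  PhiF_init: Dt = sum (tau c - ell lam c) = 0 for c in {0,1} (cc_01).
PhiF_lip: G_le, |Dt z' - Dt z| <= 3 sum_i |cc' - cc| = 3 |N' - N| (ell'_bd, sum_cc_sub), TS_kids (deep: Nn_deep), TS_Nn_le.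
PhiF_upd: mean twice, Dt_self; per node: clean -> G_clean, not clean -> G_dirty and EF = 0 (Clean.tail); kids_clm, lam_move, EZ_sum,
dirty_le (nu := fun v => sq2 (y' v), Z z := rk z <> rk' z), Sk >= 1.
PhiS_lip: (s - c')^2 - (s - c)^2 <= |c - c'| for c, c' in {0,1}, s in [0,1].
PhiS_upd: sum_w w ((s' - c)^2 - (s - c)^2) = (s' - s)(s' + s - 2 y), which is 0 if s' = s and -(s - s')^2 if s' = y.
PhiB_upd: ref_drop at the nodes whose rank changed. -/

set_option linter.unusedSectionVars false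

namespace Vale.Agent.P304.Sq

open Finset

variable {Lab : Type} [Fintype Lab] [DecidableEq Lab] {k M : ℕ} {X : Type} [MetricSpace X]
  {Ω : Type} [Fintype Ω] {W : ℝ} {J : ℕ} {A A' : Pic Ω Lab X k} {S S' : St2 Lab X k M}

theorem tpf_G_sum (f : Fr Lab k) (v : List Lab) (w : Ω → ℝ) (E : Ω → Lab → ℝ) :
    ∑ ω, w ω * f.G v (E ω) = f.G v fun a => ∑ ω, w ω * E ω a := by
  unfold Fr.G
  simp only [mul_sum, mul_add, sum_add_distrib]
  congr 1
  · rw [sum_comm]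
    refine sum_congr rfl fun a _ => ?_
    rw [sum_comm]
    exact sum_congr rfl fun b _ => sum_congr rfl fun ω _ => by ring
  · rw [sum_comm]
    exact sum_congr rfl fun a _ => sum_congr rfl fun ω _ => by ring

theorem tpf_Dt_sum (hw : ∑ ω, A.w ω = 1) (y : List Lab → Fin k → ℝ) (f : Fr Lab k) (a : Lab)
    (v : List Lab) : ∑ ω, A.w ω * f.Dt y (cc (A.P ω)) a v = f.Dt y (yy A) a v := by
  unfold Fr.Dt
  simp only [mul_sub, sum_sub_distrib, mul_sum]
  rw [← sum_mul, hw, one_mul, sum_comm]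
  congr 1
  refine sum_congr rfl fun i _ => ?_
  unfold yy
  simp only [mul_add, mul_sub, sum_add_distrib, sum_sub_distrib, mul_sum]
  rw [← sum_mul, ← sum_mul, hw, one_mul, one_mul]
  congr 2
  exact sum_congr rfl fun ω _ => by ring

theorem tpf_mean (w : Ω → ℝ) (g : Ω → List Lab → ℝ) :
    ∑ ω, w ω * TS W J (g ω) = TS W J fun v => ∑ ω, w ω * g ω v := by
  rw [TS_sum]
  exact sum_congr rfl fun ω _ => (TS_mul _ _).symm

theorem PhiF_mean (hw : ∑ ω, A.w ω = 1) (y : List Lab → Fin k → ℝ) (f : Fr Lab k) :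
    ∑ ω, A.w ω * PhiF W J y f (A.P ω) = TS W J fun v => f.G v fun a => f.Dt y (yy A) a v := by
  unfold PhiF
  rw [tpf_mean]
  simp only [tpf_G_sum, tpf_Dt_sum hw]

theorem PhiF_nonneg (hW : 0 < W) (hs : Snap W J A) {f : Fr Lab k} (h : f.OK J (yy A)) :
    0 ≤ ∑ ω, A.w ω * PhiF W J (yy A) f (A.P ω) := by
  rw [PhiF_mean hs.sum]
  refine TS_nonneg hW fun v => ?_
  rw [← f.G_zero v]
  exact h.G_mono v fun a => by rw [Dt_self]; exact h.toOK0.D_nonneg a v

theorem PhiF_init {f : Fr Lab k} {p : Fin k → List Lab} (h : f.yt = cc p) : PhiF W J (cc p) f p = 0 := by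
  have e : ∀ a v, f.Dt (cc p) (cc p) a v = 0 := fun a v => by
    rw [Dt_self, Fr.D, h, clm, LB, sub_eq_zero]
    refine sum_congr rfl fun i _ => ?_
    rcases cc_01 p (a :: v) i with e | e <;> rw [e]
    · rw [tau_zero, ell_zero]
    · rw [tau_one, ell_one]
  unfold PhiF
  simp only [e, Fr.G_zero]
  simp [TS]

theorem PhiF_lip (hW : 0 < W) {f : Fr Lab k} {y : List Lab → Fin k → ℝ} (h : f.OK J y)
    {p p' : Fin k → List Lab} (hp : ∀ l, (p l).length ≤ J) (hp' : ∀ l, (p' l).length ≤ J) :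
    PhiF W J y f p' - PhiF W J y f p ≤ 4100 * Sk k * ∑ l, td W J (p l) (p' l) := by
  have hS : (0 : ℝ) ≤ Sk k := Nat.cast_nonneg _
  have e : ∀ a v, I1 (Act f.rk a v) * |f.Dt y (cc p') a v - f.Dt y (cc p) a v| ≤
      3 * |(Nn p (a :: v) : ℝ) - Nn p' (a :: v)| := fun a v => by
    refine (mul_le_of_le_one_left (abs_nonneg _) (I1_le_one _)).trans ?_
    rw [← sum_cc_sub, mul_sum, Fr.Dt, Fr.Dt, sub_sub_sub_cancel_left, ← sum_sub_distrib]
    refine (abs_sum_le_sum_abs _ _).trans (sum_le_sum fun i _ => ?_)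
    obtain ⟨h₁, h₂⟩ := ell'_bd (h.toOK0.lam_nonneg v) (h.toOK0.lam_le_one v) (h.y0 (a :: v) i)
      (h.y1 (a :: v) i)
    rw [add_sub_add_left_eq_sub, ← mul_sub, sub_sub_sub_cancel_right, abs_mul, abs_of_nonneg h₁]
    exact mul_le_mul_of_nonneg_right h₂ (abs_nonneg _)
  have h₁ := TS_kids (J := J) hW (g := fun v => |(Nn p v : ℝ) - Nn p' v|) (fun _ => abs_nonneg _)
    fun v hv => by simp [Nn_deep hp hv, Nn_deep hp' hv]
  have h₂ := TS_Nn_le (J := J) hW p p'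
  have h₃ : 0 ≤ TS W J fun v => |(Nn p v : ℝ) - Nn p' v| := TS_nonneg hW fun _ => abs_nonneg _
  unfold PhiF
  rw [← TS_sub]
  refine (TS_mono hW (g := fun v => 2010 * Sk k * ∑ a, |(Nn p (a :: v) : ℝ) - Nn p' (a :: v)|)
    fun v _ => (h.G_le v _ _).trans ?_).trans ?_
  · have := sum_le_sum fun a (_ : a ∈ univ) => e a v
    rw [← mul_sum] at this
    nlinarith
  · rw [TS_mul]
    nlinarith

theorem Step2.PhiF_upd (h : Step2 W J A A' S S') :
    ∑ ω, A'.w ω * (PhiF W J (yy A') S'.toFr (A'.P ω) - PhiF W J (yy A) S.toFr (A'.P ω)) ≤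
      -(DF W J (yy A') S.toFr S'.toFr / 3) + 10 ^ 5 * Sk k * DT W J S.toFr S'.toFr +
        2 * 10 ^ 4 * Sk k * DZ2 W J (yy A) (yy A') S.toFr S'.toFr := by
  have hk := h.v.ok.hk
  have hS : (1 : ℝ) ≤ Sk k := by exact_mod_cast Sk_pos hk
  have o := h.v.ok
  have o' := h.v'.ok
  simp only [mul_sub, sum_sub_distrib]
  rw [PhiF_mean h.s'.sum, PhiF_mean h.s'.sum, ← TS_sub]
  simp only [Dt_self]
  have h₁ := kids_clm h.hW o.toOK0 o'.toOK0 h.u.f
  have h₂ := lam_move h.hW o.toOK0 o'.toOK0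
  have h₃ := EZ_sum h.hW o.toOK0 o'.toOK0
  have h₄ := dirty_le (J := J) h.hW o'.nu.nonneg o'.nu.sub fun z => S.rk z ≠ S'.rk z
  have h₅ : TS W J (fun z => I1 (S.rk z ≠ S'.rk z) * sq2 (yy A' z)) ≤
      DZ2 W J (yy A) (yy A') S.toFr S'.toFr :=
    TS_mono h.hW fun v _ =>
      mul_le_mul_of_nonneg_left (le_add_of_nonneg_left (sq2_nonneg _)) (I1_nonneg _)
  have h₆ : 0 ≤ DZ2 W J (yy A) (yy A') S.toFr S'.toFr :=
    TS_nonneg h.hW fun v => mul_nonneg (I1_nonneg _) (add_nonneg (sq2_nonneg _) (sq2_nonneg _))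
  have h₇ : 0 ≤ DT W J S.toFr S'.toFr := TS_nonneg h.hW fun v => sum_nonneg fun _ _ => sq_nonneg _
  rw [le_div_iff₀ (by linarith)] at h₂
  refine (TS_mono h.hW (g := fun v => -(1 / 3) * EF (yy A') S.toFr S'.toFr v +
    670 * Sk k * (∑ a, |clm (S.yt (a :: v)) - clm (S'.yt (a :: v))|) +
    670 * Sk k * (I1 (Clean S.rk S'.rk v) * (|S.toFr.lam v - S'.toFr.lam v| * sq2 (yy A' v))) +
    4500 * Sk k * EZ (yy A) (yy A') S.toFr S'.toFr v +
    3500 * Sk k * (I1 (∃ z, z <:+ v ∧ S.rk z ≠ S'.rk z) * sq2 (yy A' v))) fun v _ => ?_).trans ?_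
  · by_cases hv : Clean S.rk S'.rk v
    · have := G_clean o o' h.u.f hv
      rw [I1_of hv, I1_of_not (fun ⟨z, hz, hz'⟩ => hz' (hv z hz))]
      linarith
    · have e₁ := G_dirty o o' v
      have e₂ : EF (yy A') S.toFr S'.toFr v = 0 := by
        rw [EF, sum_eq_zero, mul_zero]
        intro a _
        rw [I1_of_not fun h => hv h.1.tail, zero_mul]
      have e₃ : ∃ z, z <:+ v ∧ S.rk z ≠ S'.rk z := by
        by_contra e
        exact hv fun z hz => by_contra fun e' => e ⟨z, hz, e'⟩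
      have e₄ : 0 ≤ ∑ a, |clm (S.yt (a :: v)) - clm (S'.yt (a :: v))| :=
        sum_nonneg fun _ _ => abs_nonneg _
      have e₅ := EZ_nonneg (yy A) (yy A') S.toFr S'.toFr v
      rw [I1_of_not hv, I1_of e₃, e₂]
      nlinarith
  · rw [TS_add, TS_add, TS_add, TS_add, TS_mul, TS_mul, TS_mul, TS_mul, TS_mul]
    change -(1 / 3) * DF W J (yy A') S.toFr S'.toFr + _ + _ + 4500 * Sk k *
      TS W J (EZ (yy A) (yy A') S.toFr S'.toFr) + _ ≤ _
    nlinarith

theorem PhiS_nonneg (hW : 0 < W) (s : List Lab → Fin k → ℝ) (p : Fin k → List Lab) :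
    0 ≤ PhiS W J s p := by
  exact TS_nonneg hW fun v => sum_nonneg fun _ _ => sq_nonneg _

theorem PhiS_init (p : Fin k → List Lab) : PhiS W J (cc p) p = 0 := by
  simp [PhiS, TS]

theorem PhiS_lip (hW : 0 < W) {s : List Lab → Fin k → ℝ} (h0 : ∀ v i, 0 ≤ s v i) (h1 : ∀ v i, s v i ≤ 1)
    (p p' : Fin k → List Lab) : PhiS W J s p' - PhiS W J s p ≤ ∑ l, td W J (p l) (p' l) := by
  refine le_trans ?_ (TS_Nn_le (J := J) hW p p')
  unfold PhiS
  rw [← TS_sub]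
  refine TS_mono hW fun v _ => ?_
  rw [← sum_cc_sub, ← sum_sub_distrib]
  refine sum_le_sum fun i _ => ?_
  have a := h0 v i
  have b := h1 v i
  rcases cc_01 p v i with e | e <;> rcases cc_01 p' v i with e' | e' <;> rw [e, e'] <;>
    norm_num <;> nlinarith

theorem PhiS_upd (hw : ∑ ω, A.w ω = 1) {s s' : List Lab → Fin k → ℝ}
    (h : ∀ v i, s' v i = s v i ∨ s' v i = yy A v i) :
    ∑ ω, A.w ω * (PhiS W J s' (A.P ω) - PhiS W J s (A.P ω)) =
      -TS W J fun v => ∑ i, (s v i - s' v i) ^ 2 := by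
  unfold PhiS
  simp only [← TS_sub]
  rw [tpf_mean, ← neg_one_mul, ← TS_mul]
  congr 1
  funext v
  simp only [← sum_sub_distrib, mul_sum]
  rw [sum_comm]
  refine sum_congr rfl fun i _ => ?_
  have e : ∑ ω, A.w ω * ((s' v i - cc (A.P ω) v i) ^ 2 - (s v i - cc (A.P ω) v i) ^ 2) =
      (s' v i ^ 2 - s v i ^ 2) * ∑ ω, A.w ω - 2 * (s' v i - s v i) * yy A v i := by
    rw [yy, mul_sum, mul_sum, ← sum_sub_distrib]
    exact sum_congr rfl fun ω _ => by ring
  rw [e, hw]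
  rcases h v i with e' | e' <;> rw [e'] <;> ring

theorem Step2.PhiT_upd (h : Step2 W J A A' S S') :
    ∑ ω, A'.w ω * (PhiS W J S'.yt (A'.P ω) - PhiS W J S.yt (A'.P ω)) ≤ -DT W J S.toFr S'.toFr := by
  exact (PhiS_upd h.s'.sum fun v i => (h.u.f.t v i).imp_right fun e => e.1).le

theorem Step2.PhiB_upd (h : Step2 W J A A' S S') :
    ∑ ω, A'.w ω * (PhiS W J S'.yb (A'.P ω) - PhiS W J S.yb (A'.P ω)) ≤
      -(DZ2 W J (yy A) (yy A') S.toFr S'.toFr / 500) := by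
  rw [PhiS_upd h.s'.sum fun v i => (h.u.r v).imp (fun e => congrFun e.2 i) fun e => congrFun e.1 i,
    neg_le_neg_iff, div_eq_inv_mul, DZ2, ← TS_mul]
  refine TS_mono h.hW fun v _ => ?_
  rcases h.u.r v with e | e
  · rw [I1_of_not (fun e' => e' e.1.symm), zero_mul, mul_zero]
    exact sum_nonneg fun _ _ => sq_nonneg _
  · have := ref_drop (h.v.n v) (h.v.ok.r v) e.2
    have h₀ := add_nonneg (sq2_nonneg (yy A v)) (sq2_nonneg (yy A' v))
    have h₁ := mul_le_of_le_one_left h₀ (I1_le_one (S.rk v ≠ S'.rk v))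
    rw [e.1]
    linarith

end Vale.Agent.P304.Sq
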