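import Vale.Agent.P304.Sq.TMove

/-! P304 tight bound, TREE: the tracking potential at one node.

PLAN.  Dt_ge: ell_tangent termwise: f.Dt y y' a v >= clm (f.yt (a::v)) - LB (f.lam v) (y' (a::v)) =: D0 a.
G_dirty: f'.G v D' <= 670 Sk S' <= 2680 Sk L' v (G_le against 0, G_zero, D_nonneg, S_le);
 f.G v Dt >= f.G v (- L'(a::v)) (G_mono; clm >= 0, LB <= sq2 by h'.LB_bd with lam := f.lam v) >= - 670 Sk sum_a L'(a::v) >= - 670 Sk L' v.
G_clean: write D' a = f'.D y' a v, S' = f'.S y' v, T a = cS S' + cD D' a with the OLD parameters, T' a with the NEW ones.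
 (1) f.G v Dt >= f.G v D0 >= f.G v D' - 670 Sk sum_a |D' a - D0 a|, |D' a - D0 a| <= |clm - clm'| + |lam - lam'| L'(a::v)
     (ell_sub, 0 <= y^2 (1-y) <= y^2), sum_a L'(a::v) <= L' v.
 (2) f.G v D' = sum light (cS S0 + cD D'), S0 = sum_b I1 (Act f.rk b v) D' b, S' - S0 <= sum over b with changed rank of D' b <= 4 EZ
     (v clean: Act agrees when the rank of b::v agrees), so f.G v D' >= sum_a I1(Light f.rk a v) T a - 270 Sk * 4 EZ (sum_cS).
 (3) termwise I1(Light' a) T' a - I1(Light a) T a: rank of a::v unchanged: Light, eta, delta agree; if ph' = ph it is 0, otherwise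
     track_drop (D' <= S' by D_le_S) gives <= - S' |ph - ph'|/3.  Rank changed: T a >= 0 if light (cS, cD, S', D' >= 0) and
     T' a <= (200 Sk + 400 Sk)(D' + delta' S') <= 600 Sk (4 + 4/3) L'(a::v) (track_le, η_ge, cD_bd, D_le_sq, δ_mul_S). -/

set_option linter.unusedSectionVars false

namespace Vale.Agent.P304.Sq

open Finset

variable {Lab : Type} [Fintype Lab] [DecidableEq Lab] {k : ℕ} {W : ℝ} {J : ℕ}
  {f f' : Fr Lab k} {y y' : List Lab → Fin k → ℝ} {a : Lab} {v : List Lab}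

theorem Dt_self (f : Fr Lab k) (y : List Lab → Fin k → ℝ) (a : Lab) (v : List Lab) :
    f.Dt y y a v = f.D y a v := by
  simp only [Fr.Dt, Fr.D, LB, sub_self, mul_zero, add_zero]

theorem Dt_ge (h : f.OK0 J y) (h' : f'.OK0 J y') (a : Lab) (v : List Lab) :
    clm (f.yt (a :: v)) - LB (f.lam v) (y' (a :: v)) ≤ f.Dt y y' a v := by
  exact sub_le_sub_left (sum_le_sum fun i _ =>
    ell_tangent (h.lam_nonneg v) (h.lam_le_one v) (h.y0 _ i) (h'.y0 _ i)) _

theorem G_dirty (h : f.OK J y) (h' : f'.OK J y') (v : List Lab) :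
    f'.G v (fun a => f'.D y' a v) - f.G v (fun a => f.Dt y y' a v) ≤ 3500 * Sk k * sq2 (y' v) := by
  have hS : (0 : ℝ) ≤ Sk k := Nat.cast_nonneg _
  have h1 := h'.G_le v (fun _ => 0) fun a => f'.D y' a v
  have h2 := h.G_le v (fun a => -sq2 (y' (a :: v))) fun _ => 0
  have h3 := h.G_mono v (E := fun a => -sq2 (y' (a :: v))) (E' := fun a => f.Dt y y' a v) fun a => by
    linarith [Dt_ge h.toOK0 h'.toOK0 a v, h.clm_nonneg (a :: v),
      (h'.LB_bd (h.lam_nonneg v) (h.lam_le_one v) (a :: v)).2.1]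
  have h4 : ∑ a, I1 (Act f'.rk a v) * |f'.D y' a v - 0| ≤ 4 * sq2 (y' v) := by
    simp only [sub_zero, abs_of_nonneg (h'.D_nonneg _ v)]
    exact h'.S_le v
  have h5 : ∑ a, I1 (Act f.rk a v) * |0 - -sq2 (y' (a :: v))| ≤ sq2 (y' v) := by
    refine (sum_le_sum fun a _ => (mul_le_of_le_one_left (abs_nonneg _) (I1_le_one _)).trans
      (le_of_eq ?_)).trans (h'.nu.sub v)
    rw [zero_sub, neg_neg]
    exact abs_of_nonneg (h'.nu.nonneg _)
  have h6 := mul_le_mul_of_nonneg_left h4 hS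
  have h7 := mul_le_mul_of_nonneg_left h5 hS
  have h8 := mul_nonneg hS (h'.nu.nonneg v)
  rw [Fr.G_zero] at h1 h2
  linarith

theorem tpotg_one (h : f.OK J y) (h' : f'.OK J y') (u : f.Upd y' f') (hv : Clean f.rk f'.rk v)
    (a : Lab) :
    I1 (Light f'.rk a v) * (cS (f'.η a v) (f'.δ a v) (f'.ph (a :: v)) * f'.S y' v +
      cD (f'.η a v) (f'.δ a v) (f'.ph (a :: v)) * f'.D y' a v) -
    I1 (Light f.rk a v) * (cS (f.η a v) (f.δ a v) (f.ph (a :: v)) * f'.S y' v +
      cD (f.η a v) (f.δ a v) (f.ph (a :: v)) * f'.D y' a v) ≤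
    -(f'.S y' v * (I1 (Clean f.rk f'.rk (a :: v) ∧ Light f.rk a v) *
      |f.ph (a :: v) - f'.ph (a :: v)|) / 3) + 3200 * Sk k *
      (I1 (f.rk (a :: v) ≠ f'.rk (a :: v)) * (sq2 (y (a :: v)) + sq2 (y' (a :: v)))) := by
  have hS : (0 : ℝ) < Sk k := Nat.cast_pos.2 (Sk_pos h.hk)
  by_cases c : f.rk (a :: v) = f'.rk (a :: v)
  · have e4 : Light f.rk a v ↔ Light f'.rk a v := by rw [Light, Light, c, hv.er_eq]
    have e1 : f.η a v = f'.η a v := by rw [Fr.η, Fr.η, c, hv.er_eq]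
    have e2 : f.δ a v = f'.δ a v := by rw [Fr.δ, Fr.δ, c, hv.er_eq]
    rw [I1_of_not (not_not.2 c), zero_mul, mul_zero, add_zero, e1, e2]
    by_cases l : Light f.rk a v
    · have l' := e4.1 l
      rw [I1_of l, I1_of l', I1_of ⟨hv.cons c, l⟩, one_mul, one_mul, one_mul]
      rcases u.p a v l' with e | ⟨e, n⟩ <;> rw [e]
      · simp
      · exact track_drop (h'.η_pos l') (h'.η_le a v) (h'.δ_pos l') (h.p0 _) (h'.D_nonneg a v)
          (h'.D_le_S (act_of_light l')) n
    · rw [I1_of_not l, I1_of_not fun k => l (e4.2 k), I1_of_not fun k : _ ∧ _ => l k.2]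
      simp
  · have n0 := h.nu.nonneg (a :: v)
    have n1 := h'.nu.nonneg (a :: v)
    rw [I1_of_not fun k : Clean _ _ _ ∧ _ => c (k.1 _ List.suffix_rfl), I1_of c]
    simp only [zero_mul, mul_zero, zero_div, neg_zero, zero_add, one_mul]
    refine (sub_le_self _ ?_).trans ?_
    · by_cases l : Light f.rk a v
      · exact mul_nonneg (I1_nonneg _) (add_nonneg (mul_nonneg (h.cS_nonneg l) (h'.S_nonneg v))
          (mul_nonneg (h.cD_bd l).1 (h'.D_nonneg a v)))
      · rw [I1_of_not l, zero_mul]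
    · by_cases l : Light f'.rk a v
      · have a1 : 2 / f'.η a v ≤ 200 * Sk k := by
          have := h'.η_ge l
          rw [div_le_iff₀ (by positivity)] at this
          rw [div_le_iff₀ (h'.η_pos l)]
          linarith
        rw [I1_of l, one_mul]
        refine (track_le (h'.η_pos l) (h'.η_le a v) (h'.δ_pos l) (h'.D_nonneg a v)
          (h'.D_le_S (act_of_light l)) (h'.cl a v l) (h'.cD_bd l).2).trans ?_
        refine (mul_le_mul (add_le_add a1 le_rfl) (add_le_add (h'.D_le_sq a v) (h'.δ_mul_S l))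
          (add_nonneg (h'.D_nonneg a v) (mul_nonneg (h'.δ_pos l).le (h'.S_nonneg v)))
          (by positivity)).trans ?_
        linarith [mul_nonneg hS.le n0]
      · rw [I1_of_not l, zero_mul]
        exact mul_nonneg (by positivity) (add_nonneg n0 n1)

theorem G_clean (h : f.OK J y) (h' : f'.OK J y') (u : f.Upd y' f') (hv : Clean f.rk f'.rk v) :
    f'.G v (fun a => f'.D y' a v) - f.G v (fun a => f.Dt y y' a v) ≤ -(EF y' f f' v / 3) +
      670 * Sk k * (∑ a, |clm (f.yt (a :: v)) - clm (f'.yt (a :: v))| +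
        |f.lam v - f'.lam v| * sq2 (y' v)) + 4500 * Sk k * EZ y y' f f' v := by
  have hS : (0 : ℝ) ≤ Sk k := Nat.cast_nonneg _
  have hZ := EZ_nonneg y y' f f' v
  have h1 := h.G_mono v fun a => Dt_ge h.toOK0 h'.toOK0 a v
  have h2 := h.G_le v (fun a => clm (f.yt (a :: v)) - LB (f.lam v) (y' (a :: v)))
    fun a => f'.D y' a v
  have h3 : ∑ a, I1 (Act f.rk a v) *
      |f'.D y' a v - (clm (f.yt (a :: v)) - LB (f.lam v) (y' (a :: v)))| ≤
      ∑ a, |clm (f.yt (a :: v)) - clm (f'.yt (a :: v))| + |f.lam v - f'.lam v| * sq2 (y' v) := by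
    refine le_trans ?_ (add_le_add le_rfl (mul_le_mul_of_nonneg_left (h'.nu.sub v) (abs_nonneg _)))
    rw [mul_sum, ← sum_add_distrib]
    refine sum_le_sum fun a _ => (mul_le_of_le_one_left (abs_nonneg _) (I1_le_one _)).trans ?_
    rw [Fr.D, sub_sub_sub_comm, abs_sub_comm (clm (f.yt _))]
    refine (abs_sub _ _).trans (add_le_add le_rfl ?_)
    rw [LB, LB, sq2, ← sum_sub_distrib, mul_sum]
    refine (abs_sum_le_sum_abs _ _).trans (sum_le_sum fun i _ => ?_)
    have a1 := sub_nonneg.2 (h'.y1 (a :: v) i)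
    rw [ell_sub, abs_mul, abs_of_nonneg (mul_nonneg (sq_nonneg _) a1)]
    exact mul_le_mul_of_nonneg_left (mul_le_of_le_one_right (sq_nonneg _)
      (sub_le_self _ (h'.y0 _ i))) (abs_nonneg _)
  have h4 : f'.S y' v - ∑ b, I1 (Act f.rk b v) * f'.D y' b v ≤ 4 * EZ y y' f f' v := by
    rw [Fr.S, EZ, mul_sum, ← sum_sub_distrib]
    refine sum_le_sum fun a _ => ?_
    by_cases c : f.rk (a :: v) = f'.rk (a :: v)
    · rw [I1_of_not (not_not.2 c), zero_mul, mul_zero, Act, Act, (hv.cons c).er_eq, sub_self]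
    · have a1 := mul_nonneg (I1_nonneg (Act f.rk a v)) (h'.D_nonneg a v)
      have a2 := mul_le_of_le_one_left (h'.D_nonneg a v) (I1_le_one (Act f'.rk a v))
      rw [I1_of c, one_mul]
      linarith [h'.D_le_sq a v, h.nu.nonneg (a :: v)]
  have h5 : ∑ a, I1 (Light f.rk a v) * (cS (f.η a v) (f.δ a v) (f.ph (a :: v)) * f'.S y' v +
      cD (f.η a v) (f.δ a v) (f.ph (a :: v)) * f'.D y' a v) - f.G v (fun a => f'.D y' a v) ≤
      270 * Sk k * (4 * EZ y y' f f' v) := by
    refine le_trans ?_ (mul_le_mul_of_nonneg_right (h.sum_cS v) (by positivity))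
    rw [Fr.G, sum_mul, ← sum_sub_distrib]
    refine sum_le_sum fun a _ => ?_
    by_cases l : Light f.rk a v
    · rw [I1_of l]
      linarith [mul_le_mul_of_nonneg_left h4 (h.cS_nonneg l)]
    · rw [I1_of_not l]
      simp
  have h6 := sum_le_sum fun a (_ : a ∈ univ) => tpotg_one h h' u hv a
  have h7 : f'.G v (fun a => f'.D y' a v) = ∑ a, I1 (Light f'.rk a v) *
      (cS (f'.η a v) (f'.δ a v) (f'.ph (a :: v)) * f'.S y' v +
      cD (f'.η a v) (f'.δ a v) (f'.ph (a :: v)) * f'.D y' a v) := rfl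
  rw [sum_sub_distrib, sum_add_distrib, sum_neg_distrib, ← sum_div, ← mul_sum, ← mul_sum, ← h7,
    ← EF, ← EZ] at h6
  linarith [mul_le_mul_of_nonneg_left h3 hS, mul_nonneg hS hZ]

end Vale.Agent.P304.Sq
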