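import Vale.Agent.P304.Sq.TDefs
import Vale.Agent.P304.TBreg

/-! P304 tight bound, TREE: scalar inequalities.

PLAN (all elementary; th m = (7/6)^m/2, lemmas th_pos th_succ th_strictMono th_add_four in TPar).
* ell_tangent: z^2-y^2-2y(z-y) = (z-y)^2, z^3-y^3-3y^2(z-y) = (z-y)^2(z+2y).
* tau_slack: y >= 1/2: tau <= 1, 1 - ell <= 1 - y^3 <= 3(1-y) <= 12 y^2(1-y);
  y <= 1/2: tau <= 2 s^2 <= 3.125 y^2 <= 6.25 y^2 (1-y), ell >= 0.
* not_near: either y > 5s/4 or s > 5y/4, so max y s <= 5|s-y|; 0 <= tau t <= 2t^2.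
* cD_le: log((1+d)/(ph+d)) <= log(2/d), 2/d = 12 a (7/6)^(2a) with a = e - r >= 1 (th (2e) = (7/6)^(2a) th (2r)),
  log 12 <= 5/2 (or 3 via exp), log a <= a - 1, log(7/6) <= 1/6; so the log is <= 4a and 4a/et = 400 Sk.
* track_drop: S = 0 forces D = 0.  S > 0: with y = D/S + d, yh = ph + d one has
  eta*(cS ph * S + cD ph * D) = S * tht yh y + (D + d S)(1 + log(1+d))  (tht yh y = yh - y - y log yh),
  so the difference is -(S/eta)(tht yh y - tht y y); use breg_ge / breg_le (TBreg):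
  y > (1+eta) yh gives (y-yh)/(y+yh) >= eta/3, yh > (1+eta) y gives (yh-y)/(2yh) >= eta/3.
* track_le: cS*S + cD*D = (ph+d) S/eta + cD (D + d S) and (ph+d) S <= (1+eta)(D + d S).
* deficit_ineq: r = max (C-Y) 0 - max (C'-Y') 0 = t ((C-C') - (Y-Y')) for some t in [0,1]
  (or case split on the two max and abs_le / abs_cases + nlinarith); |1-tG| + tG <= 1.08.
* ref_drop: (a-b)^2 >= a^2/14 - b^2/13 termwise.  If sq2 y' >= th(2r+4) then sq2 yb < th(2r+3) <= 6/7 sq2 y' and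
  x <= sq2 y'; otherwise r >= 1, sq2 y' < th(2r) = 6/7 th(2r+1) <= 6/7 sq2 yb, x < th(2r+4) <= (7/6)^3 sq2 yb.
-/

namespace Vale.Agent.P304.Sq

open Finset

variable {k : ℕ}

theorem ell_nonneg {lam y : ℝ} (h0 : 0 ≤ lam) (h1 : lam ≤ 1) (hy : 0 ≤ y) : 0 ≤ ell lam y := by
  exact add_nonneg (mul_nonneg (sub_nonneg.2 h1) (sq_nonneg y)) (mul_nonneg h0 (pow_nonneg hy 3))

theorem ell_le_sq {lam y : ℝ} (h0 : 0 ≤ lam) (hy0 : 0 ≤ y) (hy1 : y ≤ 1) : ell lam y ≤ y ^ 2 := by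
  have h := mul_nonneg h0 (mul_nonneg (sq_nonneg y) (sub_nonneg.2 hy1))
  unfold ell
  linarith

theorem ell_zero (lam : ℝ) : ell lam 0 = 0 := by
  unfold ell
  ring

theorem ell_one (lam : ℝ) : ell lam 1 = 1 := by
  unfold ell
  ring

theorem ell_sub (lam mu y : ℝ) : ell lam y - ell mu y = (mu - lam) * (y ^ 2 * (1 - y)) := by
  unfold ell
  ring

theorem ell_tangent {lam y z : ℝ} (h0 : 0 ≤ lam) (h1 : lam ≤ 1) (hy : 0 ≤ y) (hz : 0 ≤ z) :
    ell lam y + ell' lam y * (z - y) ≤ ell lam z := by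
  have h2 := mul_nonneg (sub_nonneg.2 h1) (sq_nonneg (z - y))
  have h3 := mul_nonneg h0 (mul_nonneg (sq_nonneg (z - y)) (by linarith : 0 ≤ z + 2 * y))
  unfold ell ell'
  linarith

theorem ell'_bd {lam y : ℝ} (h0 : 0 ≤ lam) (h1 : lam ≤ 1) (hy0 : 0 ≤ y) (hy1 : y ≤ 1) :
    0 ≤ ell' lam y ∧ ell' lam y ≤ 3 := by
  have h2 := mul_nonneg (sub_nonneg.2 h1) hy0
  have h3 := mul_nonneg h0 (sq_nonneg y)
  have h4 := mul_nonneg (sub_nonneg.2 h1) (sub_nonneg.2 hy1)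
  have h5 := mul_nonneg h0 (sub_nonneg.2 (pow_le_one₀ (n := 2) hy0 hy1))
  unfold ell'
  constructor <;> linarith

theorem near_self {a : ℝ} (h : 0 ≤ a) : Near a a := by
  constructor <;> linarith

theorem tau_nonneg (s : ℝ) : 0 ≤ tau s := by
  exact le_min zero_le_one (by positivity)

theorem tau_zero : tau 0 = 0 := by
  unfold tau
  norm_num

theorem tau_one : tau 1 = 1 := by
  unfold tau
  norm_num

theorem tau_ge {y s : ℝ} (h : Near y s) (h0 : 0 ≤ y) (h1 : y ≤ 1) : y ^ 2 ≤ tau s := by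
  refine le_min (pow_le_one₀ h0 h1) ?_
  have h2 := pow_le_pow_left₀ h0 h.1 2
  linarith [sq_nonneg s]

theorem tau_le {y s : ℝ} (h : Near y s) (h0 : 0 ≤ s) : tau s ≤ 4 * y ^ 2 := by
  have h2 := pow_le_pow_left₀ h0 h.2 2
  have h3 : tau s ≤ 2 * s ^ 2 := min_le_right _ _
  linarith [sq_nonneg y]

theorem tau_slack {lam y s : ℝ} (h : Near y s) (hs : 0 ≤ s) (h0 : 0 ≤ y) (h1 : y ≤ 1) (l0 : 0 ≤ lam)
    (l1 : lam ≤ 1) : tau s - ell lam y ≤ 12 * (y ^ 2 * (1 - y)) := by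
  rcases le_total (1 / 2) y with h2 | h2
  · have h3 : tau s ≤ 1 := min_le_left _ _
    have h4 := mul_nonneg (sub_nonneg.2 l1) (mul_nonneg (sq_nonneg y) (sub_nonneg.2 h1))
    have h5 : 0 ≤ 11 * y ^ 2 - y - 1 := by nlinarith
    have h6 := mul_nonneg h5 (sub_nonneg.2 h1)
    unfold ell
    linarith
  · have h3 : tau s ≤ 2 * s ^ 2 := min_le_right _ _
    have h4 := pow_le_pow_left₀ hs h.2 2
    have h5 := ell_nonneg l0 l1 h0
    have h6 := mul_nonneg (sq_nonneg y) (sub_nonneg.2 h2)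
    linarith [sq_nonneg y]

theorem not_near {y s : ℝ} (hy : 0 ≤ y) (hs : 0 ≤ s) (h : ¬Near y s) :
    y ≤ 5 * |s - y| ∧ |tau s - tau y| ≤ 50 * (s - y) ^ 2 := by
  have h1 : y ≤ 5 * |s - y| ∧ s ≤ 5 * |s - y| := by
    have h2 := le_abs_self (s - y)
    have h3 := neg_abs_le (s - y)
    rcases not_and_or.1 h with h4 | h4
    · constructor <;> linarith [not_le.1 h4]
    · constructor <;> linarith [not_le.1 h4]
  have h2 := pow_le_pow_left₀ hy h1.1 2
  have h3 := pow_le_pow_left₀ hs h1.2 2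
  rw [mul_pow, sq_abs] at h2 h3
  have h4 : tau s ≤ 2 * s ^ 2 := min_le_right _ _
  have h5 : tau y ≤ 2 * y ^ 2 := min_le_right _ _
  refine ⟨h1.1, abs_le.2 ⟨?_, ?_⟩⟩ <;> linarith [tau_nonneg s, tau_nonneg y]

theorem tscal_one_le {e r : ℕ} (h : r < e) : (1 : ℝ) ≤ (e : ℝ) - r := by
  have h1 : ((r + 1 : ℕ) : ℝ) ≤ e := by exact_mod_cast h
  push_cast at h1
  linarith

theorem et_ge (hk : 2 ≤ k) {e r : ℕ} (h : r < e) : 1 / (100 * (Sk k : ℝ)) ≤ et k e r := by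
  exact div_le_div_of_nonneg_right (tscal_one_le h) (by positivity)

theorem et_le (hk : 2 ≤ k) {e : ℕ} (he : e ≤ Sk k) (r : ℕ) : et k e r ≤ 1 / 100 := by
  have h1 : (0 : ℝ) < Sk k := by exact_mod_cast Sk_pos hk
  have h2 : (e : ℝ) ≤ Sk k := by exact_mod_cast he
  have h3 : (0 : ℝ) ≤ r := Nat.cast_nonneg r
  unfold et
  rw [div_le_iff₀ (by positivity)]
  linarith

theorem dd_pos {e r : ℕ} (h : r < e) : 0 < dd e r := by
  have h1 := tscal_one_le h
  exact div_pos (th_pos _) (mul_pos (by linarith) (th_pos _))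

theorem dd_le {e r : ℕ} (h : r < e) : dd e r ≤ th (2 * r) / (6 * th (2 * e)) := by
  have h1 := tscal_one_le h
  exact div_le_div_of_nonneg_left (th_pos _).le (mul_pos (by norm_num) (th_pos _))
    (mul_le_mul_of_nonneg_right (by linarith) (th_pos _).le)

theorem et_mul_dd (hk : 2 ≤ k) {e r : ℕ} (h : r < e) :
    et k e r * dd e r = th (2 * r) / (600 * Sk k * th (2 * e)) := by
  have h1 : (0 : ℝ) < Sk k := by exact_mod_cast Sk_pos hk
  have h2 : (e : ℝ) - r ≠ 0 := by linarith [tscal_one_le h]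
  have h3 := th_pos (2 * e)
  unfold et dd
  generalize (e : ℝ) - r = a at h2
  field_simp
  ring

theorem cD_nonneg {η δ ph : ℝ} (h : 0 < η) (hδ : 0 < δ) (h0 : 0 ≤ ph) (h1 : ph ≤ 1) : 0 ≤ cD η δ ph := by
  refine div_nonneg (Real.log_nonneg ?_) h.le
  rw [le_div_iff₀ (by linarith)]
  linarith

theorem cS_nonneg {η δ ph : ℝ} (h : 0 < η) (hδ : 0 < δ) (h0 : 0 ≤ ph) (h1 : ph ≤ 1) : 0 ≤ cS η δ ph := by
  exact add_nonneg (div_nonneg (by linarith) h.le) (mul_nonneg hδ.le (cD_nonneg h hδ h0 h1))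

theorem tscal_exp (n : ℕ) :
    1 + 6 * ((n + 1 : ℕ) : ℝ) * ((7 / 6) ^ 2) ^ (n + 1) ≤ Real.exp (4 * ((n + 1 : ℕ) : ℝ)) := by
  have h1 : ((7 / 6 : ℝ) ^ 2) ^ (n + 1) ≤ 2 ^ (n + 1) :=
    pow_le_pow_left₀ (by positivity) (by norm_num) _
  have h2 : 2 * ((n + 1 : ℕ) : ℝ) ≤ 2 ^ (n + 1) := by
    have h3 : ((n + 1 : ℕ) : ℝ) ≤ 2 ^ n := by exact_mod_cast Nat.lt_two_pow_self
    rw [pow_succ]
    linarith
  have h3 : (1 : ℝ) ≤ ((n + 1 : ℕ) : ℝ) := by exact_mod_cast Nat.succ_pos n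
  have h4 : ((2 : ℝ) ^ (n + 1)) ^ 4 ≤ Real.exp (4 * ((n + 1 : ℕ) : ℝ)) := by
    rw [show 4 * ((n + 1 : ℕ) : ℝ) = (((n + 1) * 4 : ℕ) : ℝ) * 1 by push_cast; ring,
      Real.exp_nat_mul, ← pow_mul]
    exact pow_le_pow_left₀ (by norm_num) (by linarith [Real.add_one_le_exp 1]) _
  refine le_trans ?_ h4
  have h5 := mul_le_mul h2 h1 (by positivity) (by positivity)
  generalize (2 : ℝ) ^ (n + 1) = P at h2 h5
  have h6 : 4 ≤ P ^ 2 := by nlinarith
  nlinarith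

theorem cD_le (hk : 2 ≤ k) {e r : ℕ} (h : r < e) {ph : ℝ} (h0 : 0 ≤ ph) :
    cD (et k e r) (dd e r) ph ≤ 400 * Sk k := by
  have h1 : (0 : ℝ) < Sk k := by exact_mod_cast Sk_pos hk
  have hd := dd_pos h
  have ha := tscal_one_le h
  obtain ⟨n, rfl⟩ := Nat.exists_eq_add_of_lt h
  have e1 : ((r + n + 1 : ℕ) : ℝ) - r = (n + 1 : ℕ) := by
    push_cast
    ring
  have e2 : 1 / dd (r + n + 1) r = 6 * ((n + 1 : ℕ) : ℝ) * ((7 / 6) ^ 2) ^ (n + 1) := by
    unfold dd th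
    rw [e1, ← pow_mul, show 2 * (r + n + 1) = 2 * r + 2 * (n + 1) by ring, pow_add]
    generalize ((7 / 6 : ℝ)) ^ (2 * (n + 1)) = u
    have h2 : (0 : ℝ) < (7 / 6) ^ (2 * r) := by positivity
    generalize ((7 / 6 : ℝ)) ^ (2 * r) = t at h2
    field_simp
  have e3 : (1 + dd (r + n + 1) r) / (ph + dd (r + n + 1) r) ≤ 1 + 1 / dd (r + n + 1) r := by
    refine (div_le_div_of_nonneg_left (by linarith) hd (by linarith)).trans (le_of_eq ?_)
    field_simp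
    ring
  have e4 : Real.log ((1 + dd (r + n + 1) r) / (ph + dd (r + n + 1) r)) ≤ 4 * ((n + 1 : ℕ) : ℝ) := by
    rw [Real.log_le_iff_le_exp (by positivity)]
    exact e3.trans (e2 ▸ tscal_exp n)
  have e5 : 0 < et k (r + n + 1) r := div_pos (by linarith) (by positivity)
  unfold cD
  rw [div_le_iff₀ e5]
  refine e4.trans (le_of_eq ?_)
  unfold et
  rw [e1]
  field_simp
  ring

theorem cl_self {η δ a : ℝ} (h : 0 ≤ η) (hδ : 0 ≤ δ) (ha : 0 ≤ a) : Cl η δ a a := by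
  have h1 := mul_nonneg h (add_nonneg ha hδ)
  constructor <;> linarith

theorem gg_nonneg (η δ ph : ℝ) : 0 ≤ gg η δ ph := by
  exact le_max_left _ _

theorem gg_ge {η δ a ph : ℝ} (h0 : 0 ≤ η) (h1 : η ≤ 1 / 100) (hδ : 0 ≤ δ) (h : Cl η δ a ph) :
    (1 + η) * a - 3 * (η * δ) ≤ gg η δ ph := by
  refine le_trans ?_ (le_max_right _ _)
  have h2 := mul_le_mul_of_nonneg_left h.1 (by linarith : 0 ≤ 1 + η)
  have h3 : 0 ≤ 3 - (1 + η) * (2 + η) := by nlinarith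
  have h4 := mul_nonneg (mul_nonneg h0 hδ) h3
  linarith

theorem gg_le {η δ a ph : ℝ} (h0 : 0 ≤ η) (ha : 0 ≤ a) (h : Cl η δ a ph) :
    gg η δ ph ≤ (1 + η) ^ 3 * a := by
  refine max_le (by positivity) ?_
  have h2 := mul_le_mul_of_nonneg_left h.2 (sq_nonneg (1 + η))
  linarith

theorem gg_lip {η : ℝ} (h0 : 0 ≤ η) (h1 : η ≤ 1 / 100) (δ a b : ℝ) :
    |gg η δ a - gg η δ b| ≤ 103 / 100 * |a - b| := by
  unfold gg
  rw [max_comm 0, max_comm 0]
  refine (abs_max_sub_max_le_abs _ _ _).trans ?_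
  rw [show (1 + η) ^ 2 * (a + δ) - (1 + η) ^ 3 * δ - ((1 + η) ^ 2 * (b + δ) - (1 + η) ^ 3 * δ) =
    (1 + η) ^ 2 * (a - b) by ring, abs_mul, abs_of_nonneg (sq_nonneg _)]
  exact mul_le_mul_of_nonneg_right (by nlinarith) (abs_nonneg _)

theorem tscal_breg {η y yh : ℝ} (h0 : 0 < η) (h1 : η ≤ 1 / 100) (hy : 0 < y) (hh : 0 < yh)
    (h : ¬(y ≤ (1 + η) * yh ∧ yh ≤ (1 + η) * y)) : η / 3 * |yh - y| ≤ tht yh y - tht y y := by
  rcases not_and_or.1 h with h2 | h2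
  · rw [not_le] at h2
    have h3 : yh ≤ y := by nlinarith
    refine le_trans ?_ (breg_ge hh h3)
    rw [abs_sub_comm, abs_of_nonneg (sub_nonneg.2 h3), le_div_iff₀ (by linarith)]
    have h4 : η / 3 * (y + yh) ≤ y - yh := by
      have h5 := mul_le_mul_of_nonneg_left h2.le (by linarith : 0 ≤ 3 - η)
      have h6 := mul_nonneg (mul_nonneg h0.le hh.le) (by linarith : 0 ≤ 1 - η)
      linarith
    have h5 := mul_le_mul_of_nonneg_right h4 (sub_nonneg.2 h3)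
    linarith
  · rw [not_le] at h2
    have h3 : y ≤ yh := by nlinarith
    refine le_trans ?_ (breg_le hy h3)
    rw [abs_of_nonneg (sub_nonneg.2 h3), le_div_iff₀ (by linarith)]
    have h4 : η / 3 * (2 * yh) ≤ yh - y := by
      have h5 := mul_le_mul_of_nonneg_left h2.le (by linarith : 0 ≤ 3 - 2 * η)
      have h6 := mul_nonneg (mul_nonneg h0.le hy.le) (by linarith : 0 ≤ 1 - 2 * η)
      linarith
    have h5 := mul_le_mul_of_nonneg_right h4 (sub_nonneg.2 h3)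
    linarith

theorem tscal_track {η δ q p S : ℝ} (h0 : 0 < η) (hδ : 0 < δ) (hq : 0 ≤ q) :
    cS η δ q * S + cD η δ q * (p * S) =
      S / η * (tht (q + δ) (p + δ) + (p + δ) * (1 + Real.log (1 + δ))) := by
  unfold cS cD tht
  rw [Real.log_div (by linarith) (by linarith)]
  field_simp
  ring

theorem track_drop {η δ ph D S : ℝ} (h0 : 0 < η) (h1 : η ≤ 1 / 100) (hδ : 0 < δ) (hp : 0 ≤ ph)
    (hD : 0 ≤ D) (hS : D ≤ S) (h : ¬Cl η δ (D / S) ph) :
    (cS η δ (D / S) * S + cD η δ (D / S) * D) - (cS η δ ph * S + cD η δ ph * D) ≤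
      -(S * |ph - D / S| / 3) := by
  rcases (hD.trans hS).eq_or_lt with hS0 | hS0
  · obtain rfl : D = 0 := le_antisymm (hS.trans hS0.ge) hD
    subst hS0
    simp
  · have hq : 0 ≤ D / S := div_nonneg hD hS0.le
    have hD' : D = D / S * S := (div_mul_cancel₀ D hS0.ne').symm
    generalize D / S = p at hq hD' h ⊢
    subst hD'
    have h2 := tscal_breg h0 h1 (by linarith : 0 < p + δ) (by linarith : 0 < ph + δ) h
    rw [add_sub_add_right_eq_sub] at h2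
    rw [tscal_track h0 hδ hq, tscal_track h0 hδ hp]
    have h3 := mul_le_mul_of_nonneg_left h2 (div_nonneg hS0.le h0.le)
    have h4 : S / η * (η / 3 * |ph - p|) = S * |ph - p| / 3 := by field_simp
    linarith

theorem track_le {η δ ph D S K : ℝ} (h0 : 0 < η) (h1 : η ≤ 1 / 100) (hδ : 0 < δ)
    (hD : 0 ≤ D) (hS : D ≤ S) (h : Cl η δ (D / S) ph) (hK : cD η δ ph ≤ K) :
    cS η δ ph * S + cD η δ ph * D ≤ (2 / η + K) * (D + δ * S) := by
  rcases (hD.trans hS).eq_or_lt with hS0 | hS0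
  · obtain rfl : D = 0 := le_antisymm (hS.trans hS0.ge) hD
    subst hS0
    simp
  · have h2 : 0 ≤ D + δ * S := by positivity
    have h3 := mul_le_mul_of_nonneg_right hK h2
    have h4 := mul_le_mul_of_nonneg_right h.2 hS0.le
    rw [mul_assoc, add_mul (D / S), div_mul_cancel₀ D hS0.ne'] at h4
    have h5 := mul_le_mul_of_nonneg_right (by linarith : 1 + η ≤ 2) h2
    have h6 := div_le_div_of_nonneg_right (h4.trans h5) h0.le
    have h7 : (ph + δ) * S / η = (ph + δ) / η * S := by ring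
    have h8 : 2 * (D + δ * S) / η = 2 / η * (D + δ * S) := by ring
    unfold cS
    linarith

theorem tscal_max (a b : ℝ) : ∃ t : ℝ, 0 ≤ t ∧ t ≤ 1 ∧ max a 0 - max b 0 = t * (a - b) := by
  rcases le_or_gt 0 a with ha | ha <;> rcases le_or_gt 0 b with hb | hb
  · exact ⟨1, zero_le_one, le_rfl, by rw [max_eq_left ha, max_eq_left hb, one_mul]⟩
  · refine ⟨a / (a - b), div_nonneg ha (by linarith), (div_le_one (by linarith)).2 (by linarith), ?_⟩
    rw [max_eq_left ha, max_eq_right hb.le, div_mul_cancel₀ _ (by linarith), sub_zero]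
  · refine ⟨b / (b - a), div_nonneg hb (by linarith), (div_le_one (by linarith)).2 (by linarith), ?_⟩
    rw [max_eq_right ha.le, max_eq_left hb, ← neg_sub b a, mul_neg, div_mul_cancel₀ _ (by linarith),
      zero_sub]
  · exact ⟨0, le_rfl, zero_le_one, by rw [max_eq_right ha.le, max_eq_right hb.le, zero_mul, sub_self]⟩

theorem deficit_ineq {G : ℝ} (h0 : 0 ≤ G) (h1 : G ≤ 104 / 100) (Y Y' C C' : ℝ) :
    |(Y - Y') + (max (C - Y) 0 - max (C' - Y') 0) * G| + |max (C - Y) 0 - max (C' - Y') 0| * G ≤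
      11 / 10 * |Y - Y'| + 3 * |C - C'| := by
  obtain ⟨t, t0, t1, ht⟩ := tscal_max (C - Y) (C' - Y')
  have hs0 := mul_nonneg t0 h0
  have hs1 : t * G ≤ 104 / 100 := (mul_le_of_le_one_left h0 t1).trans h1
  rw [ht, show C - Y - (C' - Y') = (C - C') - (Y - Y') by ring]
  generalize C - C' = c
  generalize Y - Y' = u
  rw [show u + t * (c - u) * G = (1 - t * G) * u + t * G * c by ring, abs_mul t, abs_of_nonneg t0,
    mul_right_comm t |c - u|]
  generalize t * G = s at hs0 hs1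
  have e1 := abs_add_le ((1 - s) * u) (s * c)
  rw [abs_mul, abs_mul, abs_of_nonneg hs0] at e1
  have e2 := mul_le_mul_of_nonneg_left (abs_sub c u) hs0
  have e3 : |1 - s| + s ≤ 11 / 10 := by
    rcases abs_cases (1 - s) with h | h <;> linarith [h.1]
  have e4 := mul_le_mul_of_nonneg_right e3 (abs_nonneg u)
  have e5 := mul_le_mul_of_nonneg_right hs1 (abs_nonneg c)
  linarith [abs_nonneg c]

theorem ref_drop {r : ℕ} {yb y' : Fin k → ℝ} {x : ℝ} (hn : NhV k r (sq2 yb)) (hx : RkV x r)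
    (h : ¬RkV (sq2 y') r) : (x + sq2 y') / 500 ≤ ∑ i, (yb i - y' i) ^ 2 := by
  have key : ∀ a b : Fin k → ℝ, sq2 a / 14 - sq2 b / 13 ≤ ∑ i, (a i - b i) ^ 2 := fun a b => by
    unfold sq2
    rw [Finset.sum_div, Finset.sum_div, ← Finset.sum_sub_distrib]
    exact Finset.sum_le_sum fun i _ => by linarith [sq_nonneg (13 * a i - 14 * b i)]
  have e1 := th_succ (2 * r)
  have e2 : th (2 * r + 2) = _ := th_succ (2 * r + 1)
  have e3 : th (2 * r + 3) = _ := th_succ (2 * r + 2)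
  have e4 : th (2 * r + 4) = _ := th_succ (2 * r + 3)
  have e0 := th_pos (2 * r)
  by_cases h1 : sq2 y' < th (2 * r + 4)
  · have h2 : ¬ (1 ≤ r → th (2 * r) ≤ sq2 y') := fun h2 => h ⟨h1, h2⟩
    push Not at h2
    linarith [key yb y', hn.2.2.2 h2.1, h2.2, hx.1]
  · have h2 := key y' yb
    simp only [sub_sq_comm (y' _)] at h2
    linarith [not_lt.1 h1, hn.2.2.1, hx.1]

end Vale.Agent.P304.Sq
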