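import Vale.Agent.P304.Sq.TInt
import Vale.Agent.P304.TRound

/-! P304 tight bound, TREE: existence of the lazy update and of the initial state
(compare Vale/Agent/P304/TUpd.lean).

PLAN.  exists_upd2: y' = yy A'.  yt' v i = if Near (y' v i) (yt v i) then yt else y' (near_self); (rk', yb') kept if RkV (sq2 (y' v)) (rk v),
otherwise yb' = y' v and rk' from exists_rank (sq2 (y' v) in [0,k] by snap_nuOK).  f1 = (yt', rk', ph) satisfies OK0 (yy_nonneg, yy_le_one,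
snap_nuOK, snap_LB_sup).  ph' [] = ph [], ph' (a::v) = if Light rk' a v and not Cl (f1.η a v) (f1.δ a v) (f1.phi y' a v) (ph (a::v))
then f1.phi y' a v else ph (a::v).  For f' = (yt', rk', ph') the functions η, δ, phi are those of f1 (Fr.lam_congr); phi_bd, cl_self.
Anchors as in TUpd; cfg from round with yOK.
exists_init2: yt = yb = cc p, rk from exists_rank (sq2_cc), ph = 0; for B as in the statement yy B = cc p (yy_const), every slack D is 0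
(cc_01, tau_zero, tau_one, ell_zero, ell_one), so phi = 0 and cl_self; exists_cfg. -/

set_option linter.unusedSectionVars false

namespace Vale.Agent.P304.Sq

open Finset

variable {Lab : Type} [Fintype Lab] [DecidableEq Lab] {k M : ℕ} {X : Type} [MetricSpace X]
  {Ω : Type} [Fintype Ω] {W : ℝ} {J : ℕ} {A A' : Pic Ω Lab X k} {S S' : St2 Lab X k M}

theorem tupd2_wt (hW : 0 < W) (m : ℕ) : 0 ≤ wt W m := by
  unfold wt
  positivity

theorem tupd2_phi (yt : List Lab → Fin k → ℝ) (rk : List Lab → ℕ) (p q : List Lab → ℝ)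
    (y : List Lab → Fin k → ℝ) (a : Lab) (v : List Lab) :
    Fr.phi (⟨yt, rk, p⟩ : Fr Lab k) y a v = Fr.phi (⟨yt, rk, q⟩ : Fr Lab k) y a v := by
  have e : Fr.lam (⟨yt, rk, p⟩ : Fr Lab k) = Fr.lam (⟨yt, rk, q⟩ : Fr Lab k) := Fr.lam_congr rfl
  unfold Fr.phi Fr.S Fr.D
  rw [e]

theorem tupd2_ok0 {yt : List Lab → Fin k → ℝ} {rk : List Lab → ℕ} {p : List Lab → ℝ} (q : List Lab → ℝ)
    {y : List Lab → Fin k → ℝ} (h : Fr.OK0 (⟨yt, rk, p⟩ : Fr Lab k) J y) :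
    Fr.OK0 (⟨yt, rk, q⟩ : Fr Lab k) J y :=
  ⟨h.hk, h.y0, h.y1, h.nu, h.sup, h.near, h.t0, h.t1, h.r⟩

theorem exists_upd2 (hM : 0 < M) (hW : 0 < W) (h : Valid2 W J A S) (hs : Snap W J A') :
    ∃ S' : St2 Lab X k M, Valid2 W J A' S' ∧ Upd2 W J A' S S' := by
  classical
  have hn := snap_nuOK hs
  have hq : ∀ v i, ∃ z, (Near (yy A' v i) z ∧ 0 ≤ z ∧ z ≤ 1) ∧ (z = S.yt v i ∨
      (z = yy A' v i ∧ ¬Near (yy A' v i) (S.yt v i))) := fun v i => by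
    by_cases hc : Near (yy A' v i) (S.yt v i)
    · exact ⟨_, ⟨hc, h.ok.t0 v i, h.ok.t1 v i⟩, Or.inl rfl⟩
    · exact ⟨_, ⟨near_self (yy_nonneg hs v i), yy_nonneg hs v i, yy_le_one hs v i⟩, Or.inr ⟨rfl, hc⟩⟩
  choose yt hq1 hq2 using hq
  have hr : ∀ v, ∃ (r : ℕ) (z : Fin k → ℝ), RkV (sq2 (yy A' v)) r ∧ NhV k r (sq2 z) ∧
      (∀ i, 0 ≤ z i) ∧ (∀ i, z i ≤ 1) ∧ ((r = S.rk v ∧ z = S.yb v) ∨
      (z = yy A' v ∧ ¬RkV (sq2 (yy A' v)) (S.rk v))) := fun v => by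
    by_cases hc : RkV (sq2 (yy A' v)) (S.rk v)
    · exact ⟨_, _, hc, h.n v, h.b0 v, h.b1 v, Or.inl ⟨rfl, rfl⟩⟩
    · obtain ⟨r, h1, h2⟩ := exists_rank (hn.nonneg v) (hn.le_k v)
      exact ⟨r, _, h1, h2, yy_nonneg hs v, yy_le_one hs v, Or.inr ⟨rfl, hc⟩⟩
  choose rk yb hr1 hr2 hr3 hr4 hr5 using hr
  have ha : ∀ v, ∃ z, (∀ y, Flag rk v → A'.Mem v y → dist z y ≤ 24 * wt W v.length) ∧
      (Flag rk v → (Flag S.rk v ∧ z = S.an v) ∨ (A'.Mem v z ∧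
        (Flag S.rk v → ∃ y, A'.Mem v y ∧ 24 * wt W v.length < dist (S.an v) y))) := fun v => by
    by_cases hf : Flag rk v
    · by_cases hc : Flag S.rk v ∧ ∀ y, A'.Mem v y → dist (S.an v) y ≤ 24 * wt W v.length
      · exact ⟨S.an v, fun y _ hy => hc.2 y hy, fun _ => Or.inl ⟨hc.1, rfl⟩⟩
      · obtain ⟨z, hz⟩ := snap_exists_mem hs
          ((th_pos _).trans_le (le_nu (ν := fun v => sq2 (yy A' v)) hr1 hf.1))
        refine ⟨z, fun y _ hy => (hs.geo v z y hz hy).trans ?_, fun _ => Or.inr ⟨hz, fun hf' => ?_⟩⟩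
        · linarith [tupd2_wt hW v.length]
        · by_contra hne
          exact hc ⟨hf', fun y hy => not_lt.1 fun hlt => hne ⟨y, hy, hlt⟩⟩
    · exact ⟨S.an v, fun _ hf' => absurd hf' hf, fun hf' => absurd hf' hf⟩
  choose an ha1 ha2 using ha
  have h0 : Fr.OK0 (⟨yt, rk, S.ph⟩ : Fr Lab k) J (yy A') :=
    ⟨h.ok.hk, yy_nonneg hs, yy_le_one hs, hn, fun _ l0 l1 v => snap_LB_sup hs l0 l1 v,
      fun v i => (hq1 v i).1, fun v i => (hq1 v i).2.1, fun v i => (hq1 v i).2.2, hr1⟩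
  set f1 : Fr Lab k := ⟨yt, rk, S.ph⟩ with hf1
  have hp : ∀ u : List Lab, ∃ z : ℝ, (0 ≤ z ∧ z ≤ 1) ∧ ∀ a v, u = a :: v → Light rk a v →
      Cl (f1.η a v) (f1.δ a v) (f1.phi (yy A') a v) z ∧ (z = S.ph (a :: v) ∨
        (z = f1.phi (yy A') a v ∧
          ¬Cl (f1.η a v) (f1.δ a v) (f1.phi (yy A') a v) (S.ph (a :: v)))) := fun u => by
    rcases u with _ | ⟨a, v⟩
    · exact ⟨0, ⟨le_rfl, zero_le_one⟩, fun a v e => absurd e (by simp)⟩
    · by_cases hl : Light rk a v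
      · by_cases hc : Cl (f1.η a v) (f1.δ a v) (f1.phi (yy A') a v) (S.ph (a :: v))
        · refine ⟨S.ph (a :: v), ⟨h.ok.p0 _, h.ok.p1 _⟩, fun a' v' e _ => ?_⟩
          obtain ⟨rfl, rfl⟩ := List.cons_eq_cons.1 e
          exact ⟨hc, Or.inl rfl⟩
        · have hb := h0.phi_bd (act_of_light hl)
          refine ⟨f1.phi (yy A') a v, hb, fun a' v' e _ => ?_⟩
          obtain ⟨rfl, rfl⟩ := List.cons_eq_cons.1 e
          exact ⟨cl_self (h0.η_pos hl).le (h0.δ_pos hl).le hb.1, Or.inr ⟨rfl, hc⟩⟩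
      · refine ⟨0, ⟨le_rfl, zero_le_one⟩, fun a' v' e hl' => ?_⟩
        obtain ⟨rfl, rfl⟩ := List.cons_eq_cons.1 e
        exact absurd hl' hl
  choose ph hp1 hp2 using hp
  have hok : Fr.OK (⟨yt, rk, ph⟩ : Fr Lab k) J (yy A') := by
    refine ⟨tupd2_ok0 ph h0, fun v => (hp1 v).1, fun v => (hp1 v).2, fun a v hl => ?_⟩
    rw [tupd2_phi yt rk ph S.ph]
    exact (hp2 _ a v rfl hl).1
  obtain ⟨cfg, hc1, hc2⟩ := round hM hW h.c (hok.yOK M)
  refine ⟨⟨⟨yt, rk, ph⟩, yb, an, cfg⟩, ⟨hok, hr2, hr3, hr4, ha1, hc1⟩, ⟨hq2, fun a v hl => ?_⟩,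
    hr5, ha2, hc2⟩
  have e := tupd2_phi yt rk ph S.ph (yy A') a v
  have := (hp2 _ a v rfl hl).2
  rw [← e] at this
  exact this

theorem exists_init2 (hk : 2 ≤ k) (hM : 0 < M) (hW : 0 < W) (p : Fin k → List Lab) (s : Fin k → X)
    (hs : Snap W J A) (hp : A.P = fun _ => p) (hx : A.x = fun _ => s) :
    ∃ S : St2 Lab X k M, S.yt = cc p ∧ S.yb = cc p ∧ (∀ v, ∃ l, S.an v = s l) ∧
      ∀ B : Pic Ω Lab X k, Snap W J B → (B.P = fun _ => p) → (B.x = fun _ => s) → Valid2 W J B S := by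
  classical
  have hr : ∀ v, ∃ r, RkV (sq2 (cc p v)) r ∧ NhV k r (sq2 (cc p v)) := fun v => by
    rw [sq2_cc]
    exact exists_rank (Nat.cast_nonneg _) (by exact_mod_cast Nn_le p v)
  choose rk hr1 hr2 using hr
  have ha : ∀ v, ∃ l, (∃ l', v <:+ p l') → v <:+ p l := fun v => by
    by_cases hc : ∃ l', v <:+ p l'
    · obtain ⟨l, hl⟩ := hc
      exact ⟨l, fun _ => hl⟩
    · exact ⟨⟨0, by omega⟩, fun hc' => absurd hc' hc⟩
  choose la hla using ha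
  have e := yy_const hs hp
  have h0 : Fr.OK0 (⟨cc p, rk, fun _ => 0⟩ : Fr Lab k) J (cc p) := by
    refine ⟨hk, cc_nonneg p, cc_le_one p, ?_, fun _ l0 l1 v => ?_, fun v i => near_self (cc_nonneg p v i),
      cc_nonneg p, cc_le_one p, hr1⟩
    · rw [← e]; exact snap_nuOK hs
    · rw [← e]; exact snap_LB_sup hs l0 l1 v
  have hD : ∀ a v, Fr.D (⟨cc p, rk, fun _ => 0⟩ : Fr Lab k) (cc p) a v = 0 := fun a v => by
    unfold Fr.D clm LB
    rw [sub_eq_zero]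
    refine sum_congr rfl fun i _ => ?_
    rcases cc_01 p (a :: v) i with h1 | h1
    · show tau (cc p (a :: v) i) = _
      rw [h1, tau_zero, ell_zero]
    · show tau (cc p (a :: v) i) = _
      rw [h1, tau_one, ell_one]
  have hok : Fr.OK (⟨cc p, rk, fun _ => 0⟩ : Fr Lab k) J (cc p) := by
    refine ⟨h0, fun _ => le_rfl, fun _ => zero_le_one, fun a v hl => ?_⟩
    unfold Fr.phi
    rw [hD, zero_div]
    exact cl_self (h0.η_pos hl).le (h0.δ_pos hl).le le_rfl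
  obtain ⟨cfg, hc⟩ := exists_cfg hM (hok.yOK M)
  refine ⟨⟨⟨cc p, rk, fun _ => 0⟩, cc p, fun v => s (la v), cfg⟩, rfl, rfl,
    fun v => ⟨la v, rfl⟩, fun B hB e1 e2 => ⟨?_, hr2, cc_nonneg p, cc_le_one p, ?_, hc⟩⟩
  · rw [yy_const hB e1]; exact hok
  · rintro v y - ⟨ω, l, h1, h2, h3⟩
    have h4 : B.Mem v (s (la v)) := ⟨ω, la v, h1, by
      rw [e1] at h2 ⊢
      exact hla v ⟨l, h2⟩, by rw [e2]⟩
    refine (hB.geo v _ y h4 ⟨ω, l, h1, h2, h3⟩).trans ?_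
    linarith [tupd2_wt hW v.length]

end Vale.Agent.P304.Sq
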