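import Vale.Agent.P304.Sq.TLam

/-! P304 tight bound, TREE: invariants of the fractional masses.

PLAN.  key: induction on v (R_le for v follows from key for v: C v - Y v <= sum_act (clm - LB (lam v)) = S by h.sup,
LB >= 0 for inactive children).  Root: LB <= sq2 = k.
Light a: Y = clm - R g, R g <= S (1+eta)^3 phi = (1+eta)^3 D (if S = 0 then R = 0), so
Y >= LB(lam v) - ((1+eta)^3 - 1) D and LB_shift with t = (1+eta)^3 - 1 <= 4 eta, 12 t <= 50 eta (lam_light).
Heavy a (the only active child that is not light: heavy_unique, active_iff; so C = clm_a + sum_light clm, S = D_a + sum_light D):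
Y_a = Y v - sum_light clm + R sum_light g.  If R = 0 then Y v >= C and Y_a >= clm_a >= LB.  If R > 0 then Y v = C - R,
Y_a = clm_a - R (1 - sum g); with s = sum_light eta*delta <= 1/(300 Sk): S * sum g >= sum (1+eta) D - 3 s S (gg_ge, S phi = D),
3 s <= 1/(100 Sk) <= eta_b, so S (1 - sum g) <= (1 + 3 s) D_a, R (1 - sum g) <= (1+3s) D_a (R <= S; trivial if 1 - sum g <= 0),
LB_shift with t = 3 s, inc = 36 s = 12 t.
sum_light: heavy child exists: Y_heavy' and Y_a >= 0.  No heavy child: S = sum_light D, C = sum_light clm,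
sum Y = C - R sum g; R = 0: C <= Y v; R > 0: S > 0 and S sum g >= S + S/(100 Sk) - 3 s S >= S.
Y_le_th: root k = sq2 < th, light Y <= clm <= 4 sq2 < 4 th, heavy Y_a <= Y v (light masses >= 0), inactive 0.
occupied: sq2 (y v) >= 1, all ancestors have sq2 >= 1 (NuOK.anti), rk_pos, er_pos, key, ell_one. -/

set_option linter.unusedSectionVars false

namespace Vale.Agent.P304.Sq

open Finset

variable {Lab : Type} [Fintype Lab] [DecidableEq Lab] {k : ℕ} {W : ℝ} {J : ℕ}
  {f f' : Fr Lab k} {y y' : List Lab → Fin k → ℝ} {a : Lab} {v : List Lab}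

theorem Fr.Y_light (hl : Light f.rk a v) : f.Y (a :: v) = clm (f.yt (a :: v)) - f.R v * f.g a v := by
  rw [Fr.Y, if_neg fun h => h.not_light hl, I1_of hl, one_mul, Fr.R]

theorem Fr.Y_off (h : ¬Act f.rk a v) : f.Y (a :: v) = 0 := by
  rw [Fr.Y, if_neg fun k => h (active_iff.2 (Or.inl k)),
    I1_of_not fun k => h (act_of_light k), zero_mul]

theorem Fr.Y_heavy (h : Heavy f.rk a v) :
    f.Y (a :: v) = f.Y v - ∑ b, I1 (Light f.rk b v) * f.Y (b :: v) := by
  rw [Fr.Y, if_pos h]
  refine congrArg _ (sum_congr rfl fun b _ => ?_)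
  by_cases hl : Light f.rk b v
  · rw [Fr.Y_light hl, Fr.R]
  · rw [I1_of_not hl, zero_mul, zero_mul]

theorem ty_heavy (h : f.OK0 J y) (ha : Heavy f.rk a v) (F : Lab → ℝ) :
    ∑ b, I1 (Act f.rk b v) * F b = F a + ∑ b, I1 (Light f.rk b v) * F b := by
  rw [← add_sum_erase _ _ (mem_univ a), ← add_sum_erase _ _ (mem_univ a),
    I1_of (show Act f.rk a v from active_iff.2 (Or.inl ha)), I1_of_not ha.not_light, one_mul,
    zero_mul, zero_add]
  refine congrArg _ (sum_congr rfl fun b hb => ?_)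
  rw [show Act f.rk b v ↔ Light f.rk b v from active_iff.trans
    (or_iff_right fun k => (mem_erase.1 hb).1 (heavy_unique h.nu h.r k ha))]

theorem ty_none (c : ¬∃ a, Heavy f.rk a v) (F : Lab → ℝ) :
    ∑ b, I1 (Act f.rk b v) * F b = ∑ b, I1 (Light f.rk b v) * F b :=
  sum_congr rfl fun b _ => by
    rw [show Act f.rk b v ↔ Light f.rk b v from active_iff.trans (or_iff_right fun k => c ⟨b, k⟩)]

theorem ty_light (f : Fr Lab k) (v : List Lab) : ∑ b, I1 (Light f.rk b v) * f.Y (b :: v) =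
    ∑ b, I1 (Light f.rk b v) * clm (f.yt (b :: v)) - f.R v * ∑ b, I1 (Light f.rk b v) * f.g b v := by
  rw [mul_sum, ← sum_sub_distrib]
  refine sum_congr rfl fun b _ => ?_
  by_cases hl : Light f.rk b v
  · rw [Fr.Y_light hl]
    ring
  · rw [I1_of_not hl]
    ring

theorem ty_R (h : f.OK0 J y) (hk : LB (f.lam v) (y v) ≤ f.Y v) : f.R v ≤ f.S y v := by
  refine max_le ?_ (h.S_nonneg v)
  have h1 := h.sup _ (h.lam_nonneg v) (h.lam_le_one v) v
  have h2 : ∑ a, I1 (Act f.rk a v) * LB (f.lam v) (y (a :: v)) ≤ ∑ a, LB (f.lam v) (y (a :: v)) :=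
    sum_le_sum fun a _ => mul_le_of_le_one_left
      (h.LB_bd (h.lam_nonneg v) (h.lam_le_one v) _).1 (I1_le_one _)
  simp only [Fr.S, Fr.D, mul_sub, sum_sub_distrib, Fr.C]
  linarith

theorem ty_phi (h : f.OK0 J y) (ha : Act f.rk a v) : f.S y v * f.phi y a v = f.D y a v := by
  rcases (h.S_nonneg v).eq_or_lt with z | z
  · rw [← z, zero_mul]
    exact le_antisymm (h.D_nonneg a v) ((h.D_le_S ha).trans z.ge)
  · rw [Fr.phi, mul_div_cancel₀ _ z.ne']

theorem ty_g (h : f.OK J y) (v : List Lab) :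
    0 ≤ ∑ b, I1 (Light f.rk b v) * (f.η b v * f.δ b v) ∧
    3 * ∑ b, I1 (Light f.rk b v) * (f.η b v * f.δ b v) ≤ 1 / (100 * (Sk k : ℝ)) ∧
    (1 + 1 / (100 * (Sk k : ℝ))) * ∑ b, I1 (Light f.rk b v) * f.D y b v -
      3 * (∑ b, I1 (Light f.rk b v) * (f.η b v * f.δ b v)) * f.S y v ≤
      f.S y v * ∑ b, I1 (Light f.rk b v) * f.g b v := by
  refine ⟨sum_nonneg fun b _ => ?_, ?_, ?_⟩
  · by_cases hl : Light f.rk b v
    · exact mul_nonneg (I1_nonneg _) (mul_pos (h.η_pos hl) (h.δ_pos hl)).le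
    · rw [I1_of_not hl, zero_mul]
  · exact (mul_le_mul_of_nonneg_left (h.sum_ηδ v) zero_le_three).trans (le_of_eq (by ring))
  · rw [mul_sum, mul_sum, mul_sum, sum_mul, ← sum_sub_distrib]
    refine sum_le_sum fun b _ => ?_
    by_cases hl : Light f.rk b v
    · have h1 := mul_le_mul_of_nonneg_left (gg_ge (h.η_pos hl).le (h.η_le b v) (h.δ_pos hl).le
        (h.cl b v hl)) (h.S_nonneg v)
      have h2 := mul_le_mul_of_nonneg_right (h.η_ge hl) (h.D_nonneg b v)
      rw [mul_sub, mul_left_comm, ty_phi h.toOK0 (act_of_light hl)] at h1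
      rw [I1_of hl, Fr.g]
      linarith
    · rw [I1_of_not hl]
      simp

theorem ty_le (h : f.OK J y) (hh : ¬Heavy f.rk a v) : f.Y (a :: v) ≤ 4 * sq2 (y (a :: v)) := by
  by_cases hl : Light f.rk a v
  · rw [Fr.Y_light hl]
    exact (sub_le_self _ (mul_nonneg (le_max_right _ _) (gg_nonneg _ _ _))).trans (h.clm_le _)
  · rw [Fr.Y_off fun k => (active_iff.1 k).elim hh hl]
    exact mul_nonneg (by norm_num) (h.nu.nonneg _)

namespace Fr.OK

theorem key (h : f.OK J y) (hv : 0 < er f.rk v) : LB (f.lam v) (y v) ≤ f.Y v := by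
  induction v with
  | nil => exact (h.LB_bd (h.lam_nonneg _) (h.lam_le_one _) []).2.1.trans h.nu.root.le
  | cons a v ih =>
    have hD := h.D_nonneg a v
    have hD' : clm (f.yt (a :: v)) = f.D y a v + LB (f.lam v) (y (a :: v)) := by
      rw [Fr.D, sub_add_cancel]
    have hR0 : 0 ≤ f.R v := le_max_right _ _
    rcases active_iff.1 hv with hh | hl
    · have hR := ty_R h.toOK0 (ih hh.1)
      obtain ⟨s0, s1, s2⟩ := ty_g h v
      have s3 : f.S y v = _ := ty_heavy h.toOK0 hh fun b => f.D y b v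
      have s4 : f.C v = _ := ty_heavy h.toOK0 hh fun b => clm (f.yt (b :: v))
      have s5 := h.LB_shift a v (mul_nonneg zero_le_three s0) (mu := f.lam (a :: v)) (by
        rw [Fr.lam, if_pos hh, Fr.inc]
        linarith)
      have s6 : f.C v - f.Y v ≤ f.R v := le_max_left _ _
      have s7 : 0 ≤ ∑ b, I1 (Light f.rk b v) * f.D y b v :=
        sum_nonneg fun b _ => mul_nonneg (I1_nonneg _) (h.D_nonneg b v)
      rw [Fr.Y_heavy hh, ty_light]
      generalize ∑ b, I1 (Light f.rk b v) * f.g b v = G at *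
      generalize ∑ b, I1 (Light f.rk b v) * (f.η b v * f.δ b v) = s at *
      generalize ∑ b, I1 (Light f.rk b v) * f.D y b v = SL at *
      have s8 : f.R v * (1 - G) ≤ (1 + 3 * s) * f.D y a v := by
        rcases le_total G 1 with g | g
        · have := mul_le_mul_of_nonneg_right hR (sub_nonneg.2 g)
          have := mul_le_mul_of_nonneg_right s1 s7
          rw [s3] at *
          linarith
        · exact (mul_nonpos_of_nonneg_of_nonpos hR0 (sub_nonpos.2 g)).trans (by positivity)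
      linarith
    · have hR := ty_R h.toOK0 (ih (hl.1.trans hl.2))
      have e0 := (h.η_pos hl).le
      have e1 := h.η_le a v
      have s1 : f.g a v ≤ _ := gg_le e0 (h.phi_bd (act_of_light hl)).1 (h.cl a v hl)
      have s2 := ty_phi h.toOK0 (act_of_light hl)
      have s3 : f.R v * f.g a v ≤ (1 + f.η a v) ^ 3 * f.D y a v := by
        rw [← s2, mul_left_comm]
        exact mul_le_mul hR s1 (gg_nonneg _ _ _) (h.S_nonneg v)
      have s5 := h.LB_shift a v (t := (1 + f.η a v) ^ 3 - 1) (mu := f.lam (a :: v))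
        (sub_nonneg.2 (one_le_pow₀ (by linarith))) (le_trans (by
          nlinarith [mul_le_mul_of_nonneg_left e1 e0, mul_le_mul_of_nonneg_left e1 (sq_nonneg (f.η a v))])
          (h.lam_light hl))
      rw [Fr.Y_light hl]
      linarith

theorem R_le (h : f.OK J y) (hv : 0 < er f.rk v) : f.R v ≤ f.S y v := by
  exact ty_R h.toOK0 (h.key hv)

theorem inactive (h : f.OK J y) (hv : er f.rk v = 0) : f.Y v = 0 := by
  cases v with
  | nil => exact absurd hv h.root_pos.ne'
  | cons a v => exact Fr.Y_off fun k => k.ne' hv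

theorem Y_nonneg (h : f.OK J y) (v : List Lab) : 0 ≤ f.Y v := by
  rcases (er f.rk v).eq_zero_or_pos with z | z
  · exact (h.inactive z).ge
  · exact (h.LB_bd (h.lam_nonneg v) (h.lam_le_one v) v).1.trans (h.key z)

theorem sum_light (h : f.OK J y) (v : List Lab) :
    ∑ b, I1 (Light f.rk b v) * f.Y (b :: v) ≤ f.Y v := by
  rcases (er f.rk v).eq_zero_or_pos with z | z
  · rw [sum_eq_zero fun b _ => by rw [I1_of_not fun k => by have := k.2; omega, zero_mul]]
    exact h.Y_nonneg v
  by_cases c : ∃ a, Heavy f.rk a v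
  · obtain ⟨a, ha⟩ := c
    linarith [Fr.Y_heavy ha, h.Y_nonneg (a :: v)]
  have s3 : f.S y v = _ := ty_none c fun b => f.D y b v
  have s4 : f.C v = _ := ty_none c fun b => clm (f.yt (b :: v))
  obtain ⟨s0, s1, s2⟩ := ty_g h v
  have hR := h.R_le z
  rw [ty_light, ← s4]
  rcases le_or_gt (f.C v - f.Y v) 0 with c | c
  · rw [Fr.R, max_eq_right c]
    linarith
  · have e : f.R v = f.C v - f.Y v := max_eq_left c.le
    have s5 : 1 ≤ ∑ b, I1 (Light f.rk b v) * f.g b v := by
      refine le_of_mul_le_mul_left ?_ (show 0 < f.S y v by linarith)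
      have := mul_le_mul_of_nonneg_right s1 (h.S_nonneg v)
      rw [← s3] at s2
      linarith
    have := mul_le_mul_of_nonneg_left s5 (show 0 ≤ f.R v by linarith)
    linarith

theorem sum_Y (h : f.OK J y) (v : List Lab) : ∑ b, f.Y (b :: v) ≤ f.Y v := by
  have e : ∑ b, f.Y (b :: v) = ∑ b, I1 (Act f.rk b v) * f.Y (b :: v) := sum_congr rfl fun b _ => by
    by_cases hb : Act f.rk b v
    · rw [I1_of hb, one_mul]
    · rw [Fr.Y_off hb, mul_zero]
  by_cases c : ∃ a, Heavy f.rk a v
  · obtain ⟨a, ha⟩ := c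
    rw [e, ty_heavy h.toOK0 ha fun b => f.Y (b :: v), Fr.Y_heavy ha, sub_add_cancel]
  · rw [e, ty_none c fun b => f.Y (b :: v)]
    exact h.sum_light v

theorem Y_le_th (h : f.OK J y) (v : List Lab) : f.Y v ≤ 4 * th (2 * er f.rk v + 4) := by
  induction v with
  | nil =>
    have h1 := nu_lt h.nu h.r []
    have h2 := h.nu.root
    have h3 := th_pos (2 * er f.rk [] + 4)
    rw [Fr.Y]
    linarith
  | cons a v ih =>
    by_cases hh : Heavy f.rk a v
    · rw [hh.er_eq, Fr.Y_heavy hh]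
      exact (sub_le_self _ (sum_nonneg fun b _ => mul_nonneg (I1_nonneg _) (h.Y_nonneg _))).trans ih
    · exact (ty_le h hh).trans (mul_le_mul_of_nonneg_left (nu_lt h.nu h.r _).le (by norm_num))

theorem Y_le (h : f.OK J y) (v : List Lab) : f.Y v ≤ 8 * sq2 (y v) := by
  rcases (er f.rk v).eq_zero_or_pos with z | z
  · rw [h.inactive z]
    exact mul_nonneg (by norm_num) (h.nu.nonneg v)
  · linarith [h.Y_le_th v, th_add_four (2 * er f.rk v), le_nu h.r z]

theorem occupied (h : f.OK J y) {i : Fin k} (hv : y v i = 1) : 1 ≤ f.Y v := by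
  have h1 : 1 ≤ sq2 (y v) := le_trans (by rw [hv, one_pow])
    (single_le_sum (f := fun i => y v i ^ 2) (fun _ _ => sq_nonneg _) (mem_univ i))
  refine le_trans ?_ (h.key (er_pos fun u hu => rk_pos (h.r u) (h1.trans (h.nu.anti hu))))
  exact le_trans (by rw [hv, ell_one]) (single_le_sum (f := fun i => ell (f.lam v) (y v i))
    (fun j _ => ell_nonneg (h.lam_nonneg v) (h.lam_le_one v) (h.y0 v j)) (mem_univ i))

end Fr.OK

end Vale.Agent.P304.Sq
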