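import Vale.Agent.P304.Sq.TPotF
import Vale.Agent.P304.Sq.TPotA
import Vale.Agent.P304.Sq.TUpd

/-! P304 tight bound, TREE: assembly. -/

set_option linter.unusedSectionVars false

namespace Vale.Agent.P304.Sq

open Finset

variable {Lab : Type} [Fintype Lab] [DecidableEq Lab] {k M : ℕ} {X : Type} [MetricSpace X]
  {Ω : Type} [Fintype Ω] {W : ℝ} {J : ℕ} {A A' : Pic Ω Lab X k} {S S' : St2 Lab X k M}

noncomputable def Phi2 (W : ℝ) (J : ℕ) (y : List Lab → Fin k → ℝ) (S : St2 Lab X k M)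
    (p : Fin k → List Lab) (x : Fin k → X) : ℝ :=
  9900 * PhiF W J y S.toFr p + 10 ^ 9 * Sk k * PhiS W J S.yt p + 10 ^ 11 * Sk k * PhiS W J S.yb p +
    32 * PhiA2 J S p x

theorem Step2.ineq (h : Step2 W J A A' S S') :
    ∑ ω, A'.w ω * ((∑ j, ∑ l, dist (S.an (S.cfg j l)) (S'.an (S'.cfg j l))) / M +
      Phi2 W J (yy A') S' (A'.P ω) (A'.x ω) - Phi2 W J (yy A) S (A.P ω) (A.x ω) -
      (10 ^ 12 * Lk k * ∑ l, td W J (A.P ω l) (A'.P ω l) +
        10 ^ 12 * Lk k * ∑ l, dist (A.x ω l) (A'.x ω l) + 1100 * Err Lab W J / M)) ≤ 0 := by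
  have hk := h.v.ok.hk
  have hW := h.hW
  have hM : (0 : ℝ) < M := by exact_mod_cast h.hM
  have hS : (1 : ℝ) ≤ Sk k := by exact_mod_cast Sk_pos hk
  have hS5 := Sk_le hk
  have hL := two_le_Lk (k := k) (by omega)
  set c := (∑ j, ∑ l, dist (S.an (S.cfg j l)) (S'.an (S'.cfg j l))) / M with hc
  set dT := DT W J S.toFr S'.toFr
  set dF := DF W J (yy A') S.toFr S'.toFr
  set dZ := DZ2 W J (yy A) (yy A') S.toFr S'.toFr
  have hT : 0 ≤ dT := TS_nonneg hW fun v => sum_nonneg fun _ _ => sq_nonneg _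
  have hZ : 0 ≤ dZ := TS_nonneg hW fun v =>
    mul_nonneg (I1_nonneg _) (add_nonneg (sq2_nonneg _) (sq2_nonneg _))
  have c1 : c ≤ 660000 * dT + 3300 * dF + 110000 * dZ + 8 * DA2 J A' S S' + 1100 * Err Lab W J / M := by
    have m1 := h.phys
    have m2 := h.u.c
    have m3 := YI_move hW h.v.ok h.v'.ok M
    have m4 := mul_le_mul_of_nonneg_left (move_Y2 hW h.v.ok h.v'.ok h.u.f) hM.le
    rw [hc, div_le_iff₀ hM, add_mul, div_mul_cancel₀ _ hM.ne']
    nlinarith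
  have pt : ∀ ω, A'.w ω * (c + Phi2 W J (yy A') S' (A'.P ω) (A'.x ω) - Phi2 W J (yy A) S (A.P ω) (A.x ω) -
      (10 ^ 12 * Lk k * ∑ l, td W J (A.P ω l) (A'.P ω l) +
        10 ^ 12 * Lk k * ∑ l, dist (A.x ω l) (A'.x ω l) + 1100 * Err Lab W J / M)) ≤
      A'.w ω * (c - 1100 * Err Lab W J / M) +
        9900 * (A'.w ω * (PhiF W J (yy A') S'.toFr (A'.P ω) - PhiF W J (yy A) S.toFr (A'.P ω))) +
        10 ^ 9 * Sk k * (A'.w ω * (PhiS W J S'.yt (A'.P ω) - PhiS W J S.yt (A'.P ω))) +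
        10 ^ 11 * Sk k * (A'.w ω * (PhiS W J S'.yb (A'.P ω) - PhiS W J S.yb (A'.P ω))) +
        32 * (A'.w ω * (PhiA2 J S' (A'.P ω) (A'.x ω) - PhiA2 J S (A'.P ω) (A'.x ω))) := by
    intro ω
    rcases (h.s'.nonneg ω).eq_or_lt with z | z
    · simp [← z]
    have t0 : 0 ≤ ∑ l, td W J (A.P ω l) (A'.P ω l) := sum_nonneg fun l _ => td_nonneg hW _ _
    have d0 : 0 ≤ ∑ l, dist (A.x ω l) (A'.x ω l) := sum_nonneg fun l _ => dist_nonneg
    have a0 := PhiF_lip hW h.v.ok (h.s.len ω) (h.s'.len ω)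
    have a1 := PhiS_lip (J := J) hW h.v.ok.t0 h.v.ok.t1 (A.P ω) (A'.P ω)
    have a2 := PhiS_lip (J := J) hW h.v.b0 h.v.b1 (A.P ω) (A'.P ω)
    have a3 := h.PhiA_lip z
    generalize ∑ l, td W J (A.P ω l) (A'.P ω l) = t at *
    generalize ∑ l, dist (A.x ω l) (A'.x ω l) = d at *
    have b1 := mul_le_mul_of_nonneg_left a1 (show (0 : ℝ) ≤ 10 ^ 9 * Sk k by positivity)
    have b2 := mul_le_mul_of_nonneg_left a2 (show (0 : ℝ) ≤ 10 ^ 11 * Sk k by positivity)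
    have b3 : 1 * t ≤ Sk k * t := by gcongr
    have b4 : Sk k * d ≤ 5 * Lk k * d := by gcongr
    have b5 : 0 ≤ Lk k * d := by positivity
    have b6 : Sk k * t ≤ 5 * Lk k * t := by gcongr
    have b7 : 0 ≤ Lk k * t := by positivity
    rw [mul_left_comm 9900, mul_left_comm (10 ^ 9 * (Sk k : ℝ)), mul_left_comm (10 ^ 11 * (Sk k : ℝ)),
      mul_left_comm 32, ← mul_add (A'.w ω), ← mul_add (A'.w ω), ← mul_add (A'.w ω), ← mul_add (A'.w ω)]
    refine mul_le_mul_of_nonneg_left ?_ z.le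
    unfold Phi2
    nlinarith
  refine (sum_le_sum fun ω _ => pt ω).trans ?_
  rw [sum_add_distrib, sum_add_distrib, sum_add_distrib, sum_add_distrib, ← sum_mul, h.s'.sum,
    ← mul_sum, ← mul_sum, ← mul_sum, ← mul_sum]
  have q1 := mul_le_mul_of_nonneg_left h.PhiT_upd (show (0 : ℝ) ≤ 10 ^ 9 * Sk k by positivity)
  have q2 := mul_le_mul_of_nonneg_left h.PhiB_upd (show (0 : ℝ) ≤ 10 ^ 11 * Sk k by positivity)
  have q3 := h.PhiF_upd
  have q4 := h.PhiA_upd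
  have r1 : 1 * dT ≤ Sk k * dT := by gcongr
  have r2 : 1 * dZ ≤ Sk k * dZ := by gcongr
  nlinarith

theorem tree2 : TreeStmt2 := by
  refine ⟨10 ^ 12, by norm_num, ?_⟩
  intro k hk Ω _ F X _ Lab _ _ W J T n₀ D s p₀ p x hW hsep hlen hp0 hx0 hD hn₀ hgeo hstep
  have hL := two_le_Lk (k := k) (by omega)
  have hw := wt_pos hW n₀
  have hE : 0 ≤ Err Lab W J := by
    unfold Err
    have := TS_nonneg (J := J) (Lab := Lab) hW (f := fun _ => 1) fun _ => zero_le_one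
    positivity
  obtain ⟨M, hM0⟩ := exists_nat_gt (T * (1100 * Err Lab W J) / wt W n₀)
  have hM : (0 : ℝ) < M := lt_of_le_of_lt (by positivity) hM0
  have hM' : 0 < M := by exact_mod_cast hM
  have herr : T * (1100 * Err Lab W J / M) ≤ wt W n₀ := by
    rw [div_lt_iff₀ hw] at hM0
    rw [← mul_div_assoc, div_le_iff₀ hM]
    linarith
  let pic : ℕ → Ω → Pic Ω Lab X k := fun t ω => ⟨F.cw t ω, p t, x t⟩
  have pic_congr : ∀ t ω ω', F.rel t ω ω' → pic t ω = pic t ω' := fun t ω ω' h => by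
    simp only [pic, F.cw_congr h]
  have snap : ∀ t ω, Snap W J (pic t ω) := fun t ω =>
    ⟨F.cw_nonneg t ω, F.sum_cw t ω, hlen t, by
      rintro v _ _ ⟨a, l, ha, hv, rfl⟩ ⟨b, l', hb, hv', rfl⟩
      exact hgeo t a b l l' v (F.rel_trans (F.rel_symm (F.cw_pos_iff.1 ha)) (F.cw_pos_iff.1 hb)) hv hv'⟩
  have move : ∀ t ω, Move W (pic t ω) (pic (t + 1) ω) := fun t ω =>
    ⟨fun a ha => F.cw_pos_iff.2 (F.anti _ _ _ (F.cw_pos_iff.1 ha)),
      (hstep t).imp id fun h => ⟨F.cw_succ_eq h.1 ω, h.2⟩⟩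
  obtain ⟨ω₀⟩ := F.nonempty
  obtain ⟨S₀, i1, i2, i3, i4⟩ := exists_init2 hk hM' hW p₀ s (snap 0 ω₀) (funext hp0) (funext hx0)
  obtain ⟨st, ad, st0, val, upd⟩ := F.exists_adapted S₀ (fun t ω S => Valid2 W J (pic t ω) S)
    (fun t ω S S' => Upd2 W J (pic (t + 1) ω) S S') (fun t ω ω' a h => by rw [pic_congr t ω ω' h]; exact id)
    (fun t ω ω' a b h => by rw [pic_congr _ ω ω' h]; exact id)
    (fun ω => i4 _ (snap 0 ω) (funext hp0) (funext hx0)) fun t ω a h => exists_upd2 hM' hW h (snap _ ω)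
  let V : Fin M → ℕ → Ω → Fin k → X := fun j t ω i => (st t ω).an ((st t ω).cfg j i)
  have tel := F.telescope T (fun t ω => (∑ j, ∑ l, dist (V j t ω l) (V j (t + 1) ω l)) / M)
    (fun t ω => 10 ^ 12 * Lk k * ∑ l, td W J (p t ω l) (p (t + 1) ω l) +
      10 ^ 12 * Lk k * ∑ l, dist (x t ω l) (x (t + 1) ω l) + 1100 * Err Lab W J / M)
    (fun t ω => Phi2 W J (yy (pic t ω)) (st t ω) (p t ω) (x t ω)) (fun t _ ω => by
      refine le_trans (le_of_eq (F.ce_congr fun a ha => ?_)) (Step2.ineq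
        ⟨hM', hW, snap t ω, snap _ ω, move t ω, val t ω, val _ ω, upd t ω⟩)
      simp only [V, ← ad _ _ _ ha, ← ad _ _ _ (F.anti _ _ _ ha), ← pic_congr _ _ _ ha,
        ← pic_congr _ _ _ (F.anti _ _ _ ha)]
      rfl) fun ω => by
      rw [F.ce_congr (g := fun a => Phi2 W J (yy (pic T ω)) (st T ω) (p T a) (x T a)) fun a ha => by
        rw [← ad _ _ _ ha, ← pic_congr _ _ _ ha]]
      have a1 := PhiF_nonneg hW (snap T ω) (val T ω).ok
      have a2 : 0 ≤ ∑ a, F.cw T ω a * PhiS W J (st T ω).yt (p T a) :=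
        sum_nonneg fun a _ => mul_nonneg (F.cw_nonneg _ _ _) (PhiS_nonneg hW _ _)
      have a4 : 0 ≤ ∑ a, F.cw T ω a * PhiS W J (st T ω).yb (p T a) :=
        sum_nonneg fun a _ => mul_nonneg (F.cw_nonneg _ _ _) (PhiS_nonneg hW _ _)
      have a3 : 0 ≤ ∑ a, F.cw T ω a * PhiA2 J (st T ω) (p T a) (x T a) :=
        sum_nonneg fun a _ => mul_nonneg (F.cw_nonneg _ _ _) (PhiA2_nonneg (val T ω) _ _)
      simp only [Phi2, mul_add, sum_add_distrib, mul_left_comm (F.cw T ω _), ← mul_sum]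
      positivity
  have hD0 : 0 ≤ D := dist_nonneg.trans (hD ⟨0, by omega⟩ ⟨0, by omega⟩)
  have hdist : ∀ l v, dist (s l) (S₀.an v) ≤ D := fun l v => by
    obtain ⟨l', e⟩ := i3 v
    rw [e]
    exact hD l l'
  have hk' : (2 : ℝ) ≤ k := by exact_mod_cast hk
  have init : F.E (fun ω => Phi2 W J (yy (pic 0 ω)) (st 0 ω) (p 0 ω) (x 0 ω)) + k * D + wt W n₀ ≤
      10 ^ 12 * k * Lk k * (wt W n₀ + D) := by
    have e : ∀ ω, yy (pic 0 ω) = cc p₀ := fun ω => yy_const (snap 0 ω) (funext hp0)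
    simp only [e, st0, hp0, hx0, F.E_const, Phi2, PhiF_init i1, i1, i2, PhiS_init]
    have a2 := PhiA2_init (i4 _ (snap 0 ω₀) (funext hp0) (funext hx0)) p₀ hdist
    have a3 : (Sk k : ℝ) * k * D ≤ 5 * Lk k * k * D := by gcongr; exact Sk_le hk
    have a4 : (2 : ℝ) * (k * D) ≤ Lk k * (k * D) := by gcongr
    have a5 : 2 * 2 * wt W n₀ ≤ (k : ℝ) * Lk k * wt W n₀ := by gcongr
    have a6 : 0 ≤ (k : ℝ) * D := by positivity
    nlinarith
  obtain ⟨j, -, hj⟩ := exists_le_of_sum_le (s := (univ : Finset (Fin M)))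
    ⟨⟨0, hM'⟩, mem_univ _⟩
    (f := fun j => F.E fun ω => ∑ t ∈ range T, ∑ l, dist (V j t ω l) (V j (t + 1) ω l))
    (g := fun _ => F.E fun ω => ∑ t ∈ range T, (∑ j, ∑ l, dist (V j t ω l) (V j (t + 1) ω l)) / M) (by
      rw [sum_const, card_univ, Fintype.card_fin, nsmul_eq_mul, ← F.E_mul, ← F.E_sum]
      refine F.E_mono fun ω => le_of_eq ?_
      rw [sum_comm, ← sum_div, mul_div_cancel₀ _ hM.ne'])
  refine ⟨V j, fun t ω ω' h => by simp only [V, ad _ _ _ h], fun t ω v a hv ha =>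
    (val t ω).serve (snap t ω) hsep hv (fun b hb => ha b (F.cw_pos_iff.1 hb)) j, ?_⟩
  have first : F.E (fun ω => ∑ i, dist (s i) (V j 0 ω i)) ≤ k * D := by
    rw [← F.E_const (k * D)]
    refine F.E_mono fun ω => ?_
    simp only [V, st0]
    simpa using sum_le_card_nsmul univ _ D fun i _ => hdist i (S₀.cfg j i)
  simp only [sum_add_distrib, ← mul_sum, F.E_add, F.E_mul, sum_const, card_range, nsmul_eq_mul,
    F.E_const] at tel
  rw [F.E_add]
  linarith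

end Vale.Agent.P304.Sq
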